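import Crest.Agent.R318.Spec_135

/-!
# Row 318 (S0493): accounting step of the chain construction (helper135's design)

From a cover of the chain system by bins one gets, for every interior copy, a cover of the copy
system whose potential is bounded in terms of the number of wire bins through its level.
-/

set_option autoImplicit false

namespace Crest.Agent.R318.Acc75

open Finset Crest.Agent.R318.Spec135

/-- a cover with nonnegative offset has at least `length - o` bins -/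
theorem length_le_of_cov {ι : Type} {o : ℤ} {I : List ℤ} {s : Finset ι} {y : ι → ℤ} (ho : 0 ≤ o)
    (h : Cov o I s y) : (I.length : ℤ) ≤ o + s.card := by
  rcases I.eq_nil_or_concat with rfl | ⟨I', a, rfl⟩
  · simp only [List.length_nil, Nat.cast_zero]
    positivity
  · obtain ⟨m, hm, hmin⟩ : ∃ m ∈ I' ++ [a], ∀ z ∈ I' ++ [a], m ≤ z := by
      obtain ⟨m, hm⟩ := (I' ++ [a]).toFinset.exists_min_image id ⟨a, by simp⟩
      exact ⟨m, List.mem_toFinset.1 hm.1, fun z hz => hm.2 z (List.mem_toFinset.2 hz)⟩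
    rw [List.concat_eq_append] at h ⊢
    have h1 := h m hm
    have h2 : (I' ++ [a]).countP (fun z => decide (m ≤ z)) = (I' ++ [a]).length := by
      rw [List.countP_eq_length]
      intro z hz
      simpa using hmin z hz
    rw [h2] at h1
    have h3 : ((s.filter (fun i => m ≤ y i)).card : ℤ) ≤ s.card := by
      exact_mod_cast card_filter_le _ _
    linarith

section account

variable {ι : Type} (s : Finset ι) (lev1 lev2 u3 rk : ι → ℕ) (w1 w2 : ι → Option ℤ) (v3 : ι → ℤ)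
  (S : Sys) (l G : ℕ) (rho : ℕ → ℕ) (k h h' : ℕ) (o1 o2 o3 : ℤ)

open Classical in
/-- Everything the accounting argument needs to know about the bins of a chain.
`lev1`, `lev2`: levels in slots 1 and 2; `w1`, `w2`: inner value if the item lies in a copy;
`u3`: `0` for wires, `t` for items of copy `t`, `> G` for the top items; `rk`: rank of a wire;
`v3`: inner value in slot 3. -/
structure Data : Prop where
  wf : S.Wf
  l_even : Even l
  G_even : Even G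
  two_le : 2 ≤ l
  l_le : l ≤ G
  h_le : h + G + G * (k + h + G) ≤ h'
  rob : Rob S k h'
  /-- the trichotomy: ascending bins, inner bins, wire bins -/
  geo : ∀ i ∈ s, lev1 i < lev2 i ∨
    (lev1 i = lev2 i ∧ 1 ≤ u3 i ∧ u3 i ≤ lev1 i ∧
      ∃ y1 y2, w1 i = some y1 ∧ w2 i = some y2 ∧
        (u3 i = lev1 i → IsBin S y1 y2 (v3 i)) ∧ (u3 i < lev1 i → IsBin S y1 y2 (-(S.w : ℤ)))) ∨
    (u3 i = 0 ∧ lev2 i ≤ lev1 i)
  c1 : ∀ t, l ≤ t → t ≤ G → ∀ x ∈ S.I1,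
    ((G + l - t : ℕ) : ℤ) + ((G - t : ℕ) : ℤ) * S.I1.length +
      S.I1.countP (fun z => decide (x ≤ z)) ≤
      o1 + #{i ∈ s | t < lev1 i ∨ (lev1 i = t ∧ ∀ y, w1 i = some y → x ≤ y)}
  c1z : ∀ t, l ≤ t → t ≤ G →
    ((G + l - t : ℕ) : ℤ) + ((G - t : ℕ) : ℤ) * S.I1.length ≤
      o1 + #{i ∈ s | t < lev1 i ∨ (lev1 i = t ∧ w1 i = none)}
  c2 : ∀ t, l ≤ t → t ≤ G → ∀ x ∈ S.I2,
    (t : ℤ) + ((t - l : ℕ) : ℤ) * S.I1.length + S.I2.countP (fun z => decide (x ≤ z)) ≤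
      o2 + #{i ∈ s | lev2 i < t ∨ (lev2 i = t ∧ ∀ y, w2 i = some y → x ≤ y)}
  c2z : ∀ t, l ≤ t → t ≤ G →
    (t : ℤ) + ((t - l : ℕ) : ℤ) * S.I1.length ≤
      o2 + #{i ∈ s | lev2 i < t ∨ (lev2 i = t ∧ w2 i = none)}
  c3 : ∀ t, l ≤ t → t ≤ G → ∀ x ∈ S.I3,
    (((G + l) / 2 : ℕ) : ℤ) + ((G - t : ℕ) : ℤ) * S.I1.length +
      S.I3.countP (fun z => decide (x ≤ z)) ≤
      o3 + #{i ∈ s | t < u3 i ∨ (u3 i = t ∧ x ≤ v3 i)}
  c4 : (((G + l) / 2 : ℕ) : ℤ) + ((G + 1 - l : ℕ) : ℤ) * S.I1.length ≤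
      o3 + #{i ∈ s | 1 ≤ u3 i}
  c5 : ∀ r, 2 * ((G : ℤ) + (l / 2 : ℕ) + ((G + 1 - l : ℕ) : ℤ) * S.I1.length) -
      #{j ∈ range G | r < rho j} ≤ 2 * (o3 + #{i ∈ s | ¬ (u3 i = 0 ∧ r < rk i)})
  hU : o1 + o2 + #s ≤ ((G : ℤ) + (l / 2 : ℕ) + ((G + 1 - l : ℕ) : ℤ) * S.I1.length) + k
  hV : o3 + #s ≤ ((G : ℤ) + (l / 2 : ℕ) + ((G + 1 - l : ℕ) : ℤ) * S.I1.length) + h

variable {s lev1 lev2 u3 rk w1 w2 v3 S l G rho k h h' o1 o2 o3}

open Classical in
/-- bins inside the copy at level `t` -/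
noncomputable def inn (s : Finset ι) (lev1 lev2 u3 : ι → ℕ) (t : ℕ) : Finset ι :=
  {i ∈ s | lev1 i = t ∧ lev2 i = t ∧ 1 ≤ u3 i}

open Classical in
/-- wire bins through level `t` -/
noncomputable def cov (s : Finset ι) (lev1 lev2 u3 : ι → ℕ) (t : ℕ) : Finset ι :=
  {i ∈ s | u3 i = 0 ∧ lev2 i ≤ t ∧ t ≤ lev1 i}

open Classical in
/-- offset of copy `t` in slot 1 -/
noncomputable def O1 (s : Finset ι) (lev1 lev2 u3 : ι → ℕ) (l G B' : ℕ) (o1 : ℤ) (t : ℕ) : ℤ :=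
  o1 + #{i ∈ s | ¬ (lev1 i = t ∧ lev2 i = t ∧ 1 ≤ u3 i) ∧ t ≤ lev1 i} -
    (((G + l - t : ℕ) : ℤ) + ((G - t : ℕ) : ℤ) * B')

open Classical in
/-- offset of copy `t` in slot 2 -/
noncomputable def O2 (s : Finset ι) (lev1 lev2 u3 : ι → ℕ) (l B' : ℕ) (o2 : ℤ) (t : ℕ) : ℤ :=
  o2 + #{i ∈ s | ¬ (lev1 i = t ∧ lev2 i = t ∧ 1 ≤ u3 i) ∧ lev2 i ≤ t} -
    ((t : ℤ) + ((t - l : ℕ) : ℤ) * B')

open Classical in
/-- offset of copy `t` in slot 3 -/
noncomputable def O3 (s : Finset ι) (lev1 lev2 u3 : ι → ℕ) (l G B' : ℕ) (o3 : ℤ) (t : ℕ) : ℤ :=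
  o3 + #{i ∈ s | ¬ (lev1 i = t ∧ lev2 i = t ∧ 1 ≤ u3 i) ∧ t ≤ u3 i} -
    ((((G + l) / 2 : ℕ) : ℤ) + ((G - t : ℕ) : ℤ) * B')

/-- inner value in slots 1, 2 -/
def val (w : ι → Option ℤ) (i : ι) : ℤ := (w i).getD 0

/-- inner value in slot 3, items below the copy are replaced by the phantom item -/
def val3 (u3 : ι → ℕ) (v3 : ι → ℤ) (w' : ℤ) (t : ℕ) (i : ι) : ℤ := if u3 i = t then v3 i else -w'

theorem cover1 (D : Data s lev1 lev2 u3 rk w1 w2 v3 S l G rho k h h' o1 o2 o3)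
    {t : ℕ} (ht : l ≤ t) (ht' : t ≤ G) :
    Cov (O1 s lev1 lev2 u3 l G S.I1.length o1 t) S.I1 (inn s lev1 lev2 u3 t) (val w1) := by
  classical
  intro x hx
  have h1 := D.c1 t ht ht' x hx
  have h2 : #{i ∈ s | t < lev1 i ∨ (lev1 i = t ∧ ∀ y, w1 i = some y → x ≤ y)} ≤
      #{i ∈ s | ¬ (lev1 i = t ∧ lev2 i = t ∧ 1 ≤ u3 i) ∧ t ≤ lev1 i} +
        #{i ∈ inn s lev1 lev2 u3 t | x ≤ val w1 i} := by
    rw [← card_union_of_disjoint]
    · refine card_le_card fun i hi => ?_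
      simp only [mem_filter, mem_union, inn] at hi ⊢
      obtain ⟨his, hi⟩ := hi
      by_cases hin : lev1 i = t ∧ lev2 i = t ∧ 1 ≤ u3 i
      · right
        refine ⟨⟨his, hin⟩, ?_⟩
        rcases hi with hi | ⟨hi, hy⟩
        · omega
        · rcases D.geo i his with hg | ⟨_, _, _, y1, y2, e1, e2, _⟩ | hg
          · omega
          · simpa [val, e1] using hy y1 e1
          · omega
      · left
        refine ⟨his, hin, ?_⟩
        rcases hi with hi | hi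
        · omega
        · omega
    · rw [disjoint_left]
      intro i hi hi'
      simp only [mem_filter, inn] at hi hi'
      exact hi.2.1 hi'.1.2
  rw [O1]
  have h3 : (#{i ∈ s | t < lev1 i ∨ (lev1 i = t ∧ ∀ y, w1 i = some y → x ≤ y)} : ℤ) ≤
      #{i ∈ s | ¬ (lev1 i = t ∧ lev2 i = t ∧ 1 ≤ u3 i) ∧ t ≤ lev1 i} +
        #{i ∈ inn s lev1 lev2 u3 t | x ≤ val w1 i} := by exact_mod_cast h2
  linarith

theorem cover2 (D : Data s lev1 lev2 u3 rk w1 w2 v3 S l G rho k h h' o1 o2 o3)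
    {t : ℕ} (ht : l ≤ t) (ht' : t ≤ G) :
    Cov (O2 s lev1 lev2 u3 l S.I1.length o2 t) S.I2 (inn s lev1 lev2 u3 t) (val w2) := by
  classical
  intro x hx
  have h1 := D.c2 t ht ht' x hx
  have h2 : #{i ∈ s | lev2 i < t ∨ (lev2 i = t ∧ ∀ y, w2 i = some y → x ≤ y)} ≤
      #{i ∈ s | ¬ (lev1 i = t ∧ lev2 i = t ∧ 1 ≤ u3 i) ∧ lev2 i ≤ t} +
        #{i ∈ inn s lev1 lev2 u3 t | x ≤ val w2 i} := by
    rw [← card_union_of_disjoint]
    · refine card_le_card fun i hi => ?_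
      simp only [mem_filter, mem_union, inn] at hi ⊢
      obtain ⟨his, hi⟩ := hi
      by_cases hin : lev1 i = t ∧ lev2 i = t ∧ 1 ≤ u3 i
      · right
        refine ⟨⟨his, hin⟩, ?_⟩
        rcases hi with hi | ⟨hi, hy⟩
        · omega
        · rcases D.geo i his with hg | ⟨_, _, _, y1, y2, e1, e2, _⟩ | hg
          · omega
          · simpa [val, e2] using hy y2 e2
          · omega
      · left
        refine ⟨his, hin, ?_⟩
        rcases hi with hi | hi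
        · omega
        · omega
    · rw [disjoint_left]
      intro i hi hi'
      simp only [mem_filter, inn] at hi hi'
      exact hi.2.1 hi'.1.2
  rw [O2]
  have h3 : (#{i ∈ s | lev2 i < t ∨ (lev2 i = t ∧ ∀ y, w2 i = some y → x ≤ y)} : ℤ) ≤
      #{i ∈ s | ¬ (lev1 i = t ∧ lev2 i = t ∧ 1 ≤ u3 i) ∧ lev2 i ≤ t} +
        #{i ∈ inn s lev1 lev2 u3 t | x ≤ val w2 i} := by exact_mod_cast h2
  linarith

theorem cover3 (D : Data s lev1 lev2 u3 rk w1 w2 v3 S l G rho k h h' o1 o2 o3)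
    {t : ℕ} (ht : l ≤ t) (ht' : t ≤ G) :
    Cov (O3 s lev1 lev2 u3 l G S.I1.length o3 t) S.I3 (inn s lev1 lev2 u3 t)
      (val3 u3 v3 S.w t) := by
  classical
  intro x hx
  have h1 := D.c3 t ht ht' x hx
  have h2 : #{i ∈ s | t < u3 i ∨ (u3 i = t ∧ x ≤ v3 i)} ≤
      #{i ∈ s | ¬ (lev1 i = t ∧ lev2 i = t ∧ 1 ≤ u3 i) ∧ t ≤ u3 i} +
        #{i ∈ inn s lev1 lev2 u3 t | x ≤ val3 u3 v3 S.w t i} := by
    rw [← card_union_of_disjoint]
    · refine card_le_card fun i hi => ?_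
      simp only [mem_filter, mem_union, inn] at hi ⊢
      obtain ⟨his, hi⟩ := hi
      by_cases hin : lev1 i = t ∧ lev2 i = t ∧ 1 ≤ u3 i
      · right
        refine ⟨⟨his, hin⟩, ?_⟩
        rcases hi with hi | ⟨hi, hy⟩
        · rcases D.geo i his with hg | ⟨_, _, _, y1, y2, e1, e2, _⟩ | hg
          · omega
          · omega
          · omega
        · simpa [val3, hi] using hy
      · left
        refine ⟨his, hin, ?_⟩
        rcases hi with hi | hi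
        · omega
        · omega
    · rw [disjoint_left]
      intro i hi hi'
      simp only [mem_filter, inn] at hi hi'
      exact hi.2.1 hi'.1.2
  rw [O3]
  have h3 : (#{i ∈ s | t < u3 i ∨ (u3 i = t ∧ x ≤ v3 i)} : ℤ) ≤
      #{i ∈ s | ¬ (lev1 i = t ∧ lev2 i = t ∧ 1 ≤ u3 i) ∧ t ≤ u3 i} +
        #{i ∈ inn s lev1 lev2 u3 t | x ≤ val3 u3 v3 S.w t i} := by exact_mod_cast h2
  linarith

theorem O1_nonneg (D : Data s lev1 lev2 u3 rk w1 w2 v3 S l G rho k h h' o1 o2 o3)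
    {t : ℕ} (ht : l ≤ t) (ht' : t ≤ G) : 0 ≤ O1 s lev1 lev2 u3 l G S.I1.length o1 t := by
  classical
  have h1 := D.c1z t ht ht'
  have h2 : #{i ∈ s | t < lev1 i ∨ (lev1 i = t ∧ w1 i = none)} ≤
      #{i ∈ s | ¬ (lev1 i = t ∧ lev2 i = t ∧ 1 ≤ u3 i) ∧ t ≤ lev1 i} := by
    refine card_le_card fun i hi => ?_
    simp only [mem_filter] at hi ⊢
    obtain ⟨his, hi⟩ := hi
    refine ⟨his, fun hin => ?_, by rcases hi with hi | hi <;> omega⟩
    rcases hi with hi | ⟨_, hy⟩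
    · omega
    · rcases D.geo i his with hg | ⟨_, _, _, y1, y2, e1, e2, _⟩ | hg
      · omega
      · rw [hy] at e1; exact absurd e1 (by simp)
      · omega
  have h3 : (#{i ∈ s | t < lev1 i ∨ (lev1 i = t ∧ w1 i = none)} : ℤ) ≤
      #{i ∈ s | ¬ (lev1 i = t ∧ lev2 i = t ∧ 1 ≤ u3 i) ∧ t ≤ lev1 i} := by exact_mod_cast h2
  rw [O1]
  linarith

theorem O2_nonneg (D : Data s lev1 lev2 u3 rk w1 w2 v3 S l G rho k h h' o1 o2 o3)
    {t : ℕ} (ht : l ≤ t) (ht' : t ≤ G) : 0 ≤ O2 s lev1 lev2 u3 l S.I1.length o2 t := by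
  classical
  have h1 := D.c2z t ht ht'
  have h2 : #{i ∈ s | lev2 i < t ∨ (lev2 i = t ∧ w2 i = none)} ≤
      #{i ∈ s | ¬ (lev1 i = t ∧ lev2 i = t ∧ 1 ≤ u3 i) ∧ lev2 i ≤ t} := by
    refine card_le_card fun i hi => ?_
    simp only [mem_filter] at hi ⊢
    obtain ⟨his, hi⟩ := hi
    refine ⟨his, fun hin => ?_, by rcases hi with hi | hi <;> omega⟩
    rcases hi with hi | ⟨_, hy⟩
    · omega
    · rcases D.geo i his with hg | ⟨_, _, _, y1, y2, e1, e2, _⟩ | hg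
      · omega
      · rw [hy] at e2; exact absurd e2 (by simp)
      · omega
  have h3 : (#{i ∈ s | lev2 i < t ∨ (lev2 i = t ∧ w2 i = none)} : ℤ) ≤
      #{i ∈ s | ¬ (lev1 i = t ∧ lev2 i = t ∧ 1 ≤ u3 i) ∧ lev2 i ≤ t} := by exact_mod_cast h2
  rw [O2]
  linarith

/-- the potential of a copy -/
theorem potential (D : Data s lev1 lev2 u3 rk w1 w2 v3 S l G rho k h h' o1 o2 o3)
    {t : ℕ} (ht : l ≤ t) (ht' : t ≤ G) :
    O1 s lev1 lev2 u3 l G S.I1.length o1 t + O2 s lev1 lev2 u3 l S.I1.length o2 t +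
      #(inn s lev1 lev2 u3 t) - S.I1.length ≤
      k + #(cov s lev1 lev2 u3 t) - (l / 2 : ℕ) := by
  classical
  have hU := D.hU
  have e1 : #{i ∈ s | ¬ (lev1 i = t ∧ lev2 i = t ∧ 1 ≤ u3 i) ∧ t ≤ lev1 i} +
      #{i ∈ s | ¬ (lev1 i = t ∧ lev2 i = t ∧ 1 ≤ u3 i) ∧ lev2 i ≤ t} ≤
      #{i ∈ s | ¬ (lev1 i = t ∧ lev2 i = t ∧ 1 ≤ u3 i)} + #(cov s lev1 lev2 u3 t) := by
    rw [← card_union_add_card_inter]
    refine Nat.add_le_add (card_le_card fun i hi => ?_) (card_le_card fun i hi => ?_)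
    · simp only [mem_filter, mem_union] at hi ⊢
      tauto
    · simp only [mem_filter, mem_inter, cov] at hi ⊢
      obtain ⟨⟨his, hin, h1⟩, _, _, h2⟩ := hi
      refine ⟨his, ?_, h2, h1⟩
      rcases D.geo i his with hg | ⟨hg, hg', _⟩ | hg
      · omega
      · exact absurd ⟨by omega, by omega, hg'⟩ hin
      · exact hg.1
  have e2 : #(inn s lev1 lev2 u3 t) + #{i ∈ s | ¬ (lev1 i = t ∧ lev2 i = t ∧ 1 ≤ u3 i)} = #s := by
    rw [inn]
    exact card_filter_add_card_filter_not _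
  have e1' : (#{i ∈ s | ¬ (lev1 i = t ∧ lev2 i = t ∧ 1 ≤ u3 i) ∧ t ≤ lev1 i} : ℤ) +
      #{i ∈ s | ¬ (lev1 i = t ∧ lev2 i = t ∧ 1 ≤ u3 i) ∧ lev2 i ≤ t} ≤
      #{i ∈ s | ¬ (lev1 i = t ∧ lev2 i = t ∧ 1 ≤ u3 i)} + #(cov s lev1 lev2 u3 t) := by
    exact_mod_cast e1
  have e2' : (#(inn s lev1 lev2 u3 t) : ℤ) +
      #{i ∈ s | ¬ (lev1 i = t ∧ lev2 i = t ∧ 1 ≤ u3 i)} = #s := by exact_mod_cast e2
  have e3 : ((G - t : ℕ) : ℤ) * S.I1.length + ((t - l : ℕ) : ℤ) * S.I1.length + S.I1.length =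
      ((G + 1 - l : ℕ) : ℤ) * S.I1.length := by
    have : (((G + 1 - l : ℕ)) : ℤ) = ((G - t : ℕ) : ℤ) + ((t - l : ℕ) : ℤ) + 1 := by omega
    rw [this]; ring
  have e4 : ((G + l - t : ℕ) : ℤ) = (G : ℤ) + l - t := by omega
  have e5 : 2 * ((l / 2 : ℕ) : ℤ) = l := by
    obtain ⟨m, hm⟩ := D.l_even
    omega
  rw [O1, O2]
  linarith

/-- few bins contain wires -/
theorem wires (D : Data s lev1 lev2 u3 rk w1 w2 v3 S l G rho k h h' o1 o2 o3) :
    2 * #{i ∈ s | u3 i = 0} ≤ 2 * h + G := by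
  have h4 := D.c4
  have hV := D.hV
  have e2 : #{i ∈ s | 1 ≤ u3 i} + #{i ∈ s | u3 i = 0} = #s := by
    have hs := card_filter_add_card_filter_not (s := s) (fun i => 1 ≤ u3 i)
    have hc : ({i ∈ s | ¬ 1 ≤ u3 i} : Finset ι) = {i ∈ s | u3 i = 0} :=
      filter_congr fun i _ => by omega
    rwa [hc] at hs
  have e2' : (#{i ∈ s | 1 ≤ u3 i} : ℤ) + #{i ∈ s | u3 i = 0} = #s := by exact_mod_cast e2
  have e5 : 2 * ((l / 2 : ℕ) : ℤ) = l := by
    obtain ⟨m, hm⟩ := D.l_even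
    omega
  have e6 : 2 * (((G + l) / 2 : ℕ) : ℤ) = (G : ℤ) + l := by
    obtain ⟨m, hm⟩ := D.l_even
    obtain ⟨m', hm'⟩ := D.G_even
    omega
  have : 2 * (#{i ∈ s | u3 i = 0} : ℤ) ≤ 2 * h + G := by
    linarith
  exact_mod_cast this

/-- wires of large rank -/
theorem suffix (D : Data s lev1 lev2 u3 rk w1 w2 v3 S l G rho k h h' o1 o2 o3)
    (r : ℕ) :
    2 * #{i ∈ s | u3 i = 0 ∧ r < rk i} ≤ 2 * h + #{j ∈ range G | r < rho j} := by
  have h5 := D.c5 r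
  have hV := D.hV
  have e2 : #{i ∈ s | u3 i = 0 ∧ r < rk i} + #{i ∈ s | ¬ (u3 i = 0 ∧ r < rk i)} = #s :=
    card_filter_add_card_filter_not _
  have e2' : (#{i ∈ s | u3 i = 0 ∧ r < rk i} : ℤ) +
      #{i ∈ s | ¬ (u3 i = 0 ∧ r < rk i)} = #s := by exact_mod_cast e2
  have : 2 * (#{i ∈ s | u3 i = 0 ∧ r < rk i} : ℤ) ≤ 2 * h + #{j ∈ range G | r < rho j} := by
    linarith
  exact_mod_cast this

/-- the deficit of a copy is bounded -/
theorem deficit (D : Data s lev1 lev2 u3 rk w1 w2 v3 S l G rho k h h' o1 o2 o3)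
    {t : ℕ} (ht : l ≤ t) (ht' : t ≤ G) :
    (S.I1.length : ℤ) - #(inn s lev1 lev2 u3 t) ≤ k + h + G := by
  classical
  have hp := potential D ht ht'
  have hw := wires D
  have h1 := length_le_of_cov (O1_nonneg D ht ht') (cover1 D ht ht')
  have h2 := length_le_of_cov (O2_nonneg D ht ht') (cover2 D ht ht')
  rw [D.wf.len2] at h2
  have f3 : (#(cov s lev1 lev2 u3 t) : ℤ) ≤ #{i ∈ s | u3 i = 0} := by
    have : #(cov s lev1 lev2 u3 t) ≤ #{i ∈ s | u3 i = 0} :=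
      card_le_card fun i hi => by
        simp only [mem_filter, cov] at hi ⊢
        exact ⟨hi.1, hi.2.1⟩
    exact_mod_cast this
  have f4 : (0 : ℤ) ≤ (l / 2 : ℕ) := by positivity
  have f5 : (0 : ℤ) ≤ G := by positivity
  have f6 : (0 : ℤ) ≤ h := by positivity
  have hw' : 2 * (#{i ∈ s | u3 i = 0} : ℤ) ≤ 2 * h + G := by exact_mod_cast hw
  linarith

/-- the slot-3 potential of a copy -/
theorem height (D : Data s lev1 lev2 u3 rk w1 w2 v3 S l G rho k h h' o1 o2 o3)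
    {t : ℕ} (ht : l ≤ t) (ht' : t ≤ G) :
    O3 s lev1 lev2 u3 l G S.I1.length o3 t + #(inn s lev1 lev2 u3 t) ≤ S.I1.length + h' := by
  classical
  have hV := D.hV
  have e1 : #{i ∈ s | ¬ (lev1 i = t ∧ lev2 i = t ∧ 1 ≤ u3 i) ∧ t ≤ u3 i} +
      #(inn s lev1 lev2 u3 t) + ∑ t' ∈ Ico l t, #(inn s lev1 lev2 u3 t') ≤ #s := by
    rw [← card_biUnion, ← card_union_of_disjoint, ← card_union_of_disjoint]
    · refine card_le_card fun i hi => ?_
      simp only [mem_filter, mem_union, mem_biUnion, inn] at hi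
      rcases hi with (hi | hi) | ⟨_, _, hi⟩ <;> exact hi.1
    · rw [disjoint_left]
      intro i hi hi'
      simp only [mem_filter, mem_union, mem_biUnion, inn, mem_Ico] at hi hi'
      obtain ⟨t', ht1, his, h1, h2, h3⟩ := hi'
      rcases hi with hi | hi
      · rcases D.geo i his with hg | ⟨_, _, _, _⟩ | hg
        · omega
        · omega
        · omega
      · omega
    · rw [disjoint_left]
      intro i hi hi'
      simp only [mem_filter, inn] at hi hi'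
      exact hi.2.1 hi'.2
    · intro a _ b _ hab
      rw [Function.onFun, disjoint_left]
      intro i hi hi'
      simp only [mem_filter, inn] at hi hi'
      omega
  have e1' : (#{i ∈ s | ¬ (lev1 i = t ∧ lev2 i = t ∧ 1 ≤ u3 i) ∧ t ≤ u3 i} : ℤ) +
      #(inn s lev1 lev2 u3 t) + ∑ t' ∈ Ico l t, (#(inn s lev1 lev2 u3 t') : ℤ) ≤ #s := by
    exact_mod_cast e1
  have e2 : (((t - l : ℕ) : ℤ)) * S.I1.length -
      ∑ t' ∈ Ico l t, (#(inn s lev1 lev2 u3 t') : ℤ) ≤ G * (k + h + G) := by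
    have h1 : ∑ t' ∈ Ico l t, ((S.I1.length : ℤ) - #(inn s lev1 lev2 u3 t')) ≤
        ∑ t' ∈ Ico l t, ((k : ℤ) + h + G) := by
      refine sum_le_sum fun t' ht1 => ?_
      rw [mem_Ico] at ht1
      exact deficit D ht1.1 (by omega)
    rw [sum_sub_distrib, sum_const, sum_const, Nat.card_Ico, nsmul_eq_mul, nsmul_eq_mul] at h1
    refine h1.trans ?_
    refine mul_le_mul_of_nonneg_right ?_ (by positivity)
    have : t - l ≤ G := by omega
    exact_mod_cast this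
  have e3 : ((G - t : ℕ) : ℤ) * S.I1.length + ((t - l : ℕ) : ℤ) * S.I1.length + S.I1.length =
      ((G + 1 - l : ℕ) : ℤ) * S.I1.length := by
    have : (((G + 1 - l : ℕ)) : ℤ) = ((G - t : ℕ) : ℤ) + ((t - l : ℕ) : ℤ) + 1 := by omega
    rw [this]; ring
  have e5 : 2 * ((l / 2 : ℕ) : ℤ) = l := by
    obtain ⟨m, hm⟩ := D.l_even
    omega
  have e6 : 2 * (((G + l) / 2 : ℕ) : ℤ) = (G : ℤ) + l := by
    obtain ⟨m, hm⟩ := D.l_even
    obtain ⟨m', hm'⟩ := D.G_even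
    omega
  have e7 : (h : ℤ) + G + G * (k + h + G) ≤ h' := by exact_mod_cast D.h_le
  have e8 : (0 : ℤ) ≤ G := by positivity
  rw [O3]
  linarith

/-- every interior level is crossed by at least `l / 2` wire bins -/
theorem crossing (D : Data s lev1 lev2 u3 rk w1 w2 v3 S l G rho k h h' o1 o2 o3)
    {t : ℕ} (ht : l ≤ t) (ht' : t ≤ G) : l / 2 ≤ #(cov s lev1 lev2 u3 t) := by
  classical
  have hp := potential D ht ht'
  have hh := height D ht ht'
  have hbin : ∀ i ∈ inn s lev1 lev2 u3 t, IsBin S (val w1 i) (val w2 i) (val3 u3 v3 S.w t i) := by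
    intro i hi
    simp only [mem_filter, inn] at hi
    obtain ⟨his, h1, h2, h3⟩ := hi
    rcases D.geo i his with hg | ⟨_, _, h4, y1, y2, q1, q2, q3, q4⟩ | hg
    · omega
    · rw [val, val, q1, q2, val3]
      simp only [Option.getD_some]
      by_cases h5 : u3 i = lev1 i
      · have h6 : u3 i = t := by omega
        rw [if_pos h6]
        exact q3 h5
      · have h6 : ¬ u3 i = t := by omega
        rw [if_neg h6]
        exact q4 (by omega)
    · omega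
  have hr := D.rob ι (inn s lev1 lev2 u3 t) (val w1) (val w2) (val3 u3 v3 S.w t) _ _ _
    (O1_nonneg D ht ht') (O2_nonneg D ht ht') hbin
    (cover1 D ht ht') (cover2 D ht ht') (cover3 D ht ht')
  by_contra hlt
  rw [not_le] at hlt
  refine hr ?_ hh
  have : (#(cov s lev1 lev2 u3 t) : ℤ) < (l / 2 : ℕ) := by exact_mod_cast hlt
  linarith

end account

end Crest.Agent.R318.Acc75
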