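import Mathlib

/-!
# Row 318 (S0492, S0493): the interval-chain construction, specification file (helper135)

All definitions used by the pieces (a)-(g).  Everything is an explicit list over `List.range`
with `ℕ`/`ℤ` arithmetic, so the polynomial-time piece is mechanical.

`t`-levels run over `1 .. T1` where `T1 = T + 1 = G + l`; interior (copy) levels are `l ≤ t ≤ G`.
Segment `j < G` goes from start level `j+1` (slot 2) to node level `j+l` (slot 1).
-/

set_option autoImplicit false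

namespace Crest.Agent.R318.Spec135

open Finset

/-! ## HALF instances -/

/-- A well-formed HALF instance: `l` wires, constraints `Cs`. -/
structure Good (l : ℕ) (Cs : List (List ℕ)) : Prop where
  two_le : 2 ≤ l
  even_l : Even l
  ne_nil : Cs ≠ []
  nodup : ∀ C ∈ Cs, C.Nodup
  even_C : ∀ C ∈ Cs, Even C.length
  lt_l : ∀ C ∈ Cs, ∀ i ∈ C, i < l

/-- `f` is a solution of the HALF instance. -/
def HalfSol (l : ℕ) (Cs : List (List ℕ)) (f : ℕ → ℕ) : Prop :=
  (∑ i ∈ range l, f i = l / 2) ∧ ∀ C ∈ Cs, (C.map f).sum = C.length / 2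

/-! ## Systems, robustness, packings -/

/-- A three-slot system.  `w`: the phantom bottom of slot 3 has height `-w`
(with `-w ≤ y` for all `y ∈ I3`).  `W` bounds all absolute values. -/
structure Sys where
  I1 : List ℤ
  I2 : List ℤ
  I3 : List ℤ
  w : ℕ
  W : ℕ

/-- invariants of a system -/
structure Sys.Wf (S : Sys) : Prop where
  len2 : S.I2.length = S.I1.length
  len3 : S.I3.length = S.I1.length
  abs1 : ∀ y ∈ S.I1, |y| ≤ (S.W : ℤ)
  abs2 : ∀ y ∈ S.I2, |y| ≤ (S.W : ℤ)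
  abs3 : ∀ y ∈ S.I3, |y| ≤ (S.W : ℤ)
  w_le : S.w ≤ S.W
  neg_w_le : ∀ y ∈ S.I3, -(S.w : ℤ) ≤ y

/-- cover condition in one slot: at least `#{items ≥ x} - o` bins have height `≥ x`,
for every item `x`. -/
def Cov {ι : Type} (o : ℤ) (I : List ℤ) (s : Finset ι) (y : ι → ℤ) : Prop :=
  ∀ x ∈ I, (I.countP (fun z => decide (x ≤ z)) : ℤ) ≤ o + ((s.filter (fun i => x ≤ y i)).card : ℤ)

/-- a (full) bin of the system, the phantom item `-w` is allowed in slot 3 -/
def IsBin (S : Sys) (y1 y2 y3 : ℤ) : Prop :=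
  y1 ∈ S.I1 ∧ y2 ∈ S.I2 ∧ (y3 = -(S.w : ℤ) ∨ y3 ∈ S.I3) ∧ y1 + y2 + y3 ≤ 0

/-- Robust unsatisfiability. -/
def Rob (S : Sys) (k h : ℕ) : Prop :=
  ∀ (ι : Type) (s : Finset ι) (y1 y2 y3 : ι → ℤ) (o1 o2 o3 : ℤ), 0 ≤ o1 → 0 ≤ o2 →
    (∀ i ∈ s, IsBin S (y1 i) (y2 i) (y3 i)) →
    Cov o1 S.I1 s y1 → Cov o2 S.I2 s y2 → Cov o3 S.I3 s y3 →
    o1 + o2 + (s.card : ℤ) < S.I1.length + k →
    o3 + (s.card : ℤ) ≤ S.I1.length + h → False

/-- `d`-fold perfect packing (`d = 1`: perfect packing; `d = 2`: the half-integral LP solution). -/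
def PackD (d : ℕ) (S : Sys) : Prop :=
  ∃ P : Multiset (ℤ × ℤ × ℤ), (∀ t ∈ P, t.1 + t.2.1 + t.2.2 ≤ 0) ∧
    P.map (fun t => t.1) = d • (S.I1 : Multiset ℤ) ∧
    P.map (fun t => t.2.1) = d • (S.I2 : Multiset ℤ) ∧
    P.map (fun t => t.2.2) = d • (S.I3 : Multiset ℤ)

/-! ## Parameters -/

/-- bound on the number of extra bins of the step -/
def b0 (l h : ℕ) : ℕ := l * (h + l / 2)
/-- half of the block length `M = 2 * mm` -/
def mm (l h : ℕ) : ℕ := h + b0 l h + 1
/-- number of windows -/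
def RR (l h : ℕ) : ℕ := l * b0 l h + 2
/-- number of rounds `Q = 2 M K R` -/
def QQ (l K h : ℕ) : ℕ := 4 * mm l h * K * RR l h
/-- number of segments -/
def GG (l K h : ℕ) : ℕ := l * QQ l K h
/-- `T + 1 = G + l`, the bottom level of slot 2 -/
def T1 (l K h : ℕ) : ℕ := GG l K h + l
/-- all ranks are `< rmax` -/
def rmax (l K h : ℕ) : ℕ := 4 * K * RR l h

/-- block index of segment `j` (`m = M/2`) -/
def kap (l m j : ℕ) : ℕ := j / l / (4 * m)

/-- position of segment `j` in the rank order of its block -/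
def code (l m : ℕ) (C : List ℕ) (j : ℕ) : ℕ :=
  if j / l % (4 * m) < 2 * m then (if j % l ∈ C then 0 else 1) else (if j % l ∈ C then 3 else 2)

/-- constraint of block `κ` -/
def con (Cs : List (List ℕ)) (κ : ℕ) : List ℕ := Cs.getD (κ % Cs.length) []

/-- rank of segment `j` -/
def rho (l : ℕ) (Cs : List (List ℕ)) (h j : ℕ) : ℕ :=
  4 * kap l (mm l h) j + code l (mm l h) (con Cs (kap l (mm l h) j)) j

/-- `eta t = 0` for `t < l` and `eta (j+l) = eta (j+1) + rho j` -/
def eta (l : ℕ) (Cs : List (List ℕ)) (h t : ℕ) : ℕ :=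
  ((List.range t).map (fun i =>
    if l + i * (l - 1) ≤ t then rho l Cs h (t - (l + i * (l - 1))) else 0)).sum

/-! ## Sizes; `S` is the inner system -/

/-- scale base -/
def Lam (S : Sys) : ℕ := 3 + S.w + 2 * S.W
def YY (l K h : ℕ) (S : Sys) : ℕ := Lam S ^ T1 l K h
def HH (l K h : ℕ) (S : Sys) : ℕ := YY l K h S + 1
def gg (l K h : ℕ) (S : Sys) : ℕ := 2 * HH l K h S + 2 * YY l K h S + 1
def DD (l K h : ℕ) (S : Sys) : ℕ :=
  2 * gg l K h S * (T1 l K h + 2) * (rmax l K h + 1) + 8 * HH l K h S + 8 * YY l K h S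

/-- height of level `t` -/
def tau (l : ℕ) (Cs : List (List ℕ)) (h : ℕ) (S : Sys) (t : ℕ) : ℕ :=
  t * DD l Cs.length h S + gg l Cs.length h S * eta l Cs h t

/-- slot-3 shift of the copy at level `t` -/
def AA (S : Sys) (t : ℕ) : ℤ := (Lam S : ℤ) ^ t * (1 + S.w) - 2

/-- the drop of the wire of rank `r` -/
def drop (l : ℕ) (K h : ℕ) (S : Sys) (r : ℕ) : ℕ :=
  (l - 1) * DD l K h S + gg l K h S * r + 2 * HH l K h S

/-- slot-3 size of the wire item of rank `r` -/
def wire (l : ℕ) (K h : ℕ) (S : Sys) (r : ℕ) : ℤ := -(drop l K h S r : ℤ)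

/-- node item, slot 1, levels `l ≤ t ≤ T` -/
def node (l : ℕ) (Cs : List (List ℕ)) (h : ℕ) (S : Sys) (t : ℕ) : ℤ :=
  (tau l Cs h S t : ℤ) + HH l Cs.length h S

/-- start item, slot 2, levels `1 ≤ t ≤ G` -/
def start (l : ℕ) (Cs : List (List ℕ)) (h : ℕ) (S : Sys) (t : ℕ) : ℤ :=
  -(tau l Cs h S t : ℤ) + HH l Cs.length h S

/-- bottom item of slot 1 (level `0`) -/
def bot1 : ℤ := 0

/-- bottom item of slot 2 (level `T1`) -/
def bot2 (l : ℕ) (Cs : List (List ℕ)) (h : ℕ) (S : Sys) : ℤ :=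
  -(tau l Cs h S (T1 l Cs.length h) : ℤ)

/-- top item of slot 3 -/
def zed (l : ℕ) (K h : ℕ) (S : Sys) : ℤ := (YY l K h S : ℤ) - 2

/-- copies of the items of the inner system at level `t` -/
def cop1 (l : ℕ) (Cs : List (List ℕ)) (h : ℕ) (S : Sys) (t : ℕ) (y : ℤ) : ℤ :=
  (tau l Cs h S t : ℤ) + (Lam S : ℤ) ^ t * y
def cop2 (l : ℕ) (Cs : List (List ℕ)) (h : ℕ) (S : Sys) (t : ℕ) (y : ℤ) : ℤ :=
  -(tau l Cs h S t : ℤ) - AA S t + (Lam S : ℤ) ^ t * y
def cop3 (S : Sys) (t : ℕ) (y : ℤ) : ℤ := AA S t + (Lam S : ℤ) ^ t * y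

/-- the wire items of block `κ` -/
def wireBlock (l : ℕ) (Cs : List (List ℕ)) (h : ℕ) (S : Sys) (κ : ℕ) : List ℤ :=
  List.replicate (mm l h * (con Cs κ).length) (wire l Cs.length h S (4 * κ)) ++
  List.replicate (mm l h * (l - (con Cs κ).length)) (wire l Cs.length h S (4 * κ + 1)) ++
  List.replicate (mm l h * (l - (con Cs κ).length)) (wire l Cs.length h S (4 * κ + 2)) ++
  List.replicate (mm l h * (con Cs κ).length) (wire l Cs.length h S (4 * κ + 3))

/-- number of interior levels `l ≤ t ≤ G` -/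
def nLev (l K h : ℕ) : ℕ := GG l K h + 1 - l

def ch1 (l : ℕ) (Cs : List (List ℕ)) (h : ℕ) (S : Sys) : List ℤ :=
  List.replicate (l / 2) bot1 ++
  (List.range (GG l Cs.length h)).map (fun j => node l Cs h S (j + l)) ++
  (List.range (nLev l Cs.length h)).flatMap (fun i => S.I1.map (cop1 l Cs h S (i + l)))

def ch2 (l : ℕ) (Cs : List (List ℕ)) (h : ℕ) (S : Sys) : List ℤ :=
  List.replicate (l / 2) (bot2 l Cs h S) ++
  (List.range (GG l Cs.length h)).map (fun j => start l Cs h S (j + 1)) ++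
  (List.range (nLev l Cs.length h)).flatMap (fun i => S.I2.map (cop2 l Cs h S (i + l)))

def ch3 (l : ℕ) (Cs : List (List ℕ)) (h : ℕ) (S : Sys) : List ℤ :=
  List.replicate (T1 l Cs.length h / 2) (zed l Cs.length h S) ++
  (List.range (Cs.length * RR l h)).flatMap (wireBlock l Cs h S) ++
  (List.range (nLev l Cs.length h)).flatMap (fun i => S.I3.map (cop3 S (i + l)))

/-- the chain over the inner system `S` -/
def chain (l : ℕ) (Cs : List (List ℕ)) (h : ℕ) (S : Sys) : Sys where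
  I1 := ch1 l Cs h S
  I2 := ch2 l Cs h S
  I3 := ch3 l Cs h S
  w := drop l Cs.length h S (rmax l Cs.length h)
  W := (T1 l Cs.length h + 3) * DD l Cs.length h S

/-- the base system -/
def S0 : Sys := ⟨[0], [0], [0], 0, 0⟩

/-- robustness parameter handed to the inner system -/
def hNext (l K k h : ℕ) : ℕ := h + GG l K h + (T1 l K h + 1) * (k + 1 + h + GG l K h)

/-- the system of depth `k` with slot-3 robustness `h` -/
def sys (l : ℕ) (Cs : List (List ℕ)) : ℕ → ℕ → Sys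
  | 0, _ => S0
  | k + 1, h => chain l Cs h (sys l Cs k (hNext l Cs.length k h))

/-! ## Tuple form, for the polynomial-time piece -/

/-- a system as a tuple -/
def Sys.tup (S : Sys) : List ℤ × List ℤ × List ℤ × ℕ × ℕ := (S.I1, S.I2, S.I3, S.w, S.W)
/-- a tuple as a system -/
def ofTup (p : List ℤ × List ℤ × List ℤ × ℕ × ℕ) : Sys := ⟨p.1, p.2.1, p.2.2.1, p.2.2.2.1, p.2.2.2.2⟩

theorem ofTup_tup (S : Sys) : ofTup S.tup = S := rfl

/-!
## The pieces (statements; each owner proves it in his own file)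

(a) GEOMETRY (helper887).  `Good l Cs`, `S.Wf`.  For `y1 ∈ ch1`, `y2 ∈ ch2`, `y3 = -(chain).w ∨ y3 ∈ ch3`,
`y1 + y2 + y3 ≤ 0`: classification by tags (level slot 1 `a`, level slot 2 `b`):
`a < b`, or (`a = b = t`, copy/copy, slot 3 = copy `t` with a real bin of `S`, or copy `s < t`
with `IsBin S x1 x2 (-w)`), or (slot 3 = wire `r` (`r ≤ rmax`, phantom has `r = rmax`), `b ≤ a`,
`a - b ≤ l - 1`, and `a - b = l - 1 → rho (b-1) ≤ r`).
Also `(chain l Cs h S).Wf`.

(b) STEP (helper834, helper75): `Good l Cs → S.Wf → Rob S k (hNext l Cs.length k h) →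
  (¬ ∃ f, HalfSol l Cs f) → Rob (chain l Cs h S) (k+1) h`.

(c) PACKING (helper123 / helper982): `Good l Cs → (∀ r, f r ≤ d) → 2 * ∑ r ∈ range l, f r = d * l →
  (∀ C ∈ Cs, 2 * (C.map f).sum = d * C.length) → PackD d S → PackD d (chain l Cs h S)`.

(d) WRAPPER (helper91 ...): from `S.Wf`, `PackD 1 S` / `Rob S k h` to `PacksInto`.

(e) POLY-TIME (helper519 / helper780): `PTF (fun (l, Cs, Un h) => (sys l Cs k h).tup)` for fixed `k`.

(f) HALF is NP-hard (helper837): `x ∈ A → ∃ f, (∀ r, f r ≤ 1) ∧ HalfSol l Cs f`,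
  `x ∉ A → ¬ ∃ f, HalfSol l Cs f`, `Good l Cs`, map PTF.
-/

/-- base case of the robustness -/
theorem rob_S0 (h : ℕ) : Rob S0 0 h := by
  intro ι s y1 y2 y3 o1 o2 o3 h1 h2 _ c1 c2 _ hU _
  have e1 := c1 0 (by simp [S0])
  have e2 := c2 0 (by simp [S0])
  have f1 : ((s.filter (fun i => (0 : ℤ) ≤ y1 i)).card : ℤ) ≤ s.card := by
    exact_mod_cast Finset.card_filter_le _ _
  have f2 : ((s.filter (fun i => (0 : ℤ) ≤ y2 i)).card : ℤ) ≤ s.card := by
    exact_mod_cast Finset.card_filter_le _ _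
  simp [S0] at e1 e2 hU
  omega

theorem wf_S0 : S0.Wf := by
  constructor <;> simp [S0]

theorem packD_S0 (d : ℕ) : PackD d S0 := by
  refine ⟨d • {(0, 0, 0)}, ?_, ?_, ?_, ?_⟩
  · intro t ht
    rw [Multiset.nsmul_singleton] at ht
    obtain rfl := Multiset.eq_of_mem_replicate ht
    simp
  all_goals simp [S0, Multiset.map_nsmul]

/-! basic facts on the parameters -/

theorem mm_pos (l h : ℕ) : 0 < mm l h := by simp [mm]
theorem RR_pos (l h : ℕ) : 0 < RR l h := by simp [RR]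

theorem con_mem {Cs : List (List ℕ)} (hne : Cs ≠ []) (κ : ℕ) : con Cs κ ∈ Cs := by
  have h : 0 < Cs.length := List.length_pos_iff.2 hne
  unfold con
  rw [List.getD_eq_getElem _ _ (Nat.mod_lt _ h)]
  exact List.getElem_mem _

/-- the recursion of `eta` -/
theorem eta_lt (l : ℕ) (Cs : List (List ℕ)) (h t : ℕ) (ht : t < l) : eta l Cs h t = 0 := by
  unfold eta
  apply List.sum_eq_zero
  intro x hx
  simp only [List.mem_map, List.mem_range] at hx
  obtain ⟨i, _, rfl⟩ := hx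
  rw [if_neg]
  have : 0 ≤ i * (l - 1) := Nat.zero_le _
  omega

theorem eta_succ (l : ℕ) (Cs : List (List ℕ)) (h j : ℕ) (hl : 2 ≤ l) :
    eta l Cs h (j + l) = eta l Cs h (j + 1) + rho l Cs h j := by
  have key : ∀ N t, t ≤ N → ((List.range N).map (fun i =>
      if l + i * (l - 1) ≤ t then rho l Cs h (t - (l + i * (l - 1))) else 0)).sum = eta l Cs h t := by
    intro N t hN
    obtain ⟨d, rfl⟩ := Nat.exists_eq_add_of_le hN
    unfold eta
    rw [List.range_add, List.map_append, List.sum_append]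
    have : ((List.map (fun x => t + x) (List.range d)).map (fun i =>
      if l + i * (l - 1) ≤ t then rho l Cs h (t - (l + i * (l - 1))) else 0)).sum = 0 := by
      apply List.sum_eq_zero
      intro x hx
      simp only [List.mem_map, List.mem_range] at hx
      obtain ⟨_, ⟨i, _, rfl⟩, rfl⟩ := hx
      rw [if_neg]
      have h1 : t + i ≤ (t + i) * (l - 1) := Nat.le_mul_of_pos_right _ (by omega)
      omega
    rw [this, add_zero]
  rw [← key (j + l - 1) (j + 1) (by omega)]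
  conv_lhs => unfold eta
  rw [show j + l = (j + l - 1) + 1 by omega, List.range_succ_eq_map, List.map_cons, List.sum_cons,
    List.map_map]
  rw [add_comm]
  congr 1
  · congr 1
    apply List.map_congr_left
    intro i _
    simp only [Function.comp]
    have e : (i + 1) * (l - 1) = i * (l - 1) + (l - 1) := by ring
    rw [e]
    by_cases hc : l + i * (l - 1) ≤ j + 1
    · rw [if_pos hc, if_pos (by omega)]
      congr 1
      omega
    · rw [if_neg hc, if_neg (by omega)]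
  · rw [if_pos (by omega)]
    congr 1
    omega

end Crest.Agent.R318.Spec135
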