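import Crest.Agent.R318.HalfNP_837
import Crest.Agent.R318.Spec_135

/-!
# Row 318, piece (f) in the words of `Spec_135`
-/

set_option autoImplicit false
set_option linter.dupNamespace false

namespace Crest.Agent.R318.Half837

open Crest.Agent.Lib.PT Crest.Agent.R318.CL Crest.Agent.R318.Spec135

theorem HalfOk.good {I : ℕ × List (List ℕ)} (h : HalfOk I) : Good I.1 I.2 where
  two_le := h.two_le
  even_l := even_iff_two_dvd.2 h.two_dvd
  ne_nil := h.ne_nil
  nodup := h.nodup
  even_C := fun C hC => even_iff_two_dvd.2 (h.two_dvd' C hC)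
  lt_l := h.lt

theorem halfSat_iff {I : ℕ × List (List ℕ)} : HalfSat I ↔ ∃ f, HalfSol I.1 I.2 f := Iff.rfl

/-- **Piece (f).**  Every problem in `NP` reduces to HALF by a polynomial-time map; the number of
wires is polynomially bounded. -/
theorem half_hard_spec {A : Set (List Bool)} (hA : Crest.Complexity.InNP A) :
    ∃ H : List Bool → ℕ × List (List ℕ), PTF H ∧ PTU (fun x => (H x).1) ∧
      (∀ x, Good (H x).1 (H x).2) ∧
      (∀ x, x ∈ A → ∃ f : ℕ → ℕ, (∀ r, f r ≤ 1) ∧ HalfSol (H x).1 (H x).2 f) ∧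
      (∀ x, x ∉ A → ¬ ∃ f, HalfSol (H x).1 (H x).2 f) := by
  obtain ⟨H, h1, h0, h2, h3, h4⟩ := half_hard_ptu hA
  exact ⟨H, h1, h0, fun x => (h2 x).good, h3, h4⟩

/-- an unsatisfiable HALF instance, for S0492 -/
theorem bad_good : Good 4 [[0, 1], [0, 2], [1, 2]] := bad_ok.good

theorem bad_no : ¬ ∃ f, HalfSol 4 [[0, 1], [0, 2], [1, 2]] f := bad_unsat

end Crest.Agent.R318.Half837
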