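import Mathlib
import Crest.Prelude.Def_BinPacking

/-!
# Row 318: wrappers between bin packings and partial matchings of feasible triples
-/

set_option autoImplicit false

namespace Crest.Agent.R318.Wrap_91

open Finset Crest.BinPacking

/-- coarse weights of the three item classes, in hundredths -/
def wt (j : Fin 3) : ℤ := if j = 0 then 26 else if j = 1 then 31 else 43

theorem wt_key (a b c : ℕ) (h1 : a + b + c ≤ 3) (h2 : (a : ℤ) * 26 + b * 31 + c * 43 ≤ 100) :
    (a = 1 ∧ b = 1 ∧ c = 1) ∨ (a : ℤ) * 26 + b * 31 + c * 43 ≤ 95 := by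
  have ha : a ≤ 3 := by omega
  have hb : b ≤ 3 := by omega
  have hc : c ≤ 3 := by omega
  interval_cases a <;> interval_cases b <;> interval_cases c <;> simp_all

set_option linter.unusedSectionVars false

variable {ι : Type*} [Fintype ι] [DecidableEq ι]

section rainbow

variable {κ : ι → Fin 3} {N : ℕ}

/-- number of items of class `j` in bin `b` -/
def cnt (κ : ι → Fin 3) (φ : ι → Fin N) (b : Fin N) (j : Fin 3) : ℕ :=
  #{i | φ i = b ∧ κ i = j}

theorem sum_wt_bin (κ : ι → Fin 3) (φ : ι → Fin N) (b : Fin N) :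
    ∑ i with φ i = b, wt (κ i) = (cnt κ φ b 0 : ℤ) * 26 + cnt κ φ b 1 * 31 + cnt κ φ b 2 * 43 := by
  have h : ∑ i with φ i = b, wt (κ i) = ∑ j : Fin 3, ∑ i with φ i = b ∧ κ i = j, wt (κ i) := by
    rw [← Finset.sum_fiberwise (s := univ.filter (fun i => φ i = b)) (g := κ)]
    simp only [Finset.filter_filter]
  rw [h, Fin.sum_univ_three]
  have h2 : ∀ j : Fin 3, ∑ i with φ i = b ∧ κ i = j, wt (κ i) = (cnt κ φ b j : ℤ) * wt j := by
    intro j
    rw [Finset.sum_congr rfl (g := fun _ => wt j)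
      (fun i hi => by rw [(Finset.mem_filter.1 hi).2.2])]
    simp [cnt]
  rw [h2, h2, h2]
  simp [wt]

theorem card_bin (κ : ι → Fin 3) (φ : ι → Fin N) (b : Fin N) :
    #{i | φ i = b} = cnt κ φ b 0 + cnt κ φ b 1 + cnt κ φ b 2 := by
  have h : #{i | φ i = b} = ∑ j : Fin 3, #{i | φ i = b ∧ κ i = j} := by
    rw [Finset.card_eq_sum_card_fiberwise (f := κ) (t := univ) (by simp)]
    simp only [Finset.filter_filter]
  rw [h, Fin.sum_univ_three]
  rfl

/-- **Rainbow lemma.** A packing into `B + c` bins contains a partial matching of feasible triples,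
one item of each class per triple, missing at most `19 * c` items of each class. -/
theorem exists_matching (κ : ι → Fin 3) (g : ι → ℤ) (D F : ℤ) (hD : 1000 * F ≤ D) (hD0 : 0 < D)
    (hg : ∀ i, |g i| ≤ F) (B c : ℕ) (hcard : ∀ j, #{i | κ i = j} = B) (a : ι → ℚ)
    (ha : ∀ i, a i = (wt (κ i) : ℚ) / 100 + (g i : ℚ) / D) (hp : PacksInto a (B + c)) :
    ∃ M : Finset (ι × ι × ι),
      (∀ t ∈ M, κ t.1 = 0 ∧ κ t.2.1 = 1 ∧ κ t.2.2 = 2 ∧ g t.1 + g t.2.1 + g t.2.2 ≤ 0) ∧
      (∀ t ∈ M, ∀ t' ∈ M, t.1 = t'.1 → t = t') ∧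
      (∀ t ∈ M, ∀ t' ∈ M, t.2.1 = t'.2.1 → t = t') ∧
      (∀ t ∈ M, ∀ t' ∈ M, t.2.2 = t'.2.2 → t = t') ∧
      B ≤ #M + 19 * c := by
  obtain ⟨φ, hφ⟩ := hp
  have hDq : (0 : ℚ) < D := by exact_mod_cast hD0
  -- size bounds
  have hgD : ∀ i, |(g i : ℚ) / D| ≤ 1 / 1000 := by
    intro i
    rw [abs_div, abs_of_pos hDq, div_le_div_iff₀ hDq (by norm_num)]
    have h1 : (|g i| : ℤ) ≤ F := hg i
    have h2 : ((|g i| : ℤ) : ℚ) * 1000 ≤ 1 * D := by
      have : |g i| * 1000 ≤ 1 * D := by linarith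
      exact_mod_cast this
    rwa [Int.cast_abs] at h2
  have hwt : ∀ j, (26 : ℤ) ≤ wt j := by
    intro j; unfold wt; split_ifs <;> norm_num
  have hlow : ∀ i, (1 : ℚ) / 4 < a i := by
    intro i
    rw [ha]
    have h1 := (abs_le.1 (hgD i)).1
    have h2 : (26 : ℚ) ≤ wt (κ i) := by exact_mod_cast hwt (κ i)
    linarith
  have hc3 : ∀ b, #{i | φ i = b} ≤ 3 := by
    intro b
    by_contra hcon
    push Not at hcon
    have h1 : (4 : ℚ) ≤ #{i | φ i = b} := by exact_mod_cast hcon
    have h2 : ∑ i with φ i = b, (1 : ℚ) / 4 ≤ ∑ i with φ i = b, a i :=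
      Finset.sum_le_sum (fun i _ => (hlow i).le)
    have hne : (univ.filter (fun i => φ i = b)).Nonempty := by
      rw [← Finset.card_pos]; omega
    have h2' : ∑ i with φ i = b, (1 : ℚ) / 4 < ∑ i with φ i = b, a i :=
      Finset.sum_lt_sum_of_nonempty hne (fun i _ => hlow i)
    have h3 := hφ b
    simp only [Finset.sum_const, nsmul_eq_mul] at h2'
    linarith
  have hw100 : ∀ b, ∑ i with φ i = b, wt (κ i) ≤ 100 := by
    intro b
    have h1 := hφ b
    have h2 : ∑ i with φ i = b, a i = (∑ i with φ i = b, (wt (κ i) : ℚ)) / 100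
        + ∑ i with φ i = b, (g i : ℚ) / D := by
      rw [Finset.sum_div, ← Finset.sum_add_distrib]
      exact Finset.sum_congr rfl (fun i _ => ha i)
    have h3 : -(3 / 1000 : ℚ) ≤ ∑ i with φ i = b, (g i : ℚ) / D := by
      have h4 : ∑ i with φ i = b, (-(1 / 1000) : ℚ) ≤ ∑ i with φ i = b, (g i : ℚ) / D :=
        Finset.sum_le_sum (fun i _ => (abs_le.1 (hgD i)).1)
      have h5 : ((#{i | φ i = b} : ℕ) : ℚ) ≤ 3 := by exact_mod_cast hc3 b
      simp only [Finset.sum_const, nsmul_eq_mul] at h4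
      linarith
    have h6 : (∑ i with φ i = b, (wt (κ i) : ℚ)) < 101 := by
      rw [h2] at h1
      linarith
    have h7 : ∑ i with φ i = b, wt (κ i) < 101 := by exact_mod_cast h6
    omega
  -- rainbow bins
  set R : Finset (Fin (B + c)) := univ.filter (fun b => ∀ j, cnt κ φ b j = 1) with hR
  have hnot : ∀ b, b ∉ R → ∑ i with φ i = b, wt (κ i) ≤ 95 := by
    intro b hb
    have h1 := hc3 b
    rw [card_bin κ φ b] at h1
    have h2 := hw100 b
    rw [sum_wt_bin] at h2 ⊢
    rcases wt_key _ _ _ h1 h2 with h | h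
    · exfalso
      apply hb
      rw [hR, Finset.mem_filter]
      refine ⟨Finset.mem_univ _, fun j => ?_⟩
      fin_cases j
      · exact h.1
      · exact h.2.1
      · exact h.2.2
    · exact h
  have htot : ∑ b, ∑ i with φ i = b, wt (κ i) = 100 * B := by
    rw [Finset.sum_fiberwise (s := univ) (g := φ) (f := fun i => wt (κ i))]
    rw [← Finset.sum_fiberwise (s := univ) (g := κ) (f := fun i => wt (κ i)), Fin.sum_univ_three]
    have h2 : ∀ j : Fin 3, ∑ i with κ i = j, wt (κ i) = (B : ℤ) * wt j := by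
      intro j
      rw [Finset.sum_congr rfl (g := fun _ => wt j)
        (fun i hi => by rw [(Finset.mem_filter.1 hi).2])]
      rw [Finset.sum_const, hcard]
      simp
    rw [h2, h2, h2]
    simp [wt]
    ring
  have hRc : B ≤ #R + 19 * c := by
    have h1 : ∑ b, ∑ i with φ i = b, wt (κ i)
        ≤ ∑ b : Fin (B + c), (if b ∈ R then (100 : ℤ) else 95) := by
      refine Finset.sum_le_sum (fun b _ => ?_)
      by_cases hb : b ∈ R
      · rw [if_pos hb]; exact hw100 b
      · rw [if_neg hb]; exact hnot b hb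
    have h2 : ∑ b : Fin (B + c), (if b ∈ R then (100 : ℤ) else 95)
        = 95 * (B + c) + 5 * #R := by
      have : ∀ b : Fin (B + c), (if b ∈ R then (100 : ℤ) else 95)
          = 95 + 5 * (if b ∈ R then 1 else 0) := by
        intro b; split_ifs <;> norm_num
      rw [Finset.sum_congr rfl (fun b _ => this b), Finset.sum_add_distrib, ← Finset.mul_sum]
      simp
      ring
    rw [htot, h2] at h1
    have : (B : ℤ) ≤ #R + 19 * c := by linarith
    exact_mod_cast this
  -- the triples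
  set M : Finset (ι × ι × ι) := univ.filter (fun t => κ t.1 = 0 ∧ κ t.2.1 = 1 ∧ κ t.2.2 = 2 ∧
    φ t.1 ∈ R ∧ φ t.2.1 = φ t.1 ∧ φ t.2.2 = φ t.1) with hM
  have huniq : ∀ b ∈ R, ∀ i i', φ i = b → φ i' = b → κ i = κ i' → i = i' := by
    intro b hb i i' hi hi' hk
    have h1 := (Finset.mem_filter.1 hb).2 (κ i)
    rw [cnt, Finset.card_eq_one] at h1
    obtain ⟨x, hx⟩ := h1
    have e1 : i ∈ ({x} : Finset ι) := by rw [← hx]; simp [hi]
    have e2 : i' ∈ ({x} : Finset ι) := by rw [← hx]; simp [hi', hk]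
    rw [Finset.mem_singleton] at e1 e2
    rw [e1, e2]
  have hex : ∀ b ∈ R, ∀ j, ∃ i, φ i = b ∧ κ i = j := by
    intro b hb j
    have h1 := (Finset.mem_filter.1 hb).2 j
    rw [cnt, Finset.card_eq_one] at h1
    obtain ⟨x, hx⟩ := h1
    have : x ∈ univ.filter (fun i => φ i = b ∧ κ i = j) := by rw [hx]; simp
    exact ⟨x, (Finset.mem_filter.1 this).2⟩
  have hsame : ∀ t ∈ M, ∀ t' ∈ M, φ t.1 = φ t'.1 → t = t' := by
    intro t ht t' ht' h
    obtain ⟨-, a0, a1, a2, aR, a3, a4⟩ := Finset.mem_filter.1 ht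
    obtain ⟨-, b0, b1, b2, bR, b3, b4⟩ := Finset.mem_filter.1 ht'
    have e1 : t.1 = t'.1 := huniq _ aR _ _ rfl h.symm (by rw [a0, b0])
    have e2 : t.2.1 = t'.2.1 := huniq _ aR _ _ a3 (by rw [b3, h]) (by rw [a1, b1])
    have e3 : t.2.2 = t'.2.2 := huniq _ aR _ _ a4 (by rw [b4, h]) (by rw [a2, b2])
    exact Prod.ext e1 (Prod.ext e2 e3)
  refine ⟨M, ?_, ?_, ?_, ?_, ?_⟩
  · intro t ht
    obtain ⟨-, a0, a1, a2, aR, a3, a4⟩ := Finset.mem_filter.1 ht
    refine ⟨a0, a1, a2, ?_⟩
    have hne1 : t.1 ≠ t.2.1 := fun h => by rw [h, a1] at a0; exact absurd a0 (by decide)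
    have hne2 : t.1 ≠ t.2.2 := fun h => by rw [h, a2] at a0; exact absurd a0 (by decide)
    have hne3 : t.2.1 ≠ t.2.2 := fun h => by rw [h, a2] at a1; exact absurd a1 (by decide)
    have hsub : ({t.1, t.2.1, t.2.2} : Finset ι) ⊆ univ.filter (fun i => φ i = φ t.1) := by
      intro i hi
      simp only [Finset.mem_insert, Finset.mem_singleton] at hi
      rw [Finset.mem_filter]
      rcases hi with rfl | rfl | rfl
      · exact ⟨Finset.mem_univ _, rfl⟩
      · exact ⟨Finset.mem_univ _, a3⟩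
      · exact ⟨Finset.mem_univ _, a4⟩
    have h1 : ∑ i ∈ ({t.1, t.2.1, t.2.2} : Finset ι), a i ≤ 1 :=
      (Finset.sum_le_sum_of_subset_of_nonneg hsub
        (fun i _ _ => (lt_trans (by norm_num) (hlow i)).le)).trans (hφ _)
    rw [Finset.sum_insert (by simp [hne1, hne2]), Finset.sum_insert (by simp [hne3]),
      Finset.sum_singleton, ha, ha, ha, a0, a1, a2] at h1
    have h2 : ((g t.1 + g t.2.1 + g t.2.2 : ℤ) : ℚ) / D ≤ 0 := by
      have : (wt 0 : ℚ) = 26 ∧ (wt 1 : ℚ) = 31 ∧ (wt 2 : ℚ) = 43 := by simp [wt]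
      rw [this.1, this.2.1, this.2.2] at h1
      push_cast
      rw [add_div, add_div]
      linarith
    have h3 : ((g t.1 + g t.2.1 + g t.2.2 : ℤ) : ℚ) ≤ 0 := by
      by_contra hcon
      push Not at hcon
      exact absurd h2 (not_le.2 (div_pos hcon hDq))
    exact_mod_cast h3
  · intro t ht t' ht' h
    exact hsame t ht t' ht' (by rw [h])
  · intro t ht t' ht' h
    refine hsame t ht t' ht' ?_
    rw [← (Finset.mem_filter.1 ht).2.2.2.2.2.1, ← (Finset.mem_filter.1 ht').2.2.2.2.2.1, h]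
  · intro t ht t' ht' h
    refine hsame t ht t' ht' ?_
    rw [← (Finset.mem_filter.1 ht).2.2.2.2.2.2, ← (Finset.mem_filter.1 ht').2.2.2.2.2.2, h]
  · refine hRc.trans (Nat.add_le_add_right ?_ _)
    rcases R.eq_empty_or_nonempty with hRe | ⟨b0, hb0⟩
    · rw [hRe]; simp
    have : Nonempty ι := ⟨(hex b0 hb0 0).choose⟩
    choose! t0 ht0 using fun b (hb : b ∈ R) => hex b hb 0
    choose! t1 ht1 using fun b (hb : b ∈ R) => hex b hb 1
    choose! t2 ht2 using fun b (hb : b ∈ R) => hex b hb 2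
    refine Finset.card_le_card_of_injOn (fun b => (t0 b, t1 b, t2 b)) (fun b hb => ?_) ?_
    · have hb' : b ∈ R := hb
      have h0 := ht0 b hb'
      have h1 := ht1 b hb'
      have h2 := ht2 b hb'
      simp only [hM, Finset.coe_filter, Finset.mem_univ, true_and, Set.mem_ofPred_eq]
      exact ⟨h0.2, h1.2, h2.2, by rw [h0.1]; exact hb', by rw [h0.1, h1.1], by rw [h0.1, h2.1]⟩
    · intro b hb b' hb' h
      have h0 := ht0 b hb
      have h0' := ht0 b' hb'
      have := (Prod.mk.inj h).1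
      rw [← h0.1, ← h0'.1, this]

/-- **Converse.** A perfect matching of feasible triples packs everything into `B` bins. -/
theorem packs_of_matching (κ : ι → Fin 3) (g : ι → ℤ) (D : ℤ) (hD0 : 0 < D) (B : ℕ) (a : ι → ℚ)
    (ha : ∀ i, a i = (wt (κ i) : ℚ) / 100 + (g i : ℚ) / D)
    (φ : ι → Fin B) (h1 : ∀ i i', φ i = φ i' → κ i = κ i' → i = i')
    (h2 : ∀ i j k, φ i = φ j → φ j = φ k → κ i = 0 → κ j = 1 → κ k = 2 → g i + g j + g k ≤ 0)
    (hcard : ∀ b j, ∃ i, φ i = b ∧ κ i = j) : PacksInto a B := by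
  have hDq : (0 : ℚ) < D := by exact_mod_cast hD0
  refine ⟨φ, fun b => ?_⟩
  obtain ⟨i, hi, ki⟩ := hcard b 0
  obtain ⟨j, hj, kj⟩ := hcard b 1
  obtain ⟨k, hk, kk⟩ := hcard b 2
  have hS : univ.filter (fun x => φ x = b) = {i, j, k} := by
    ext x
    simp only [Finset.mem_filter, Finset.mem_univ, true_and, Finset.mem_insert,
      Finset.mem_singleton]
    constructor
    · intro hx
      have : κ x = 0 ∨ κ x = 1 ∨ κ x = 2 := by
        generalize κ x = q
        fin_cases q <;> simp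
      rcases this with h | h | h
      · left; exact h1 _ _ (by rw [hx, hi]) (by rw [h, ki])
      · right; left; exact h1 _ _ (by rw [hx, hj]) (by rw [h, kj])
      · right; right; exact h1 _ _ (by rw [hx, hk]) (by rw [h, kk])
    · rintro (rfl | rfl | rfl)
      · exact hi
      · exact hj
      · exact hk
  have hne1 : i ≠ j := fun h => by rw [h, kj] at ki; exact absurd ki (by decide)
  have hne2 : i ≠ k := fun h => by rw [h, kk] at ki; exact absurd ki (by decide)
  have hne3 : j ≠ k := fun h => by rw [h, kk] at kj; exact absurd kj (by decide)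
  have h3 := h2 i j k (by rw [hi, hj]) (by rw [hj, hk]) ki kj kk
  rw [hS, Finset.sum_insert (by simp [hne1, hne2]), Finset.sum_insert (by simp [hne3]),
    Finset.sum_singleton, ha, ha, ha, ki, kj, kk]
  have h4 : ((g i + g j + g k : ℤ) : ℚ) / D ≤ 0 :=
    div_nonpos_of_nonpos_of_nonneg (by exact_mod_cast h3) hDq.le
  have : (wt 0 : ℚ) = 26 ∧ (wt 1 : ℚ) = 31 ∧ (wt 2 : ℚ) = 43 := by simp [wt]
  rw [this.1, this.2.1, this.2.2]
  push_cast at h4
  rw [add_div, add_div] at h4
  linarith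

end rainbow

/-! ### Transfer along equivalences -/

theorem exists_equiv_of_card_fiber {α β γ : Type*} [Fintype α] [Fintype β] [DecidableEq γ]
    (f : α → γ) (g : β → γ) (h : ∀ c, #{a | f a = c} = #{b | g b = c}) :
    ∃ e : α ≃ β, ∀ a, g (e a) = f a := by
  classical
  have h1 : ∀ c, Nonempty ({a // f a = c} ≃ {b // g b = c}) := by
    intro c
    rw [← Fintype.card_eq]
    rw [Fintype.card_subtype, Fintype.card_subtype]
    exact h c
  choose e he using fun c => (⟨(h1 c).some, trivial⟩ : ∃ e : {a // f a = c} ≃ {b // g b = c}, True)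
  exact ⟨Equiv.ofFiberEquiv e, fun a => Equiv.ofFiberEquiv_map e a⟩

theorem exists_equiv_of_map_eq {α β γ : Type*} [Fintype α] [Fintype β] [DecidableEq γ]
    (f : α → γ) (g : β → γ)
    (h : (univ : Finset α).val.map f = (univ : Finset β).val.map g) :
    ∃ e : α ≃ β, ∀ a, g (e a) = f a := by
  classical
  refine exists_equiv_of_card_fiber f g (fun c => ?_)
  have h2 := congrArg (Multiset.count c) h
  rw [Multiset.count_map, Multiset.count_map] at h2
  rw [Finset.card_def, Finset.card_def, Finset.filter_val, Finset.filter_val]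
  simpa [eq_comm] using h2

theorem packsInto_equiv {α β : Type*} [Fintype α] [Fintype β] (e : α ≃ β) (a : α → ℚ) (b : β → ℚ)
    (hab : ∀ x, b (e x) = a x) (N : ℕ) (h : PacksInto b N) : PacksInto a N := by
  obtain ⟨φ, hφ⟩ := h
  refine ⟨fun x => φ (e x), fun y => ?_⟩
  refine le_trans (le_of_eq ?_) (hφ y)
  refine Finset.sum_equiv e ?_ ?_
  · intro i; simp
  · intro i _; exact (hab i).symm

theorem packsInto_of_map_eq {α β : Type*} [Fintype α] [Fintype β] (a : α → ℚ) (b : β → ℚ)
    (hab : (univ : Finset α).val.map a = (univ : Finset β).val.map b) (N : ℕ)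
    (h : PacksInto b N) : PacksInto a N := by
  obtain ⟨e, he⟩ := exists_equiv_of_map_eq a b hab
  exact packsInto_equiv e a b he N h

theorem map_get_univ {α : Type*} (l : List α) :
    (univ : Finset (Fin l.length)).val.map (fun i => l.get i) = (l : Multiset α) := by
  rw [Fin.univ_val_map, List.ofFn_get]

/-! ### Lists of integers -/

/-- coded size of the integer item `x` of class `j` -/
def sz (D : ℤ) (j : Fin 3) (x : ℤ) : ℚ := (wt j : ℚ) / 100 + (x : ℚ) / D

/-- the sizes of a system of three integer lists -/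
def sizes (D : ℤ) (I1 I2 I3 : List ℤ) : List ℚ :=
  I1.map (sz D 0) ++ I2.map (sz D 1) ++ I3.map (sz D 2)

theorem sz_range (D F : ℤ) (hD : 1000 * F ≤ D) (hD0 : 0 < D) (j : Fin 3) (x : ℤ) (hx : |x| ≤ F) :
    1 / 4 < sz D j x ∧ sz D j x ≤ 1 / 2 := by
  have hDq : (0 : ℚ) < D := by exact_mod_cast hD0
  have h0 : |(x : ℚ) / D| ≤ 1 / 1000 := by
    rw [abs_div, abs_of_pos hDq, div_le_div_iff₀ hDq (by norm_num)]
    have h2 : ((|x| : ℤ) : ℚ) * 1000 ≤ 1 * D := by
      have : |x| * 1000 ≤ 1 * D := by linarith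
      exact_mod_cast this
    rwa [Int.cast_abs] at h2
  have h1 := abs_le.1 h0
  have h2 : (26 : ℚ) ≤ wt j ∧ (wt j : ℚ) ≤ 43 := by
    unfold wt; constructor <;> split_ifs <;> norm_num
  unfold sz
  constructor <;> linarith [h1.1, h1.2, h2.1, h2.2]

theorem sizes_range (D F : ℤ) (I1 I2 I3 : List ℤ) (hF : ∀ x ∈ I1 ++ I2 ++ I3, |x| ≤ F)
    (hD : 1000 * F ≤ D) (hD0 : 0 < D) : ∀ a ∈ sizes D I1 I2 I3, 1 / 6 < a ∧ a ≤ 1 := by
  intro a ha
  have key : ∀ j x, x ∈ I1 ++ I2 ++ I3 → 1 / 6 < sz D j x ∧ sz D j x ≤ 1 := by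
    intro j x hx
    have := sz_range D F hD hD0 j x (hF x hx)
    constructor <;> linarith [this.1, this.2]
  simp only [sizes, List.mem_append, List.mem_map] at ha
  rcases ha with (⟨x, hx, rfl⟩ | ⟨x, hx, rfl⟩) | ⟨x, hx, rfl⟩
  · exact key _ _ (by simp [hx])
  · exact key _ _ (by simp [hx])
  · exact key _ _ (by simp [hx])

/-- the family of sizes on `Fin 3 × Fin B` attached to three integer families -/
def fam {B : ℕ} (D : ℤ) (G : Fin 3 → Fin B → ℤ) (p : Fin 3 × Fin B) : ℚ := sz D p.1 (G p.1 p.2)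

theorem map_fam {B : ℕ} (D : ℤ) (G : Fin 3 → Fin B → ℤ) :
    (univ : Finset (Fin 3 × Fin B)).val.map (fam D G) =
      ((univ : Finset (Fin B)).val.map (G 0)).map (sz D 0) +
      ((univ : Finset (Fin B)).val.map (G 1)).map (sz D 1) +
      ((univ : Finset (Fin B)).val.map (G 2)).map (sz D 2) := by
  have h3 : (univ : Finset (Fin 3)).val = 0 ::ₘ 1 ::ₘ 2 ::ₘ 0 := by decide
  rw [← Finset.univ_product_univ, Finset.product_val, h3, Multiset.cons_product,
    Multiset.cons_product, Multiset.cons_product, Multiset.zero_product, add_zero,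
    Multiset.map_add, Multiset.map_add, add_assoc]
  simp only [Multiset.map_map, Function.comp_def, fam]

/-- the multiset of coded sizes -/
theorem coe_sizes (D : ℤ) (I1 I2 I3 : List ℤ) :
    ((sizes D I1 I2 I3 : List ℚ) : Multiset ℚ) =
      (I1 : Multiset ℤ).map (sz D 0) + (I2 : Multiset ℤ).map (sz D 1)
        + (I3 : Multiset ℤ).map (sz D 2) := by
  simp [sizes]

theorem map_get_eq_map_fam {B : ℕ} (D : ℤ) (G : Fin 3 → Fin B → ℤ) (I1 I2 I3 : List ℤ)
    (h1 : (univ : Finset (Fin B)).val.map (G 0) = I1)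
    (h2 : (univ : Finset (Fin B)).val.map (G 1) = I2)
    (h3 : (univ : Finset (Fin B)).val.map (G 2) = I3) :
    (univ : Finset (Fin (sizes D I1 I2 I3).length)).val.map
      (fun i => (sizes D I1 I2 I3).get i) = (univ : Finset (Fin 3 × Fin B)).val.map (fam D G) := by
  rw [map_fam, h1, h2, h3, map_get_univ, coe_sizes]

/-- enumerating a multiset -/
theorem exists_enum {α : Type*} (M : Multiset α) (B : ℕ) (h : M.card = B) :
    ∃ t : Fin B → α, (univ : Finset (Fin B)).val.map t = M := by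
  subst h
  obtain ⟨l, rfl⟩ := Quot.exists_rep M
  exact ⟨fun i => l.get i, map_get_univ l⟩

theorem packs_fam {B : ℕ} (D : ℤ) (hD0 : 0 < D) (G : Fin 3 → Fin B → ℤ)
    (h : ∀ i, G 0 i + G 1 i + G 2 i ≤ 0) : PacksInto (fam D G) B := by
  refine packs_of_matching (κ := fun p : Fin 3 × Fin B => p.1) (fun p => G p.1 p.2) D hD0 B _
    (fun p => rfl) (fun p => p.2) ?_ ?_ ?_
  · rintro ⟨i, a⟩ ⟨j, b⟩ h1 h2
    simp_all
  · rintro ⟨i, a⟩ ⟨j, b⟩ ⟨k, c⟩ h1 h2 h3 h4 h5
    simp only at h1 h2 h3 h4 h5 ⊢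
    subst h1 h2 h3 h4 h5
    exact h a
  · intro b j
    exact ⟨(j, b), rfl, rfl⟩

/-- **YES side**: a perfect packing by feasible triples packs the sizes into `B` bins. -/
theorem packs_yes (D : ℤ) (hD0 : 0 < D) (I1 I2 I3 : List ℤ) (B : ℕ) (hB : I1.length = B)
    (M : Multiset (ℤ × ℤ × ℤ)) (hM : ∀ t ∈ M, t.1 + t.2.1 + t.2.2 ≤ 0)
    (h1 : M.map (fun t => t.1) = (I1 : Multiset ℤ))
    (h2 : M.map (fun t => t.2.1) = (I2 : Multiset ℤ))
    (h3 : M.map (fun t => t.2.2) = (I3 : Multiset ℤ)) :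
    PacksInto (fun i : Fin (sizes D I1 I2 I3).length => (sizes D I1 I2 I3).get i) B := by
  have hc : M.card = B := by
    rw [← hB, ← Multiset.coe_card, ← h1, Multiset.card_map]
  obtain ⟨t, ht⟩ := exists_enum M B hc
  have htM : ∀ i, t i ∈ M := by
    intro i; rw [← ht]; exact Multiset.mem_map_of_mem _ (Finset.mem_univ_val i)
  set G : Fin 3 → Fin B → ℤ := ![fun i => (t i).1, fun i => (t i).2.1, fun i => (t i).2.2] with hG
  refine packsInto_of_map_eq _ (fam D G) (map_get_eq_map_fam D G I1 I2 I3 ?_ ?_ ?_) B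
    (packs_fam D hD0 G ?_)
  · rw [← h1, ← ht, Multiset.map_map]; rfl
  · rw [← h2, ← ht, Multiset.map_map]; rfl
  · rw [← h3, ← ht, Multiset.map_map]; rfl
  · intro i; exact hM _ (htM i)

theorem countP_eq_card {B : ℕ} (g : Fin B → ℤ) (x : ℤ) (I : List ℤ)
    (h : (univ : Finset (Fin B)).val.map g = I) :
    I.countP (fun y => x ≤ y) = #{i | x ≤ g i} := by
  rw [← Multiset.coe_countP, ← h, Multiset.countP_map, Finset.card_def, Finset.filter_val]

/-- **Cover lemma.** -/
theorem cover_fam {B : ℕ} (D F : ℤ) (hD : 1000 * F ≤ D) (hD0 : 0 < D) (G : Fin 3 → Fin B → ℤ)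
    (hG : ∀ j i, |G j i| ≤ F) (c : ℕ) (hp : PacksInto (fam D G) (B + c)) :
    ∃ M : Multiset (ℤ × ℤ × ℤ),
      (∀ t ∈ M, (∃ i, G 0 i = t.1) ∧ (∃ i, G 1 i = t.2.1) ∧ (∃ i, G 2 i = t.2.2) ∧
        t.1 + t.2.1 + t.2.2 ≤ 0) ∧
      M.card ≤ B ∧ B ≤ M.card + 19 * c ∧
      (∀ x, #{i | x ≤ G 0 i} ≤ (B - M.card) + M.countP (fun t => x ≤ t.1)) ∧
      (∀ x, #{i | x ≤ G 1 i} ≤ (B - M.card) + M.countP (fun t => x ≤ t.2.1)) ∧
      (∀ x, #{i | x ≤ G 2 i} ≤ (B - M.card) + M.countP (fun t => x ≤ t.2.2)) := by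
  have hcard : ∀ j : Fin 3, #{p : Fin 3 × Fin B | p.1 = j} = B := by
    intro j
    have : univ.filter (fun p : Fin 3 × Fin B => p.1 = j) = ({j} : Finset (Fin 3)) ×ˢ univ := by
      ext p
      simp only [Finset.mem_filter, Finset.mem_univ, true_and, Finset.mem_product,
        Finset.mem_singleton, and_true]
    rw [this, Finset.card_product]; simp
  obtain ⟨M, hM, i1, i2, i3, hc⟩ := exists_matching (κ := fun p : Fin 3 × Fin B => p.1)
    (fun p => G p.1 p.2) D F hD hD0 (fun p => hG _ _) B c hcard (fam D G) (fun p => rfl) hp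
  have hMB : #M ≤ B := by
    have := Finset.card_le_card_of_injOn (s := M) (t := (univ : Finset (Fin B)))
      (fun t => t.1.2) (fun _ _ => Finset.mem_coe.2 (Finset.mem_univ _)) (fun t ht t' ht' h => i1 t ht t' ht'
        (Prod.ext (by rw [(hM t ht).1, (hM t' ht').1]) h))
    simpa using this
  -- generic covering bound
  have key : ∀ (π : (Fin 3 × Fin B) × (Fin 3 × Fin B) × (Fin 3 × Fin B) → Fin B)
      (hπ : ∀ t ∈ M, ∀ t' ∈ M, π t = π t' → t = t') (g : Fin B → ℤ) (x : ℤ),
      #{i | x ≤ g i} ≤ (B - #M) + #{t ∈ M | x ≤ g (π t)} := by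
    intro π hπ g x
    have h1 : univ.filter (fun i => x ≤ g i) ⊆
        (univ \ M.image π) ∪ (M.filter (fun t => x ≤ g (π t))).image π := by
      intro i hi
      have hi' := (Finset.mem_filter.1 hi).2
      rw [Finset.mem_union]
      by_cases h : i ∈ M.image π
      · right
        obtain ⟨t, ht, rfl⟩ := Finset.mem_image.1 h
        exact Finset.mem_image.2 ⟨t, Finset.mem_filter.2 ⟨ht, hi'⟩, rfl⟩
      · left; simp only [Finset.mem_sdiff, Finset.mem_univ, true_and]; exact h
    refine (Finset.card_le_card h1).trans ((Finset.card_union_le _ _).trans ?_)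
    refine Nat.add_le_add ?_ Finset.card_image_le
    rw [Finset.card_sdiff_of_subset (Finset.subset_univ _), Finset.card_univ, Fintype.card_fin,
      Finset.card_image_of_injOn (fun t ht t' ht' h => hπ t ht t' ht' h)]
  refine ⟨M.val.map (fun t => (G t.1.1 t.1.2, G t.2.1.1 t.2.1.2, G t.2.2.1 t.2.2.2)), ?_, ?_, ?_,
    ?_, ?_, ?_⟩
  · intro t ht
    obtain ⟨s, hs, rfl⟩ := Multiset.mem_map.1 ht
    have h := hM s hs
    refine ⟨⟨s.1.2, by rw [← h.1]⟩, ⟨s.2.1.2, by rw [← h.2.1]⟩, ⟨s.2.2.2, by rw [← h.2.2.1]⟩,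
      h.2.2.2⟩
  · rw [Multiset.card_map]; exact hMB
  · rw [Multiset.card_map]; exact hc
  · intro x
    rw [Multiset.card_map, Multiset.countP_map]
    refine (key (fun t => t.1.2) (fun t ht t' ht' h => i1 t ht t' ht'
        (Prod.ext (by rw [(hM t ht).1, (hM t' ht').1]) h)) (G 0) x).trans ?_
    refine Nat.add_le_add_left (le_of_eq ?_) _
    rw [Finset.card_def, Finset.filter_val]
    congr 1
    refine Multiset.filter_congr (fun t ht => ?_)
    rw [(hM t ht).1]
  · intro x
    rw [Multiset.card_map, Multiset.countP_map]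
    refine (key (fun t => t.2.1.2) (fun t ht t' ht' h => i2 t ht t' ht'
        (Prod.ext (by rw [(hM t ht).2.1, (hM t' ht').2.1]) h)) (G 1) x).trans ?_
    refine Nat.add_le_add_left (le_of_eq ?_) _
    rw [Finset.card_def, Finset.filter_val]
    congr 1
    refine Multiset.filter_congr (fun t ht => ?_)
    rw [(hM t ht).2.1]
  · intro x
    rw [Multiset.card_map, Multiset.countP_map]
    refine (key (fun t => t.2.2.2) (fun t ht t' ht' h => i3 t ht t' ht'
        (Prod.ext (by rw [(hM t ht).2.2.1, (hM t' ht').2.2.1]) h)) (G 2) x).trans ?_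
    refine Nat.add_le_add_left (le_of_eq ?_) _
    rw [Finset.card_def, Finset.filter_val]
    congr 1
    refine Multiset.filter_congr (fun t ht => ?_)
    rw [(hM t ht).2.2.1]

theorem exists_enum_list (I : List ℤ) (B : ℕ) (h : I.length = B) :
    ∃ g : Fin B → ℤ, (univ : Finset (Fin B)).val.map g = (I : Multiset ℤ) :=
  exists_enum (I : Multiset ℤ) B (by simpa using h)

/-- **NO side**: a packing of the sizes into `B + c` bins yields a robust partial cover. -/
theorem cover_of_packs (D F : ℤ) (hD : 1000 * F ≤ D) (hD0 : 0 < D) (I1 I2 I3 : List ℤ) (B : ℕ)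
    (h1 : I1.length = B) (h2 : I2.length = B) (h3 : I3.length = B)
    (hF : ∀ x ∈ I1 ++ I2 ++ I3, |x| ≤ F) (c : ℕ)
    (hp : PacksInto (fun i : Fin (sizes D I1 I2 I3).length => (sizes D I1 I2 I3).get i) (B + c)) :
    ∃ M : Multiset (ℤ × ℤ × ℤ),
      (∀ t ∈ M, t.1 ∈ I1 ∧ t.2.1 ∈ I2 ∧ t.2.2 ∈ I3 ∧ t.1 + t.2.1 + t.2.2 ≤ 0) ∧
      M.card ≤ B ∧ B ≤ M.card + 19 * c ∧
      (∀ x, I1.countP (fun y => x ≤ y) ≤ (B - M.card) + M.countP (fun t => x ≤ t.1)) ∧
      (∀ x, I2.countP (fun y => x ≤ y) ≤ (B - M.card) + M.countP (fun t => x ≤ t.2.1)) ∧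
      (∀ x, I3.countP (fun y => x ≤ y) ≤ (B - M.card) + M.countP (fun t => x ≤ t.2.2)) := by
  obtain ⟨g1, hg1⟩ := exists_enum_list I1 B h1
  obtain ⟨g2, hg2⟩ := exists_enum_list I2 B h2
  obtain ⟨g3, hg3⟩ := exists_enum_list I3 B h3
  have m1 : ∀ i, g1 i ∈ I1 := fun i => by
    rw [← Multiset.mem_coe, ← hg1]; exact Multiset.mem_map_of_mem _ (Finset.mem_univ_val i)
  have m2 : ∀ i, g2 i ∈ I2 := fun i => by
    rw [← Multiset.mem_coe, ← hg2]; exact Multiset.mem_map_of_mem _ (Finset.mem_univ_val i)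
  have m3 : ∀ i, g3 i ∈ I3 := fun i => by
    rw [← Multiset.mem_coe, ← hg3]; exact Multiset.mem_map_of_mem _ (Finset.mem_univ_val i)
  obtain ⟨M, hM, a1, a2, a3, a4, a5⟩ := cover_fam D F hD hD0 ![g1, g2, g3] (fun j i => by
      fin_cases j
      · exact hF _ (by simp [m1 i])
      · exact hF _ (by simp [m2 i])
      · exact hF _ (by simp [m3 i])) c
    (packsInto_of_map_eq _ _ (map_get_eq_map_fam D ![g1, g2, g3] I1 I2 I3 hg1 hg2 hg3).symm _ hp)
  refine ⟨M, fun t ht => ?_, a1, a2, fun x => ?_, fun x => ?_, fun x => ?_⟩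
  · obtain ⟨⟨i, hi⟩, ⟨j, hj⟩, ⟨k, hk⟩, hs⟩ := hM t ht
    refine ⟨by rw [← hi]; exact m1 i, by rw [← hj]; exact m2 j, by rw [← hk]; exact m3 k, hs⟩
  · rw [countP_eq_card g1 x I1 hg1]; exact a3 x
  · rw [countP_eq_card g2 x I2 hg2]; exact a4 x
  · rw [countP_eq_card g3 x I3 hg3]; exact a5 x

/-! ### S0492 glue -/

/-- The conclusion of S0492 for a given `c`. -/
def GapInstance (c : ℕ) : Prop :=
    ∃ (m : ℕ) (σ : Fin m → ℚ) (mult : Fin m → ℕ) (B : ℕ),
      Function.Injective σ ∧ (∀ j, 0 < mult j) ∧ (∀ j, 1 / 6 < σ j ∧ σ j ≤ 1) ∧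
      (∃ z, TypeLPFeasible σ mult z ∧ typeLPCost z = B) ∧
      (∀ z, TypeLPFeasible σ mult z → (B : ℝ) ≤ typeLPCost z) ∧
      (∃ y : Finset ((j : Fin m) × Fin (mult j)) → ℝ,
        CopyLPFeasible (fun i => σ i.1) y ∧ copyLPCost y = B) ∧
      (∀ y : Finset ((j : Fin m) × Fin (mult j)) → ℝ,
        CopyLPFeasible (fun i => σ i.1) y → (B : ℝ) ≤ copyLPCost y) ∧
      ¬ PacksInto (fun i : (j : Fin m) × Fin (mult j) => σ i.1) (B + c)

/-- a set of items each larger than a quarter and of total size at most one has at most three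
elements -/
theorem card_le_three {ι : Type*} (a : ι → ℚ) (H : Finset ι) (ha : ∀ i, 1 / 4 < a i)
    (h : ∑ i ∈ H, a i ≤ 1) : #H ≤ 3 := by
  by_contra hcon
  push Not at hcon
  have hne : H.Nonempty := by rw [← Finset.card_pos]; omega
  have h1 : ∑ i ∈ H, (1 : ℚ) / 4 < ∑ i ∈ H, a i :=
    Finset.sum_lt_sum_of_nonempty hne (fun i _ => ha i)
  simp only [Finset.sum_const, nsmul_eq_mul] at h1
  have h2 : (4 : ℚ) ≤ #H := by exact_mod_cast hcon
  linarith

/-- **S0492 glue.** -/
theorem gap_of_family {ι τ : Type*} [Fintype ι] [DecidableEq ι] [Fintype τ] (c B : ℕ)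
    (a : ι → ℚ) (ha : ∀ i, 1 / 4 < a i ∧ a i ≤ 1) (hcard : Fintype.card ι = 3 * B)
    (P : τ → Finset ι) (w : τ → ℝ) (hw : ∀ t, 0 ≤ w t) (hwB : ∑ t, w t = B)
    (hP : ∀ t, ∑ i ∈ P t, a i ≤ 1) (hcov : ∀ i, 1 ≤ ∑ t with i ∈ P t, w t)
    (hno : ¬ PacksInto a (B + c)) : GapInstance c := by
  classical
  set S : Finset ℚ := univ.image a with hS
  set m := #S with hm
  let eS : S ≃ Fin m := S.equivFin
  let σ : Fin m → ℚ := fun j => (eS.symm j : ℚ)
  have hσi : Function.Injective σ := fun i j h => by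
    have : eS.symm i = eS.symm j := Subtype.ext h
    exact eS.symm.injective this
  have hσS : ∀ i, ∃ j, σ j = a i := fun i =>
    ⟨eS ⟨a i, Finset.mem_image_of_mem _ (Finset.mem_univ i)⟩, by simp [σ]⟩
  have hσa : ∀ j, ∃ i, a i = σ j := fun j => by
    obtain ⟨i, -, hi⟩ := Finset.mem_image.1 (eS.symm j).2
    exact ⟨i, hi⟩
  let mult : Fin m → ℕ := fun j => #{i | a i = σ j}
  have hσ4 : ∀ j, 1 / 4 < σ j := fun j => by
    obtain ⟨i, hi⟩ := hσa j; rw [← hi]; exact (ha i).1
  -- the equivalence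
  obtain ⟨e, he⟩ := exists_equiv_of_card_fiber (fun p : (j : Fin m) × Fin (mult j) => σ p.1) a
    (by
      intro v
      by_cases hv : ∃ j, σ j = v
      · obtain ⟨j, rfl⟩ := hv
        have h1 : univ.filter (fun p : (j : Fin m) × Fin (mult j) => σ p.1 = σ j) =
            (univ : Finset (Fin (mult j))).map ⟨fun t => ⟨j, t⟩,
              fun s t h => by
                have h' : (⟨j, s⟩ : (j : Fin m) × Fin (mult j)) = ⟨j, t⟩ := h
                exact eq_of_heq (Sigma.mk.inj h').2⟩ := by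
          ext ⟨k, t⟩
          simp only [Finset.mem_filter, Finset.mem_univ, true_and, Finset.mem_map]
          constructor
          · intro h
            have := hσi h
            subst this
            exact ⟨t, rfl⟩
          · rintro ⟨s, hs⟩
            rw [← (Sigma.mk.inj hs).1]
        rw [h1, Finset.card_map, Finset.card_univ, Fintype.card_fin]
      · have h1 : univ.filter (fun p : (j : Fin m) × Fin (mult j) => σ p.1 = v) = ∅ := by
          apply Finset.filter_eq_empty_iff.2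
          intro p _ h
          exact hv ⟨p.1, h⟩
        have h2 : univ.filter (fun i => a i = v) = ∅ := by
          apply Finset.filter_eq_empty_iff.2
          intro i _ h
          obtain ⟨j, hj⟩ := hσS i
          exact hv ⟨j, by rw [hj, h]⟩
        rw [h1, h2, Finset.card_empty, Finset.card_empty])
  have hsum : ∑ j, (mult j : ℝ) = 3 * B := by
    have h1 : ∑ j, mult j = Fintype.card ((j : Fin m) × Fin (mult j)) := by simp
    have h2 : ∑ j, mult j = 3 * B := by rw [h1, Fintype.card_congr e, hcard]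
    exact_mod_cast h2
  refine ⟨m, σ, mult, B, hσi, ?_, ?_, ?_, ?_, ?_, ?_, ?_⟩
  · intro j
    obtain ⟨i, hi⟩ := hσa j
    exact Finset.card_pos.2 ⟨i, by simp [hi]⟩
  · intro j
    obtain ⟨i, hi⟩ := hσa j
    rw [← hi]
    exact ⟨lt_trans (by norm_num) (ha i).1, (ha i).2⟩
  · -- type LP feasible
    let cfg : τ → (Fin m → ℕ) := fun t j => #{i ∈ P t | a i = σ j}
    refine ⟨∑ t, Finsupp.single (cfg t) (w t), ⟨?_, ?_, ?_⟩, ?_⟩
    · intro v
      rw [Finsupp.finsetSum_apply]
      refine Finset.sum_nonneg (fun t _ => ?_)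
      rw [Finsupp.single_apply]
      split_ifs
      · exact hw t
      · exact le_rfl
    · intro v hv
      have h1 : ∃ t, cfg t = v := by
        by_contra hcon
        push Not at hcon
        rw [Finsupp.mem_support_iff, Finsupp.finsetSum_apply] at hv
        apply hv
        refine Finset.sum_eq_zero (fun t _ => ?_)
        rw [Finsupp.single_apply, if_neg (hcon t)]
      obtain ⟨t, rfl⟩ := h1
      refine le_trans (le_of_eq ?_) (hP t)
      -- ∑ j, σ j * #{i ∈ P t | a i = σ j} = ∑ i ∈ P t, a i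
      have h2 : ∀ j, σ j * (cfg t j : ℚ) = ∑ i ∈ P t with a i = σ j, a i := by
        intro j
        rw [Finset.sum_congr rfl (g := fun _ => σ j) (fun i hi => (Finset.mem_filter.1 hi).2)]
        rw [Finset.sum_const, nsmul_eq_mul, mul_comm]
      rw [Finset.sum_congr rfl (fun j _ => h2 j)]
      -- fiberwise over j
      choose J hJ using hσS
      have h3 : ∀ j, (P t).filter (fun i => a i = σ j) = (P t).filter (fun i => J i = j) := by
        intro j
        apply Finset.filter_congr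
        intro i _
        constructor
        · intro h; exact hσi (by rw [hJ, h])
        · rintro rfl; rw [hJ]
      rw [Finset.sum_congr rfl (fun j _ => by rw [h3 j])]
      exact Finset.sum_fiberwise (s := P t) (g := J) (f := a)
    · intro j
      have hz : (∑ t, Finsupp.single (cfg t) (w t)).sum (fun c v => (c j : ℝ) * v)
          = ∑ t, (cfg t j : ℝ) * w t := by
        rw [← Finsupp.sum_finsetSum_index]
        · refine Finset.sum_congr rfl (fun t _ => ?_)
          rw [Finsupp.sum_single_index]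
          simp
        · intro; simp
        · intro c v v'; ring
      rw [hz]
      have h1 : ∀ t, (cfg t j : ℝ) * w t = ∑ i with a i = σ j, if i ∈ P t then w t else 0 := by
        intro t
        rw [← Finset.sum_filter, Finset.sum_const, nsmul_eq_mul, Finset.filter_filter]
        congr 2
        change #_ = #_
        congr 1
        ext i
        simp only [Finset.mem_filter, Finset.mem_univ, true_and]
        tauto
      rw [Finset.sum_congr rfl (fun t _ => h1 t), Finset.sum_comm]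
      have h2 : ∀ i, (1 : ℝ) ≤ ∑ t, if i ∈ P t then w t else 0 := by
        intro i
        rw [← Finset.sum_filter]; exact hcov i
      calc (mult j : ℝ) = ∑ i with a i = σ j, (1 : ℝ) := by
            rw [Finset.sum_const, nsmul_eq_mul, mul_one]
        _ ≤ _ := Finset.sum_le_sum (fun i _ => h2 i)
    · unfold typeLPCost
      rw [← Finsupp.sum_finsetSum_index]
      · rw [← hwB]
        refine Finset.sum_congr rfl (fun t _ => ?_)
        rw [Finsupp.sum_single_index]
        rfl
      · intro; rfl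
      · intro c v v'; rfl
  · -- type LP lower bound
    rintro z ⟨hz0, hzc, hzm⟩
    have h1 : ∀ c ∈ z.support, (∑ j, (c j : ℝ)) ≤ 3 := by
      intro c hc
      have h2 := hzc c hc
      have h3 : ∑ j, (1 / 4 : ℚ) * (c j : ℚ) ≤ 1 :=
        (Finset.sum_le_sum (fun j _ =>
          mul_le_mul_of_nonneg_right (hσ4 j).le (Nat.cast_nonneg _))).trans h2
      have h4 : ∑ j, c j ≤ 3 := by
        by_contra hcon
        push Not at hcon
        have h5 : 0 < ∑ j, c j := by omega
        obtain ⟨j0, -, hj0⟩ := Finset.exists_ne_zero_of_sum_ne_zero h5.ne'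
        have h6 : ∑ j, (1 / 4 : ℚ) * (c j : ℚ) < ∑ j, σ j * (c j : ℚ) := by
          refine Finset.sum_lt_sum (fun j _ =>
            mul_le_mul_of_nonneg_right (hσ4 j).le (Nat.cast_nonneg _)) ⟨j0, Finset.mem_univ _, ?_⟩
          exact mul_lt_mul_of_pos_right (hσ4 j0) (by exact_mod_cast Nat.pos_of_ne_zero hj0)
        rw [← Finset.mul_sum] at h6
        have h7 : (4 : ℚ) ≤ ∑ j, (c j : ℚ) := by exact_mod_cast hcon
        linarith
      exact_mod_cast h4
    have h2 : ∑ j, (mult j : ℝ) ≤ 3 * typeLPCost z := by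
      calc ∑ j, (mult j : ℝ) ≤ ∑ j, z.sum (fun c v => (c j : ℝ) * v) :=
            Finset.sum_le_sum (fun j _ => hzm j)
        _ = ∑ c ∈ z.support, (∑ j, (c j : ℝ)) * z c := by
            unfold Finsupp.sum
            rw [Finset.sum_comm]
            refine Finset.sum_congr rfl (fun c _ => ?_)
            rw [Finset.sum_mul]
        _ ≤ ∑ c ∈ z.support, 3 * z c :=
            Finset.sum_le_sum (fun c hc => mul_le_mul_of_nonneg_right (h1 c hc) (hz0 c))
        _ = 3 * typeLPCost z := by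
            unfold typeLPCost Finsupp.sum
            rw [Finset.mul_sum]
    rw [hsum] at h2
    linarith
  · -- copy LP feasible
    let Q : τ → Finset ((j : Fin m) × Fin (mult j)) := fun t => (P t).map e.symm.toEmbedding
    have hQmem : ∀ p t, p ∈ Q t ↔ e p ∈ P t := by
      intro p t
      simp [Q]
    refine ⟨fun H => ∑ t, if Q t = H then w t else 0, ⟨?_, ?_, ?_⟩, ?_⟩
    · intro H
      refine Finset.sum_nonneg (fun t _ => ?_)
      split_ifs
      · exact hw t
      · exact le_rfl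
    · intro H hH
      obtain ⟨t, -, ht⟩ := Finset.exists_ne_zero_of_sum_ne_zero hH
      have ht' : Q t = H := by
        by_contra hcon
        rw [if_neg hcon] at ht
        exact ht rfl
      rw [← ht']
      refine le_trans (le_of_eq ?_) (hP t)
      rw [Finset.sum_map]
      refine Finset.sum_congr rfl (fun i _ => ?_)
      have := he (e.symm i)
      rw [Equiv.apply_symm_apply] at this
      rw [this]; rfl
    · intro p
      rw [Finset.sum_comm]
      have h1 : ∀ t, (∑ H with p ∈ H, if Q t = H then w t else 0) =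
          if e p ∈ P t then w t else 0 := by
        intro t
        rw [Finset.sum_ite_eq]
        simp only [Finset.mem_filter, Finset.mem_univ, true_and, hQmem]
      rw [Finset.sum_congr rfl (fun t _ => h1 t), ← Finset.sum_filter]
      exact hcov (e p)
    · unfold copyLPCost
      rw [Finset.sum_comm, ← hwB]
      refine Finset.sum_congr rfl (fun t _ => ?_)
      rw [Finset.sum_ite_eq]; simp
  · -- copy LP lower bound
    rintro y ⟨hy0, hyH, hyc⟩
    have h1 : ∀ H, y H ≠ 0 → (#H : ℝ) ≤ 3 := by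
      intro H hH
      have := card_le_three (fun i : (j : Fin m) × Fin (mult j) => σ i.1) H
        (fun i => hσ4 i.1) (hyH H hH)
      exact_mod_cast this
    have h2 : ∑ p : (j : Fin m) × Fin (mult j), (1 : ℝ) ≤ 3 * copyLPCost y := by
      calc ∑ p : (j : Fin m) × Fin (mult j), (1 : ℝ)
          ≤ ∑ p : (j : Fin m) × Fin (mult j), ∑ H with p ∈ H, y H :=
            Finset.sum_le_sum (fun p _ => hyc p)
        _ = ∑ p : (j : Fin m) × Fin (mult j), ∑ H, if p ∈ H then y H else 0 := by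
            refine Finset.sum_congr rfl (fun p _ => ?_)
            rw [Finset.sum_filter]
        _ = ∑ H, (#H : ℝ) * y H := by
            rw [Finset.sum_comm]
            refine Finset.sum_congr rfl (fun H _ => ?_)
            rw [← Finset.sum_filter]
            simp
        _ ≤ ∑ H, 3 * y H := by
            refine Finset.sum_le_sum (fun H _ => ?_)
            by_cases hH : y H = 0
            · rw [hH]; simp
            · exact mul_le_mul_of_nonneg_right (h1 H hH) (hy0 H)
        _ = 3 * copyLPCost y := by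
            unfold copyLPCost
            rw [Finset.mul_sum]
    have h3 : ∑ p : (j : Fin m) × Fin (mult j), (1 : ℝ) = 3 * B := by
      rw [Finset.sum_const, nsmul_eq_mul, mul_one, Finset.card_univ, Fintype.card_congr e, hcard]
      push_cast; ring
    rw [h3] at h2
    linarith
  · intro h
    refine hno ?_
    refine packsInto_equiv e.symm a _ (fun i => ?_) _ h
    have := he (e.symm i)
    rw [Equiv.apply_symm_apply] at this
    exact this.symm

theorem sz_sum (D x y z : ℤ) (hD0 : 0 < D) (h : x + y + z ≤ 0) :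
    sz D 0 x + sz D 1 y + sz D 2 z ≤ 1 := by
  have hDq : (0 : ℚ) < D := by exact_mod_cast hD0
  have h4 : ((x + y + z : ℤ) : ℚ) / D ≤ 0 :=
    div_nonpos_of_nonpos_of_nonneg (by exact_mod_cast h) hDq.le
  have : (wt 0 : ℚ) = 26 ∧ (wt 1 : ℚ) = 31 ∧ (wt 2 : ℚ) = 43 := by simp [wt]
  unfold sz
  rw [this.1, this.2.1, this.2.2]
  push_cast at h4
  rw [add_div, add_div] at h4
  linarith

/-- Robust infeasibility in the form produced by `cover_of_packs`. -/
def NoCover (c B : ℕ) (I1 I2 I3 : List ℤ) : Prop :=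
  ¬ ∃ M : Multiset (ℤ × ℤ × ℤ),
      (∀ t ∈ M, t.1 ∈ I1 ∧ t.2.1 ∈ I2 ∧ t.2.2 ∈ I3 ∧ t.1 + t.2.1 + t.2.2 ≤ 0) ∧
      M.card ≤ B ∧ B ≤ M.card + 19 * c ∧
      (∀ x, I1.countP (fun y => x ≤ y) ≤ (B - M.card) + M.countP (fun t => x ≤ t.1)) ∧
      (∀ x, I2.countP (fun y => x ≤ y) ≤ (B - M.card) + M.countP (fun t => x ≤ t.2.1)) ∧
      (∀ x, I3.countP (fun y => x ≤ y) ≤ (B - M.card) + M.countP (fun t => x ≤ t.2.2))

theorem abs_le_sum_abs (I : List ℤ) : ∀ x ∈ I, |x| ≤ (I.map (fun y => |y|)).sum := by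
  intro x hx
  exact List.single_le_sum (by simp) _ (List.mem_map_of_mem hx)

/-- **S0492 from integer lists**: half-integral packing plus robust infeasibility. -/
theorem gap_of_lists (c B : ℕ) (I1 I2 I3 : List ℤ) (l1 : I1.length = B) (l2 : I2.length = B)
    (l3 : I3.length = B) (M2 : Multiset (ℤ × ℤ × ℤ)) (hM : ∀ t ∈ M2, t.1 + t.2.1 + t.2.2 ≤ 0)
    (h1 : M2.map (fun t => t.1) = 2 • (I1 : Multiset ℤ))
    (h2 : M2.map (fun t => t.2.1) = 2 • (I2 : Multiset ℤ))
    (h3 : M2.map (fun t => t.2.2) = 2 • (I3 : Multiset ℤ))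
    (hno : NoCover c B I1 I2 I3) : GapInstance c := by
  classical
  set F : ℤ := ((I1 ++ I2 ++ I3).map (fun y => |y|)).sum with hF
  have hF' := abs_le_sum_abs (I1 ++ I2 ++ I3)
  have hF0 : 0 ≤ F := by
    refine List.sum_nonneg (fun x hx => ?_)
    obtain ⟨y, -, rfl⟩ := List.mem_map.1 hx
    exact abs_nonneg y
  set D : ℤ := 1000 * F + 1 with hD
  have hD1 : 1000 * F ≤ D := by omega
  have hD0 : 0 < D := by omega
  obtain ⟨g1, hg1⟩ := exists_enum_list I1 B l1
  obtain ⟨g2, hg2⟩ := exists_enum_list I2 B l2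
  obtain ⟨g3, hg3⟩ := exists_enum_list I3 B l3
  set G : Fin 3 → Fin B → ℤ := ![g1, g2, g3] with hG
  have mem : ∀ (g : Fin B → ℤ) (I : List ℤ), (univ : Finset (Fin B)).val.map g = I →
      ∀ i, g i ∈ I := fun g I h i => by
    rw [← Multiset.mem_coe, ← h]; exact Multiset.mem_map_of_mem _ (Finset.mem_univ_val i)
  have hGF : ∀ j i, |G j i| ≤ F := by
    intro j i
    fin_cases j
    · exact hF' _ (by simp [G, mem g1 I1 hg1 i])
    · exact hF' _ (by simp [G, mem g2 I2 hg2 i])
    · exact hF' _ (by simp [G, mem g3 I3 hg3 i])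
  have hcard2 : M2.card = 2 * B := by
    have := congrArg Multiset.card h1
    rw [Multiset.card_map] at this
    rw [this]; simp [l1]
  obtain ⟨t, ht⟩ := exists_enum M2 (2 * B) hcard2
  have htM : ∀ s, t s ∈ M2 := fun s => by
    rw [← ht]; exact Multiset.mem_map_of_mem _ (Finset.mem_univ_val s)
  set co : Fin 3 → Fin (2 * B) → ℤ := ![fun s => (t s).1, fun s => (t s).2.1, fun s => (t s).2.2]
    with hco
  have hdouble : ∀ j, (univ : Finset (Fin (2 * B))).val.map (co j) =
      (univ : Finset (Fin 2 × Fin B)).val.map (fun p => G j p.2) := by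
    have hd : ∀ g : Fin B → ℤ, (univ : Finset (Fin 2 × Fin B)).val.map (fun p => g p.2) =
        2 • (univ : Finset (Fin B)).val.map g := by
      intro g
      have h3 : (univ : Finset (Fin 2)).val = 0 ::ₘ 1 ::ₘ 0 := by decide
      rw [← Finset.univ_product_univ, Finset.product_val, h3, Multiset.cons_product,
        Multiset.cons_product, Multiset.zero_product, add_zero, Multiset.map_add, two_nsmul]
      simp only [Multiset.map_map, Function.comp_def]
    intro j
    rw [hd]
    fin_cases j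
    · change (univ : Finset (Fin (2 * B))).val.map (fun s => (t s).1) =
        2 • (univ : Finset (Fin B)).val.map g1
      rw [hg1, ← h1, ← ht, Multiset.map_map]; rfl
    · change (univ : Finset (Fin (2 * B))).val.map (fun s => (t s).2.1) =
        2 • (univ : Finset (Fin B)).val.map g2
      rw [hg2, ← h2, ← ht, Multiset.map_map]; rfl
    · change (univ : Finset (Fin (2 * B))).val.map (fun s => (t s).2.2) =
        2 • (univ : Finset (Fin B)).val.map g3
      rw [hg3, ← h3, ← ht, Multiset.map_map]; rfl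
  choose ε hε using fun j => exists_equiv_of_map_eq (co j) (fun p : Fin 2 × Fin B => G j p.2)
    (hdouble j)
  let P : Fin (2 * B) → Finset (Fin 3 × Fin B) := fun s =>
    univ.image (fun j => (j, (ε j s).2))
  refine gap_of_family c B (fam D G) (fun p => ?_) ?_ P (fun _ => 1 / 2) (fun _ => by norm_num) ?_
    ?_ ?_ ?_
  · have := sz_range D F hD1 hD0 p.1 _ (hGF p.1 p.2)
    exact ⟨this.1, this.2.trans (by norm_num)⟩
  · simp
  · rw [Finset.sum_const, Finset.card_univ, Fintype.card_fin, nsmul_eq_mul]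
    push_cast
    ring
  · intro s
    rw [Finset.sum_image (fun i _ j _ h => congrArg Prod.fst h), Fin.sum_univ_three]
    refine le_trans (le_of_eq ?_) (sz_sum D _ _ _ hD0 (hM _ (htM s)))
    have e0 := hε 0 s
    have e1 := hε 1 s
    have e2 := hε 2 s
    simp only [co, Matrix.cons_val_zero, Matrix.cons_val_one, Matrix.cons_val] at e0 e1 e2
    simp only [fam]
    rw [e0, e1, e2]
  · rintro ⟨j, b⟩
    have h1 : univ.filter (fun s => (j, b) ∈ P s) =
        ((univ : Finset (Fin 2)) ×ˢ ({b} : Finset (Fin B))).map (ε j).symm.toEmbedding := by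
      ext s
      simp only [Finset.mem_filter, Finset.mem_univ, true_and, P, Finset.mem_map,
        Finset.mem_image, Finset.mem_product, Finset.mem_singleton]
      constructor
      · rintro ⟨j', h⟩
        obtain ⟨h1, h2⟩ := Prod.mk.inj h
        subst h1
        exact ⟨ε j' s, h2, by simp⟩
      · rintro ⟨p, hp, rfl⟩
        exact ⟨j, by simp [hp]⟩
    rw [h1, Finset.sum_const, Finset.card_map, Finset.card_product]
    simp
  · intro hp
    apply hno
    refine cover_of_packs D F hD1 hD0 I1 I2 I3 B l1 l2 l3 hF' c ?_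
    exact packsInto_of_map_eq _ _ (map_get_eq_map_fam D G I1 I2 I3 hg1 hg2 hg3) _ hp

end Crest.Agent.R318.Wrap_91
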