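import Crest.Agent.R318.Spec_135

/-!
# Row 318: packing side (SAT side and half-integral LP side) of the chain construction

`PackM d I1 I2 I3`: a multiset of feasible triples whose slot projections are `d` times the items.
`chain_own`: the own items of a chain (nodes, starts, bottoms, z-items, wires) have a `d`-fold
packing for every `f` with `f r ≤ d`, `2 ∑ f = d l` (and the wire identity).
-/

set_option autoImplicit false

namespace Crest.Agent.R318.Pack123

open Finset

/-- `d`-fold packing of three multisets of integer items by feasible triples -/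
def PackM (d : ℕ) (I1 I2 I3 : Multiset ℤ) : Prop :=
  ∃ M : Multiset (ℤ × ℤ × ℤ), (∀ t ∈ M, t.1 + t.2.1 + t.2.2 ≤ 0) ∧
    M.map (fun t => t.1) = d • I1 ∧ M.map (fun t => t.2.1) = d • I2 ∧
    M.map (fun t => t.2.2) = d • I3

theorem PackM.zero (d : ℕ) : PackM d 0 0 0 :=
  ⟨0, by simp, by simp, by simp, by simp⟩

theorem PackM.add {d : ℕ} {I1 I2 I3 J1 J2 J3 : Multiset ℤ} (h : PackM d I1 I2 I3)
    (h' : PackM d J1 J2 J3) : PackM d (I1 + J1) (I2 + J2) (I3 + J3) := by
  obtain ⟨M, h0, h1, h2, h3⟩ := h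
  obtain ⟨M', h0', h1', h2', h3'⟩ := h'
  refine ⟨M + M', ?_, ?_, ?_, ?_⟩
  · intro t ht
    rcases Multiset.mem_add.1 ht with h | h
    · exact h0 t h
    · exact h0' t h
  · rw [Multiset.map_add, h1, h1', smul_add]
  · rw [Multiset.map_add, h2, h2', smul_add]
  · rw [Multiset.map_add, h3, h3', smul_add]

theorem PackM.sum {κ : Type*} {d : ℕ} (s : Finset κ) {I1 I2 I3 : κ → Multiset ℤ}
    (h : ∀ i ∈ s, PackM d (I1 i) (I2 i) (I3 i)) :
    PackM d (∑ i ∈ s, I1 i) (∑ i ∈ s, I2 i) (∑ i ∈ s, I3 i) := by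
  classical
  induction s using Finset.induction_on with
  | empty => simpa using PackM.zero d
  | insert a s ha ih =>
    rw [sum_insert ha, sum_insert ha, sum_insert ha]
    exact (h a (mem_insert_self a s)).add (ih fun i hi => h i (mem_insert_of_mem hi))

theorem PackM.affine {d : ℕ} {I1 I2 I3 : Multiset ℤ} (h : PackM d I1 I2 I3) {s u1 u2 u3 : ℤ}
    (hs : 0 ≤ s) (hu : u1 + u2 + u3 ≤ 0) :
    PackM d (I1.map fun y => u1 + s * y) (I2.map fun y => u2 + s * y)
      (I3.map fun y => u3 + s * y) := by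
  obtain ⟨M, h0, h1, h2, h3⟩ := h
  refine ⟨M.map (fun t => (u1 + s * t.1, u2 + s * t.2.1, u3 + s * t.2.2)), ?_, ?_, ?_, ?_⟩
  · intro t ht
    obtain ⟨t', ht', rfl⟩ := Multiset.mem_map.1 ht
    have := mul_nonpos_of_nonneg_of_nonpos hs (h0 t' ht')
    simp only
    nlinarith
  · rw [Multiset.map_map, ← Multiset.map_nsmul, ← h1, Multiset.map_map]; rfl
  · rw [Multiset.map_map, ← Multiset.map_nsmul, ← h2, Multiset.map_map]; rfl
  · rw [Multiset.map_map, ← Multiset.map_nsmul, ← h3, Multiset.map_map]; rfl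

/-- `d`-fold packing from finitely many weighted triples -/
theorem PackM.of_smul {κ : Type*} {d : ℕ} (s : Finset κ) (m : κ → ℕ) (b : κ → ℤ × ℤ × ℤ)
    (hb : ∀ i ∈ s, m i ≠ 0 → (b i).1 + (b i).2.1 + (b i).2.2 ≤ 0) {I1 I2 I3 : Multiset ℤ}
    (h1 : ∑ i ∈ s, m i • ({(b i).1} : Multiset ℤ) = d • I1)
    (h2 : ∑ i ∈ s, m i • ({(b i).2.1} : Multiset ℤ) = d • I2)
    (h3 : ∑ i ∈ s, m i • ({(b i).2.2} : Multiset ℤ) = d • I3) : PackM d I1 I2 I3 := by
  have key : ∀ g : ℤ × ℤ × ℤ → ℤ,
      (∑ i ∈ s, m i • ({b i} : Multiset (ℤ × ℤ × ℤ))).map g =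
        ∑ i ∈ s, m i • ({g (b i)} : Multiset ℤ) := by
    intro g
    have h := map_sum (Multiset.mapAddMonoidHom g) (fun i => m i • ({b i} : Multiset (ℤ × ℤ × ℤ))) s
    rw [Multiset.coe_mapAddMonoidHom] at h
    rw [h]
    refine sum_congr rfl fun i _ => ?_
    rw [Multiset.map_nsmul, Multiset.map_singleton]
  refine ⟨∑ i ∈ s, m i • ({b i} : Multiset (ℤ × ℤ × ℤ)), ?_, ?_, ?_, ?_⟩
  · intro t ht
    rw [Multiset.mem_sum] at ht
    obtain ⟨i, hi, ht⟩ := ht
    have hm : m i ≠ 0 := by
      rintro h0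
      simp [h0] at ht
    have := Multiset.mem_of_mem_nsmul ht
    rw [Multiset.mem_singleton] at this
    subst this
    exact hb i hi hm
  · rw [key, h1]
  · rw [key, h2]
  · rw [key, h3]

/-! ### sums over ranges -/

theorem sum_range_mul_add {β : Type*} [AddCommMonoid β] (F : ℕ → β) (a b : ℕ) :
    ∑ j ∈ range (a * b), F j = ∑ i ∈ range a, ∑ r ∈ range b, F (i * b + r) := by
  induction a with
  | zero => simp
  | succ a ih => rw [Nat.succ_mul, sum_range_add, ih, sum_range_succ]

theorem sum_periodic {β : Type*} [AddCommMonoid β] (F : ℕ → β) (a l : ℕ) :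
    ∑ j ∈ range (a * l), F (j % l) = a • ∑ r ∈ range l, F r := by
  rw [sum_range_mul_add]
  have : ∀ i ∈ range a, ∑ r ∈ range l, F ((i * l + r) % l) = ∑ r ∈ range l, F r := by
    intro i _
    refine sum_congr rfl fun r hr => ?_
    rw [Nat.mul_add_mod', Nat.mod_eq_of_lt (mem_range.1 hr)]
  rw [sum_congr rfl this, sum_const, card_range]

theorem sum_compl {d l : ℕ} {f : ℕ → ℕ} (hf : ∀ r < l, f r ≤ d)
    (hs : 2 * ∑ r ∈ range l, f r = d * l) (he : Even l) :
    ∑ r ∈ range l, (d - f r) = d * (l / 2) := by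
  obtain ⟨m, rfl⟩ := he
  have h1 : ∑ r ∈ range (m + m), (d - f r) + ∑ r ∈ range (m + m), f r = (m + m) * d := by
    rw [← sum_add_distrib]
    rw [sum_congr rfl (fun r hr => Nat.sub_add_cancel (hf r (mem_range.1 hr)))]
    simp
  have h2 : (m + m) / 2 = m := by omega
  rw [h2]
  nlinarith

/-- the own items of the chain -/
theorem chain_own {d l Q : ℕ} (hl : Even l) (hl0 : 0 < l) {f : ℕ → ℕ}
    (hf : ∀ r < l, f r ≤ d) (hs : 2 * ∑ r ∈ range l, f r = d * l)
    {tau c : ℕ → ℤ} {H z : ℤ} {wires : Multiset ℤ} (hH : 0 ≤ H)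
    (hrec : ∀ j < l * Q, (tau (j + l) + H) + (-tau (j + 1) + H) + c j ≤ 0)
    (hgap : ∀ t < l * Q + l, tau t - tau (t + 1) + 2 * H + z ≤ 0)
    (hlo : ∀ t < l * Q + l, tau 0 ≤ tau t)
    (hhi : ∀ t ≤ l * Q + l, tau t ≤ tau (l * Q + l))
    (hw : ∑ j ∈ range (l * Q), f (j % l) • ({c j} : Multiset ℤ) = d • wires) :
    PackM d
      (∑ t ∈ Ico l (l * Q + l), ({tau t + H} : Multiset ℤ) + (l / 2) • {tau 0})
      (∑ t ∈ Ico 1 (l * Q + 1), ({-tau t + H} : Multiset ℤ) + (l / 2) • {-tau (l * Q + l)})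
      (((l * Q + l) / 2) • {z} + wires) := by
  have hsum := sum_compl hf hs hl
  have hlG : ∀ i, (l + i) % l = i % l := fun i => by rw [Nat.add_mod_left]
  have hGl : ∀ i, (l * Q + i) % l = i % l := fun i => by rw [Nat.mul_add_mod]
  have hfm : ∀ j, f (j % l) ≤ d := fun j => hf _ (Nat.mod_lt _ hl0)
  refine PackM.of_smul ((range (l * Q)).disjSum (range (l * Q + l)))
    (Sum.elim (fun j => f (j % l)) (fun t => d - f (t % l)))
    (Sum.elim (fun j => (tau (j + l) + H, -tau (j + 1) + H, c j))
      (fun t => (if l ≤ t then tau t + H else tau 0,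
        if t < l * Q then -tau (t + 1) + H else -tau (l * Q + l), z))) ?_ ?_ ?_ ?_
  · rintro (j | t) hi -
    · rw [Finset.inl_mem_disjSum] at hi
      exact hrec j (mem_range.1 hi)
    · rw [Finset.inr_mem_disjSum] at hi
      have ht := mem_range.1 hi
      have h1 := hgap t ht
      have h2 := hlo t ht
      have h3 := hhi (t + 1) ht
      simp only [Sum.elim_inr]
      split_ifs <;> linarith
  · rw [Finset.sum_disjSum]
    simp only [Sum.elim_inl, Sum.elim_inr]
    rw [← sum_range_add_sum_Ico (fun t => (d - f (t % l)) • ({if l ≤ t then tau t + H else tau 0} :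
      Multiset ℤ)) (show l ≤ l * Q + l by omega)]
    have e1 : ∑ t ∈ range l, (d - f (t % l)) • ({if l ≤ t then tau t + H else tau 0} :
        Multiset ℤ) = (d * (l / 2)) • {tau 0} := by
      rw [← hsum, Finset.sum_smul]
      refine sum_congr rfl fun t ht => ?_
      have ht := mem_range.1 ht
      rw [if_neg (by omega), Nat.mod_eq_of_lt ht]
    have e2 : ∀ g : ℕ → Multiset ℤ, ∑ t ∈ Ico l (l * Q + l), g t
        = ∑ j ∈ range (l * Q), g (j + l) := by
      intro g
      rw [Finset.sum_Ico_eq_sum_range, Nat.add_sub_cancel]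
      exact sum_congr rfl fun i _ => by rw [add_comm]
    rw [e1, e2, e2, smul_add, ← mul_smul, add_comm ((d * (l / 2)) • _), ← add_assoc,
      ← sum_add_distrib, Finset.smul_sum]
    congr 1
    refine sum_congr rfl fun j _ => ?_
    rw [if_pos (by omega), Nat.add_mod_right, ← add_smul, Nat.add_sub_cancel' (hfm j)]
  · rw [Finset.sum_disjSum]
    simp only [Sum.elim_inl, Sum.elim_inr]
    rw [← sum_range_add_sum_Ico (fun t => (d - f (t % l)) •
      ({if t < l * Q then -tau (t + 1) + H else -tau (l * Q + l)} :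
      Multiset ℤ)) (show l * Q ≤ l * Q + l by omega)]
    have e1 : ∑ t ∈ Ico (l * Q) (l * Q + l), (d - f (t % l)) •
        ({if t < l * Q then -tau (t + 1) + H else -tau (l * Q + l)} :
        Multiset ℤ) = (d * (l / 2)) • {-tau (l * Q + l)} := by
      rw [← hsum, Finset.sum_smul, Finset.sum_Ico_eq_sum_range, Nat.add_sub_cancel_left]
      refine sum_congr rfl fun t ht => ?_
      have ht := mem_range.1 ht
      rw [if_neg (by omega), hGl, Nat.mod_eq_of_lt ht]
    have e2 : ∀ g : ℕ → Multiset ℤ, ∑ t ∈ Ico 1 (l * Q + 1), g t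
        = ∑ j ∈ range (l * Q), g (j + 1) := by
      intro g
      rw [Finset.sum_Ico_eq_sum_range, Nat.add_sub_cancel]
      exact sum_congr rfl fun i _ => by rw [add_comm]
    rw [e1, e2, smul_add, ← mul_smul, ← add_assoc, ← sum_add_distrib, Finset.smul_sum]
    congr 1
    refine sum_congr rfl fun j hj => ?_
    rw [if_pos (mem_range.1 hj), ← add_smul, Nat.add_sub_cancel' (hfm j)]
  · rw [Finset.sum_disjSum]
    simp only [Sum.elim_inl, Sum.elim_inr]
    rw [hw, ← Finset.sum_smul]
    have e1 : ∑ t ∈ range (l * Q + l), (d - f (t % l)) = d * ((l * Q + l) / 2) := by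
      have e : l * Q + l = (Q + 1) * l := by ring
      rw [e, sum_periodic (fun r => d - f r) (Q + 1) l, hsum, smul_eq_mul]
      obtain ⟨m, rfl⟩ := hl
      have e2 : (Q + 1) * (m + m) / 2 = (Q + 1) * m := by
        rw [← mul_two, ← mul_assoc, Nat.mul_div_cancel _ (by norm_num)]
      have e3 : (m + m) / 2 = m := by omega
      rw [e2, e3]
      ring
    rw [e1, smul_add, mul_smul, add_comm]

/-! ### the wire identity -/

open Spec135 (Good HalfSol Sys PackD mm RR QQ GG T1 rmax kap code con rho eta Lam YY HH gg DD tau AA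
  drop wire node start bot1 bot2 zed cop1 cop2 cop3 wireBlock nLev ch1 ch2 ch3 chain S0 hNext sys)

theorem kap_eq {l m kk s r : ℕ} (hs : s < 4 * m) (hr : r < l) :
    kap l m (kk * (4 * m * l) + (s * l + r)) = kk := by
  unfold kap
  have hl : 0 < l := by omega
  have e : kk * (4 * m * l) + (s * l + r) = r + (kk * (4 * m) + s) * l := by ring
  rw [e, Nat.add_mul_div_right _ _ hl, Nat.div_eq_of_lt hr, zero_add,
    add_comm, Nat.add_mul_div_right _ _ (by omega), Nat.div_eq_of_lt hs, zero_add]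

theorem code_eq {l m kk s r : ℕ} (c : List ℕ) (hs : s < 4 * m) (hr : r < l) :
    code l m c (kk * (4 * m * l) + (s * l + r)) =
      if s < 2 * m then (if r ∈ c then 0 else 1) else (if r ∈ c then 3 else 2) := by
  unfold code
  have hl : 0 < l := by omega
  have e : kk * (4 * m * l) + (s * l + r) = r + (kk * (4 * m) + s) * l := by ring
  have e1 : (kk * (4 * m * l) + (s * l + r)) / l = kk * (4 * m) + s := by
    rw [e, Nat.add_mul_div_right _ _ hl, Nat.div_eq_of_lt hr, zero_add]
  have e2 : (kk * (4 * m * l) + (s * l + r)) % l = r := by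
    rw [e, Nat.add_mul_mod_self_right, Nat.mod_eq_of_lt hr]
  rw [e1, e2, add_comm (kk * (4 * m)), Nat.add_mul_mod_self_right, Nat.mod_eq_of_lt hs]

theorem sum_range_split {β : Type*} [AddCommMonoid β] (F : Bool → β) (M : ℕ) :
    ∑ s ∈ range (M + M), F (decide (s < M)) = M • F true + M • F false := by
  rw [sum_range_add]
  congr 1
  · rw [sum_congr rfl (fun s hs => by rw [decide_eq_true (mem_range.1 hs)]), sum_const, card_range]
  · rw [sum_congr rfl (fun s hs => by
      rw [decide_eq_false (show ¬ (M + s < M) by omega)]), sum_const, card_range]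

theorem sum_ite_mem {β : Type*} [AddCommMonoid β] {l : ℕ} {C : Finset ℕ} (hC : C ⊆ range l)
    (f : ℕ → ℕ) (x y : β) :
    ∑ r ∈ range l, f r • (if r ∈ C then x else y) =
      (∑ r ∈ C, f r) • x + (∑ r ∈ range l \ C, f r) • y := by
  rw [← sum_sdiff hC, add_comm, Finset.sum_smul, Finset.sum_smul]
  congr 1
  · exact sum_congr rfl fun r hr => by rw [if_pos hr]
  · exact sum_congr rfl fun r hr => by rw [if_neg (mem_sdiff.1 hr).2]

/-- the wire items of one window, for a constraint of size `n` (out of `l` wires) -/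
def wireWin (l m n : ℕ) (c : ℕ → ℤ) (kk : ℕ) : Multiset ℤ :=
  (m * n) • {c (4 * kk)} + (m * (l - n)) • {c (4 * kk + 1)} +
    (m * (l - n)) • {c (4 * kk + 2)} + (m * n) • {c (4 * kk + 3)}

theorem wire_window {d l m : ℕ} {C : List ℕ} (hC : ∀ i ∈ C, i < l) (hCn : C.Nodup)
    (hCe : Even C.length)
    (hl : Even l) {f : ℕ → ℕ} (hs : 2 * ∑ r ∈ range l, f r = d * l)
    (hsC : 2 * (C.map f).sum = d * C.length) (c : ℕ → ℤ) (kk : ℕ) :
    ∑ s ∈ range (4 * m), ∑ r ∈ range l, f r •
      ({c (4 * kk + if s < 2 * m then (if r ∈ C then 0 else 1) else (if r ∈ C then 3 else 2))} :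
        Multiset ℤ) = d • wireWin l m C.length c kk := by
  classical
  have hC' : C.toFinset ⊆ range l := fun i hi => mem_range.2 (hC i (List.mem_toFinset.1 hi))
  have hcd : C.toFinset.card = C.length := List.toFinset_card_of_nodup hCn
  have hcard : C.length ≤ l := by rw [← hcd]; simpa using card_le_card hC'
  obtain ⟨n, hn⟩ := hCe
  obtain ⟨k, hk⟩ := hl
  have h0 : ∑ r ∈ C.toFinset, f r = (C.map f).sum := List.sum_toFinset f hCn
  have h1 : ∑ r ∈ C.toFinset, f r = d * n := by
    rw [h0]
    rw [hn] at hsC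
    nlinarith
  have h2 : ∑ r ∈ range l \ C.toFinset, f r = d * (k - n) := by
    have h3 : ∑ r ∈ range l \ C.toFinset, f r + ∑ r ∈ C.toFinset, f r = ∑ r ∈ range l, f r :=
      sum_sdiff hC'
    rw [Nat.mul_sub]
    rw [h1] at h3
    rw [hk] at hs h3
    have : ∑ r ∈ range (k + k), f r = d * k := by nlinarith
    rw [this] at h3
    rw [hk]
    omega
  have h3 := sum_range_split (fun b => ∑ r ∈ range l, f r •
      ({c (4 * kk + if b = true then (if r ∈ C then 0 else 1) else (if r ∈ C then 3 else 2))} :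
        Multiset ℤ)) (2 * m)
  simp only [decide_eq_true_eq, if_true, if_neg Bool.false_ne_true] at h3
  rw [show 4 * m = 2 * m + 2 * m by ring, h3]
  have h4 : ∀ r, ({c (4 * kk + if r ∈ C then 0 else 1)} : Multiset ℤ) =
      if r ∈ C.toFinset then {c (4 * kk)} else {c (4 * kk + 1)} := by
    intro r; simp only [List.mem_toFinset]; split_ifs <;> rfl
  have h5 : ∀ r, ({c (4 * kk + if r ∈ C then 3 else 2)} : Multiset ℤ) =
      if r ∈ C.toFinset then {c (4 * kk + 3)} else {c (4 * kk + 2)} := by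
    intro r; simp only [List.mem_toFinset]; split_ifs <;> rfl
  simp only [h4, h5]
  rw [sum_ite_mem hC', sum_ite_mem hC', h1, h2]
  unfold wireWin
  simp only [smul_add, ← mul_smul]
  have e1 : 2 * m * (d * n) = d * (m * C.length) := by rw [hn]; ring
  have e2 : 2 * m * (d * (k - n)) = d * (m * (l - C.length)) := by
    have : l - C.length = 2 * (k - n) := by omega
    rw [this]; ring
  rw [e1, e2]
  abel

theorem wire_identity {d l : ℕ} {Cs : List (List ℕ)} (hG : Good l Cs) (h : ℕ)
    {f : ℕ → ℕ} (hs : 2 * ∑ r ∈ range l, f r = d * l)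
    (hsC : ∀ C ∈ Cs, 2 * (C.map f).sum = d * C.length) (c : ℕ → ℤ) :
    ∑ j ∈ range (GG l Cs.length h), f (j % l) • ({c (rho l Cs h j)} : Multiset ℤ) =
      d • ∑ kk ∈ range (Cs.length * RR l h), wireWin l (mm l h) (con Cs kk).length c kk := by
  have e : GG l Cs.length h = (Cs.length * RR l h) * (4 * mm l h * l) := by
    unfold GG QQ; ring
  rw [e, sum_range_mul_add, Finset.smul_sum]
  refine sum_congr rfl fun kk _ => ?_
  rw [sum_range_mul_add]
  have hk : con Cs kk ∈ Cs := Spec135.con_mem hG.ne_nil kk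
  rw [← wire_window (hG.lt_l _ hk) (hG.nodup _ hk) (hG.even_C _ hk) hG.even_l hs (hsC _ hk) c kk]
  refine sum_congr rfl fun s hs => sum_congr rfl fun r hr => ?_
  have hs := mem_range.1 hs
  have hr := mem_range.1 hr
  have e2 : (kk * (4 * mm l h * l) + (s * l + r)) % l = r := by
    have e : kk * (4 * mm l h * l) + (s * l + r) = r + (kk * (4 * mm l h) + s) * l := by ring
    rw [e, Nat.add_mul_mod_self_right, Nat.mod_eq_of_lt hr]
  rw [e2]
  unfold rho
  rw [kap_eq hs hr, code_eq _ hs hr]

/-! ### lists and multisets -/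

theorem coe_map_range {α : Type*} (g : ℕ → α) (n : ℕ) :
    (((List.range n).map g : List α) : Multiset α) = ∑ j ∈ range n, {g j} := by
  induction n with
  | zero => simp
  | succ n ih =>
    rw [List.range_succ, List.map_append, ← Multiset.coe_add, ih, sum_range_succ]
    simp

theorem coe_flatMap_range {α : Type*} (g : ℕ → List α) (n : ℕ) :
    (((List.range n).flatMap g : List α) : Multiset α) = ∑ j ∈ range n, (g j : Multiset α) := by
  induction n with
  | zero => simp
  | succ n ih =>
    rw [List.range_succ, List.flatMap_append, ← Multiset.coe_add, ih, sum_range_succ]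
    simp

theorem coe_replicate {α : Type*} (n : ℕ) (a : α) :
    ((List.replicate n a : List α) : Multiset α) = n • {a} := by
  rw [Multiset.coe_replicate, Multiset.nsmul_singleton]

theorem coe_wireBlock (l : ℕ) (Cs : List (List ℕ)) (h : ℕ) (S : Sys) (kk : ℕ) :
    (wireBlock l Cs h S kk : Multiset ℤ) =
      wireWin l (mm l h) (con Cs kk).length (wire l Cs.length h S) kk := by
  unfold wireBlock wireWin
  simp only [← Multiset.coe_add, coe_replicate]

/-! ### the levels -/

theorem rho_lt {l : ℕ} {Cs : List (List ℕ)} (h : ℕ) {j : ℕ} (hj : j < GG l Cs.length h) :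
    rho l Cs h j < rmax l Cs.length h := by
  have h1 : kap l (mm l h) j < Cs.length * RR l h := by
    unfold kap
    apply Nat.div_lt_of_lt_mul
    apply Nat.div_lt_of_lt_mul
    calc j < GG l Cs.length h := hj
      _ = l * (4 * mm l h * (Cs.length * RR l h)) := by unfold GG QQ; ring
  have h2 : ∀ C, code l (mm l h) C j ≤ 3 := by
    intro C
    unfold code
    split_ifs <;> omega
  have h3 := h2 (con Cs (kap l (mm l h) j))
  unfold rho rmax
  rw [mul_assoc]
  omega

theorem eta_le {l : ℕ} {Cs : List (List ℕ)} (h : ℕ) {t : ℕ} (ht : t < T1 l Cs.length h) :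
    eta l Cs h t ≤ t * rmax l Cs.length h := by
  unfold eta
  have h1 : ∀ x ∈ (List.range t).map (fun i =>
      if l + i * (l - 1) ≤ t then rho l Cs h (t - (l + i * (l - 1))) else 0),
      x ≤ rmax l Cs.length h := by
    intro x hx
    rw [List.mem_map] at hx
    obtain ⟨i, -, rfl⟩ := hx
    split_ifs with hc
    · apply (rho_lt h _).le
      unfold T1 at ht
      have : 0 ≤ i * (l - 1) := Nat.zero_le _
      omega
    · exact Nat.zero_le _
  have := List.sum_le_card_nsmul _ _ h1
  simpa using this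

theorem tau_gap {l : ℕ} {Cs : List (List ℕ)} (h : ℕ) (S : Sys) {t : ℕ}
    (ht : t < T1 l Cs.length h) :
    tau l Cs h S t + 2 * HH l Cs.length h S + YY l Cs.length h S ≤ tau l Cs h S (t + 1) := by
  have h1 := eta_le h ht
  have h2 : t * rmax l Cs.length h ≤ (T1 l Cs.length h + 2) * (rmax l Cs.length h + 1) :=
    Nat.mul_le_mul (by omega) (by omega)
  have h3 : gg l Cs.length h S * eta l Cs h t ≤
      gg l Cs.length h S * ((T1 l Cs.length h + 2) * (rmax l Cs.length h + 1)) :=
    Nat.mul_le_mul le_rfl (h1.trans h2)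
  have h4 : gg l Cs.length h S * ((T1 l Cs.length h + 2) * (rmax l Cs.length h + 1)) +
      2 * HH l Cs.length h S + YY l Cs.length h S ≤ DD l Cs.length h S := by
    unfold DD
    nlinarith [Nat.zero_le (gg l Cs.length h S * ((T1 l Cs.length h + 2) *
      (rmax l Cs.length h + 1)))]
  unfold tau
  have h5 : (t + 1) * DD l Cs.length h S = t * DD l Cs.length h S + DD l Cs.length h S := by ring
  rw [h5]
  have : 0 ≤ gg l Cs.length h S * eta l Cs h (t + 1) := Nat.zero_le _
  omega

theorem tau_zero {l : ℕ} {Cs : List (List ℕ)} (hl : 0 < l) (h : ℕ) (S : Sys) :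
    tau l Cs h S 0 = 0 := by
  unfold tau
  rw [Spec135.eta_lt l Cs h 0 hl]
  simp

theorem tau_le_T1 {l : ℕ} {Cs : List (List ℕ)} (h : ℕ) (S : Sys) {t : ℕ}
    (ht : t ≤ T1 l Cs.length h) : tau l Cs h S t ≤ tau l Cs h S (T1 l Cs.length h) := by
  obtain ⟨n, hn⟩ := Nat.exists_eq_add_of_le ht
  have key : ∀ n, t + n ≤ T1 l Cs.length h → tau l Cs h S t ≤ tau l Cs h S (t + n) := by
    intro n
    induction n with
    | zero => intro _; exact le_rfl
    | succ n ih =>
      intro h1
      have h2 := ih (by omega)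
      have h3 := tau_gap (l := l) (Cs := Cs) h S (t := t + n) (by omega)
      rw [← add_assoc]
      omega
  rw [hn]
  exact key n (by omega)

theorem tau_rec {l : ℕ} {Cs : List (List ℕ)} (hl : 2 ≤ l) (h : ℕ) (S : Sys) (j : ℕ) :
    tau l Cs h S (j + l) = tau l Cs h S (j + 1) + (l - 1) * DD l Cs.length h S +
      gg l Cs.length h S * rho l Cs h j := by
  unfold tau
  rw [Spec135.eta_succ l Cs h j hl]
  obtain ⟨k, rfl⟩ := Nat.exists_eq_add_of_le' (show 1 ≤ l by omega)
  rw [Nat.add_sub_cancel]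
  ring

/-! ### the step -/

/-- packing of the chain -/
theorem packD_chain {d l : ℕ} {Cs : List (List ℕ)} (hG : Good l Cs) {f : ℕ → ℕ}
    (hf : ∀ r < l, f r ≤ d) (hs : 2 * ∑ r ∈ range l, f r = d * l)
    (hsC : ∀ C ∈ Cs, 2 * (C.map f).sum = d * C.length) {S : Sys} (h : ℕ)
    (hS : PackD d S) : PackD d (chain l Cs h S) := by
  have hl := hG.two_le
  have own := chain_own (d := d) (l := l) (Q := QQ l Cs.length h) hG.even_l (by omega) hf hs
    (tau := fun t => (tau l Cs h S t : ℤ)) (c := fun j => wire l Cs.length h S (rho l Cs h j))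
    (H := HH l Cs.length h S) (z := zed l Cs.length h S)
    (wires := ∑ kk ∈ range (Cs.length * RR l h),
      wireWin l (mm l h) (con Cs kk).length (wire l Cs.length h S) kk) (by positivity)
    (by
      intro j _
      have h1 := tau_rec (Cs := Cs) hl h S j
      simp only [wire, drop]
      push_cast [h1]
      linarith)
    (by
      intro t ht
      have h1 := tau_gap (l := l) (Cs := Cs) h S (t := t) ht
      have h2 : ((tau l Cs h S t + 2 * HH l Cs.length h S + YY l Cs.length h S : ℕ) : ℤ) ≤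
        (tau l Cs h S (t + 1) : ℕ) := by exact_mod_cast h1
      push_cast at h2
      simp only [zed]
      linarith)
    (by
      intro t _
      simp only [tau_zero (show 0 < l by omega)]
      positivity)
    (by
      intro t ht
      have := tau_le_T1 (l := l) (Cs := Cs) h S (t := t) ht
      simpa [T1, GG] using this)
    (wire_identity hG h hs hsC _)
  have cop := PackM.sum (range (nLev l Cs.length h)) (fun i _ =>
    (show PackM d (S.I1 : Multiset ℤ) (S.I2 : Multiset ℤ) (S.I3 : Multiset ℤ) from hS).affine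
      (s := (Lam S : ℤ) ^ (i + l)) (u1 := tau l Cs h S (i + l))
      (u2 := -(tau l Cs h S (i + l) : ℤ) - AA S (i + l)) (u3 := AA S (i + l))
      (by positivity) (by linarith))
  obtain ⟨P, h0, h1, h2, h3⟩ := own.add cop
  refine ⟨P, h0, ?_, ?_, ?_⟩
  · rw [h1]
    congr 1
    show _ = ((ch1 l Cs h S : List ℤ) : Multiset ℤ)
    unfold ch1
    rw [← Multiset.coe_add, ← Multiset.coe_add, coe_replicate, coe_map_range, coe_flatMap_range]
    congr 1
    rw [add_comm]
    congr 1
    · rw [tau_zero (show 0 < l by omega)]; rfl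
    · rw [Finset.sum_Ico_eq_sum_range, Nat.add_sub_cancel]
      refine sum_congr rfl fun j _ => ?_
      rw [add_comm l j]; rfl
  · rw [h2]
    congr 1
    show _ = ((ch2 l Cs h S : List ℤ) : Multiset ℤ)
    unfold ch2
    rw [← Multiset.coe_add, ← Multiset.coe_add, coe_replicate, coe_map_range, coe_flatMap_range]
    congr 1
    rw [add_comm]
    congr 1
    rw [Finset.sum_Ico_eq_sum_range, Nat.add_sub_cancel]
    refine sum_congr rfl fun j _ => ?_
    rw [add_comm 1 j]; rfl
  · rw [h3]
    congr 1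
    show _ = ((ch3 l Cs h S : List ℤ) : Multiset ℤ)
    unfold ch3
    rw [← Multiset.coe_add, ← Multiset.coe_add, coe_replicate, coe_flatMap_range, coe_flatMap_range]
    simp only [coe_wireBlock]
    rfl

/-- packing of the whole tower -/
theorem packD_sys {d l : ℕ} {Cs : List (List ℕ)} (hG : Good l Cs) {f : ℕ → ℕ}
    (hf : ∀ r < l, f r ≤ d) (hs : 2 * ∑ r ∈ range l, f r = d * l)
    (hsC : ∀ C ∈ Cs, 2 * (C.map f).sum = d * C.length) (k h : ℕ) :
    PackD d (sys l Cs k h) := by
  induction k generalizing h with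
  | zero => exact Spec135.packD_S0 d
  | succ k ih => exact packD_chain hG hf hs hsC h (ih _)

/-- SAT side: a 0/1 solution of the HALF instance gives a perfect packing -/
theorem packD_one {l : ℕ} {Cs : List (List ℕ)} (hG : Good l Cs) {f : ℕ → ℕ}
    (hf : ∀ r < l, f r ≤ 1) (hsol : HalfSol l Cs f) (k h : ℕ) : PackD 1 (sys l Cs k h) := by
  refine packD_sys hG hf ?_ ?_ k h
  · rw [hsol.1, one_mul]
    exact Nat.mul_div_cancel' hG.even_l.two_dvd
  · intro C hC
    rw [hsol.2 C hC, one_mul]
    exact Nat.mul_div_cancel' (hG.even_C C hC).two_dvd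

/-- half-integral LP side: unconditional -/
theorem packD_two {l : ℕ} {Cs : List (List ℕ)} (hG : Good l Cs) (k h : ℕ) :
    PackD 2 (sys l Cs k h) := by
  refine packD_sys (f := fun _ => 1) hG (fun _ _ => by norm_num) ?_ ?_ k h
  · simp
  · intro C _
    simp

end Crest.Agent.R318.Pack123
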