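import Mathlib
import Crest.Agent.R318.Wrap_91
import Crest.Agent.R318.Spec_135
set_option autoImplicit false

/-!
# Row 318: the wrapper in the words of `Spec_135`
-/

namespace Crest.Agent.R318.Wrap_91
open Finset Crest.BinPacking Crest.Agent.R318.Spec135

theorem noCover_of_rob (S : Sys) (c : ℕ) (h : Rob S (19 * c + 1) 0) :
    NoCover c S.I1.length S.I1 S.I2 S.I3 := by
  rintro ⟨M, hM, hc1, hc2, k1, k2, k3⟩
  obtain ⟨t, ht⟩ := exists_enum M M.card rfl
  have htM : ∀ s, t s ∈ M := fun s => by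
    rw [← ht]; exact Multiset.mem_map_of_mem _ (Finset.mem_univ_val s)
  have hcount : ∀ p : ℤ × ℤ × ℤ → Prop, ∀ [DecidablePred p],
      M.countP p = #{i | p (t i)} := by
    intro p _
    conv_lhs => rw [← ht]
    rw [Multiset.countP_map, Finset.card_def, Finset.filter_val]
  have hcov : ∀ (I : List ℤ) (y : Fin M.card → ℤ),
      (∀ x, I.countP (fun z => decide (x ≤ z)) ≤ (S.I1.length - M.card) + #{i | x ≤ y i}) →
      Cov ((S.I1.length : ℤ) - M.card) I univ y := by
    intro I y hy x _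
    have := hy x
    omega
  refine h (Fin M.card) univ (fun i => (t i).1) (fun i => (t i).2.1) (fun i => (t i).2.2)
    ((S.I1.length : ℤ) - M.card) ((S.I1.length : ℤ) - M.card) ((S.I1.length : ℤ) - M.card)
    (by omega) (by omega) ?_ ?_ ?_ ?_ ?_ ?_
  · intro i _
    obtain ⟨m1, m2, m3, m4⟩ := hM (t i) (htM i)
    exact ⟨m1, m2, Or.inr m3, m4⟩
  · refine hcov _ _ (fun x => ?_)
    have := k1 x
    rwa [hcount] at this
  · refine hcov _ _ (fun x => ?_)
    have := k2 x
    rwa [hcount] at this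
  · refine hcov _ _ (fun x => ?_)
    have := k3 x
    rwa [hcount] at this
  · simp only [Finset.card_univ, Fintype.card_fin]
    push_cast
    omega
  · simp only [Finset.card_univ, Fintype.card_fin]
    push_cast
    omega

theorem abs_le_W (S : Sys) (hS : S.Wf) : ∀ x ∈ S.I1 ++ S.I2 ++ S.I3, |x| ≤ (S.W : ℤ) := by
  intro x hx
  simp only [List.mem_append] at hx
  rcases hx with (hx | hx) | hx
  · exact hS.abs1 x hx
  · exact hS.abs2 x hx
  · exact hS.abs3 x hx

/-- NO side in the words of the specification. -/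
theorem not_packs_of_rob (S : Sys) (hS : S.Wf) (c : ℕ) (h : Rob S (19 * c + 1) 0) (D : ℤ)
    (hD : 1000 * (S.W : ℤ) ≤ D) (hD0 : 0 < D) :
    ¬ PacksInto (fun i : Fin (sizes D S.I1 S.I2 S.I3).length => (sizes D S.I1 S.I2 S.I3).get i)
      (S.I1.length + c) := fun hp =>
  noCover_of_rob S c h (cover_of_packs D S.W hD hD0 S.I1 S.I2 S.I3 S.I1.length rfl hS.len2 hS.len3
    (abs_le_W S hS) c hp)

/-- YES side in the words of the specification. -/
theorem packs_of_packD (S : Sys) (h : PackD 1 S) (D : ℤ) (hD0 : 0 < D) :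
    PacksInto (fun i : Fin (sizes D S.I1 S.I2 S.I3).length => (sizes D S.I1 S.I2 S.I3).get i)
      S.I1.length := by
  obtain ⟨P, hP, h1, h2, h3⟩ := h
  rw [one_smul] at h1 h2 h3
  exact packs_yes D hD0 S.I1 S.I2 S.I3 S.I1.length rfl P hP h1 h2 h3

/-- sizes are in range -/
theorem sizes_range_of_wf (S : Sys) (hS : S.Wf) (D : ℤ) (hD : 1000 * (S.W : ℤ) ≤ D) (hD0 : 0 < D) :
    ∀ a ∈ sizes D S.I1 S.I2 S.I3, 1 / 6 < a ∧ a ≤ 1 :=
  sizes_range D S.W S.I1 S.I2 S.I3 (abs_le_W S hS) hD hD0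

/-- S0492 in the words of the specification. -/
theorem gap_of_sys (S : Sys) (hS : S.Wf) (c : ℕ) (h : Rob S (19 * c + 1) 0) (h2 : PackD 2 S) :
    GapInstance c := by
  obtain ⟨P, hP, e1, e2, e3⟩ := h2
  exact gap_of_lists c S.I1.length S.I1 S.I2 S.I3 rfl hS.len2 hS.len3 P hP e1 e2 e3
    (noCover_of_rob S c h)

end Crest.Agent.R318.Wrap_91
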