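import Crest.Agent.R318.Spec_135
import Crest.Agent.R318.WrapSpec_91
import Crest.Agent.R318.HalfSpec_837
import Crest.Agent.R318.Pack_123
import Crest.Agent.R318.MapPTF_519

/-!
# Row 318: assembly of S0492 and S0493 from the pieces (helper982)

`WfStmt` and `StepStmt` are the statements of the pieces (a) (well-formedness of the chain) and (b)
(robustness step); everything else is proved here from the landed pieces.
-/

set_option autoImplicit false
set_option linter.dupNamespace false

namespace Crest.Agent.R318.Assembly982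

open Crest.Agent.R318.Spec135 Crest.Agent.Lib.PT Crest.BinPacking Crest.Enc

/-- piece (a) -/
def WfStmt : Prop :=
  ∀ (l : ℕ) (Cs : List (List ℕ)) (h : ℕ) (S : Sys), Good l Cs → S.Wf → (chain l Cs h S).Wf

/-- piece (b) -/
def StepStmt : Prop :=
  ∀ (l : ℕ) (Cs : List (List ℕ)) (h : ℕ) (S : Sys) (k : ℕ), Good l Cs → S.Wf →
    Rob S k (hNext l Cs.length k h) → (¬ ∃ f, HalfSol l Cs f) → Rob (chain l Cs h S) (k + 1) h

theorem sys_wf (P : WfStmt) {l : ℕ} {Cs : List (List ℕ)} (hG : Good l Cs) (k : ℕ) :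
    ∀ h, (sys l Cs k h).Wf := by
  induction k with
  | zero => intro h; exact wf_S0
  | succ k ih => intro h; exact P l Cs h _ hG (ih _)

theorem sys_rob (P : WfStmt) (Q : StepStmt) {l : ℕ} {Cs : List (List ℕ)} (hG : Good l Cs)
    (hno : ¬ ∃ f, HalfSol l Cs f) (k : ℕ) : ∀ h, Rob (sys l Cs k h) k h := by
  induction k with
  | zero => intro h; exact rob_S0 h
  | succ k ih => intro h; exact Q l Cs h _ k hG (sys_wf P hG k _) (ih _) hno

/-- **S0492** from the pieces -/
theorem s0492_of (P : WfStmt) (Q : StepStmt) (c : ℕ) : Wrap_91.GapInstance c :=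
  Wrap_91.gap_of_sys (sys 4 [[0, 1], [0, 2], [1, 2]] (19 * c + 1) 0)
    (sys_wf P Half837.bad_good _ _) c
    (sys_rob P Q Half837.bad_good Half837.bad_no _ _)
    (Pack123.packD_two Half837.bad_good _ _)

/-- **S0493** from the pieces -/
theorem s0493_of (P : WfStmt) (Q : StepStmt) (c : ℕ) (A : Set (List Bool))
    (hA : Crest.Complexity.InNP A) :
    ∃ f : List Bool → List Bool, Crest.Complexity.PolyTime f ∧
      ∀ x : List Bool, ∃ (sizes : List ℚ) (B : ℕ),
        f x = natCode sizes.length ++ (sizes.map ratCode).flatten ++ natCode B ∧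
        (∀ a ∈ sizes, 1 / 6 < a ∧ a ≤ 1) ∧
        (x ∈ A → PacksInto (fun i : Fin sizes.length => sizes.get i) B) ∧
        (x ∉ A → ¬ PacksInto (fun i : Fin sizes.length => sizes.get i) (B + c)) := by
  obtain ⟨H, hH1, hH1', hH2, hH3, hH4⟩ := Half837.half_hard_spec hA
  refine ⟨fun x => Map519.codeOf (sys (H x).1 (H x).2 (19 * c + 1) 0),
    Map519.polyTime_codeOf _ _ hH1' (PTF.comp PTF.snd hH1),
    fun x => ⟨Map519.szs (sys (H x).1 (H x).2 (19 * c + 1) 0), _, rfl, ?_, ?_, ?_⟩⟩
  · exact Wrap_91.sizes_range_of_wf _ (sys_wf P (hH2 x) _ _) _ (Map519.le_den _)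
      (Map519.den_pos _)
  · intro hx
    obtain ⟨f, hf, hs⟩ := hH3 x hx
    exact Wrap_91.packs_of_packD _ (Pack123.packD_one (hH2 x) (fun r _ => hf r) hs _ _) _
      (Map519.den_pos _)
  · intro hx
    exact Wrap_91.not_packs_of_rob _ (sys_wf P (hH2 x) _ _) c
      (sys_rob P Q (hH2 x) (hH4 x hx) _ _) _ (Map519.le_den _) (Map519.den_pos _)

end Crest.Agent.R318.Assembly982
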