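import Mathlib

/-!
Interface for S0492 (row 318): the combinatorial + realizability core, in 3 slots.
`ι` = patterns (LP weight 1/2 each), `κ` = zero weight helper patterns, coordinates are the
(perturbation) sizes in the three slots, all patterns sum to zero.
-/

set_option autoImplicit false

namespace Crest.Agent.R318.N171

/-- Core statement: for all `g l` there is a finite family of patterns (each of total size `0`) such
that every triple of total size `≤ 0` is dominated by a pattern or a helper, and such that there is no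
assignment `c` (`c i = 2 n_i - 1`), `e ≥ 0` all whose threshold prefix sums (started at `x t`) are
nonnegative and with `x 0 + x 1 + s ≤ g`, `x 2 + x 1 + s ≤ l` (`s` the total). -/
def CoreStmt : Prop :=
  ∀ g l : ℕ, ∃ (ι κ : Type) (_ : Fintype ι) (_ : Fintype κ) (p : Fin 3 → ι → ℤ)
    (h : Fin 3 → κ → ℤ),
    Nonempty ι ∧ (∀ t, Function.Injective (p t)) ∧ (∀ i, p 0 i + p 1 i + p 2 i = 0) ∧
    (∀ X Y Z : ι, p 0 X + p 1 Y + p 2 Z ≤ 0 →
      (∃ d : ι, p 0 X ≤ p 0 d ∧ p 1 Y ≤ p 1 d ∧ p 2 Z ≤ p 2 d) ∨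
      (∃ d : κ, p 0 X ≤ h 0 d ∧ p 1 Y ≤ h 1 d ∧ p 2 Z ≤ h 2 d)) ∧
    (∀ (c : ι → ℤ) (e : κ → ℤ) (x : Fin 3 → ℤ), (∀ i, c i = -1 ∨ 1 ≤ c i) → (∀ j, 0 ≤ e j) →
      (∀ (t : Fin 3) (v : ℤ), 0 ≤ x t + (∑ i, if v ≤ p t i then c i else 0) +
        ∑ j, if v ≤ h t j then e j else 0) →
      x 0 + x 1 + (∑ i, c i + ∑ j, e j) ≤ g → x 2 + x 1 + (∑ i, c i + ∑ j, e j) ≤ l → False)

end Crest.Agent.R318.N171
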