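import Mathlib

/-!
# Row 318 (S0493): the pure combinatorial core of the robustness argument

See message #3676 (helper135) in channel r318.  A finite set `s` of "wire bins", bin `i` covering the
levels `b i, …, a i` (at most `l` of them) and carrying rank `rk i`.
-/

set_option autoImplicit false
set_option linter.dupNamespace false

namespace Crest.Agent.R318.Core834

open Finset

/-- block number of segment `j` (the constraint used is `kap % K`) -/
def kap (l M j : ℕ) : ℕ := j / l / (2 * M)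

/-- code (0..3) of segment `j` inside its constraint block -/
def code (l M : ℕ) (c : Finset ℕ) (j : ℕ) : ℕ :=
  if j / l % (2 * M) < M then (if j % l ∈ c then 0 else 1) else (if j % l ∈ c then 3 else 2)

/-- slot-3 rank of segment `j` -/
def rho (l K M : ℕ) (C : ℕ → Finset ℕ) (j : ℕ) : ℕ :=
  4 * kap l M j + code l M (C (kap l M j % K)) j

theorem code_le (l M : ℕ) (c : Finset ℕ) (j : ℕ) : code l M c j ≤ 3 := by
  unfold code; split_ifs <;> omega

/-! ### generic sums -/

theorem sum_range_mul {α : Type*} [AddCommMonoid α] (F : ℕ → α) (a l : ℕ) :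
    ∑ j ∈ range (a * l), F j = ∑ q ∈ range a, ∑ r ∈ range l, F (q * l + r) := by
  induction a with
  | zero => simp
  | succ n ih => rw [Nat.succ_mul, sum_range_add, ih, sum_range_succ]

theorem sum_Ico_mul {α : Type*} [AddCommMonoid α] (F : ℕ → α) (a b l : ℕ) (hab : a ≤ b) :
    ∑ j ∈ Ico (a * l) (b * l), F j = ∑ q ∈ Ico a b, ∑ r ∈ range l, F (q * l + r) := by
  obtain ⟨c, rfl⟩ := Nat.exists_eq_add_of_le hab
  rw [sum_Ico_eq_sum_range, sum_Ico_eq_sum_range]
  have h1 : (a + c) * l - a * l = c * l := by rw [Nat.add_mul]; omega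
  have h2 : a + c - a = c := by omega
  rw [h1, h2, sum_range_mul]
  refine sum_congr rfl fun q _ => sum_congr rfl fun r _ => ?_
  congr 1; ring

section
variable {ι : Type*} (s : Finset ι) (b a : ι → ℕ) (l : ℕ)

/-- number of bins covering level `t` -/
def cov (t : ℕ) : ℕ := (s.filter (fun i => b i ≤ t ∧ t ≤ a i)).card

/-- number of full wire bins at segment `j` -/
def N (j : ℕ) : ℕ := (s.filter (fun i => a i = b i + (l - 1) ∧ b i = j + 1)).card

/-- the short bins -/
def sh : Finset ι := s.filter (fun i => a i < b i + (l - 1))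

/-- short bins covering `t` -/
def Wc (t : ℕ) : ℕ := ((sh s b a l).filter (fun i => b i ≤ t ∧ t ≤ a i)).card

theorem sum_N (A : Finset ℕ) (hb : ∀ i ∈ s, 1 ≤ b i) :
    ∑ j ∈ A, N s b a l j = (s.filter (fun i => a i = b i + (l - 1) ∧ b i - 1 ∈ A)).card := by
  classical
  rw [card_eq_sum_card_fiberwise (f := fun i => b i - 1) (t := A)]
  · refine sum_congr rfl fun j hj => ?_
    unfold N
    congr 1
    ext i
    simp only [mem_filter]
    constructor
    · rintro ⟨hi, h1, h2⟩
      have : b i - 1 = j := by omega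
      exact ⟨⟨hi, h1, this ▸ hj⟩, this⟩
    · rintro ⟨⟨hi, h1, _⟩, h3⟩
      have := hb i hi
      exact ⟨hi, h1, by omega⟩
  · intro i hi
    simp only [coe_filter, Set.mem_ofPred_eq] at hi
    exact_mod_cast hi.2.2

theorem cov_eq (hl : 2 ≤ l) (hb : ∀ i ∈ s, 1 ≤ b i ∧ a i ≤ b i + (l - 1)) {t : ℕ} (ht : l ≤ t) :
    cov s b a t = ∑ j ∈ Ico (t - l) t, N s b a l j + Wc s b a l t := by
  classical
  rw [sum_N s b a l _ (fun i hi => (hb i hi).1)]
  unfold cov Wc sh
  rw [← card_union_of_disjoint]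
  · congr 1
    ext i
    simp only [mem_filter, mem_union, mem_Ico]
    constructor
    · rintro ⟨hi, h1, h2⟩
      obtain ⟨h3, h4⟩ := hb i hi
      rcases Nat.lt_or_ge (a i) (b i + (l - 1)) with h | h
      · exact Or.inr ⟨⟨hi, h⟩, h1, h2⟩
      · exact Or.inl ⟨hi, by omega, by omega, by omega⟩
    · rintro (⟨hi, h1, h2, h3⟩ | ⟨⟨hi, h1⟩, h2, h3⟩)
      · obtain ⟨h4, h5⟩ := hb i hi
        exact ⟨hi, by omega, by omega⟩
      · exact ⟨hi, h2, h3⟩
  · rw [disjoint_left]
    intro i hi hj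
    simp only [mem_filter] at hi hj
    omega

theorem sum_cov_le (hl : 2 ≤ l) (hb : ∀ i ∈ s, b i ≤ a i ∧ a i ≤ b i + (l - 1)) (A : Finset ℕ) :
    ∑ t ∈ A, cov s b a t + (sh s b a l).card ≤ l * s.card := by
  classical
  have h1 : ∑ t ∈ A, cov s b a t = ∑ i ∈ s, (A.filter (fun t => b i ≤ t ∧ t ≤ a i)).card := by
    unfold cov
    simp_rw [card_filter]
    exact sum_comm
  have h2 : (sh s b a l).card = ∑ i ∈ s, (if a i < b i + (l - 1) then 1 else 0) := by
    unfold sh; rw [card_filter]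
  rw [h1, h2, ← sum_add_distrib, mul_comm, ← smul_eq_mul, ← sum_const]
  refine sum_le_sum fun i hi => ?_
  obtain ⟨h3, h4⟩ := hb i hi
  have h5 : (A.filter (fun t => b i ≤ t ∧ t ≤ a i)).card ≤ a i + 1 - b i := by
    rw [← Nat.card_Icc]
    refine card_le_card fun t ht => ?_
    simp only [mem_filter] at ht
    exact mem_Icc.2 ht.2
  split_ifs <;> omega

theorem sum_Wc_le (_hl : 2 ≤ l) (A : Finset ℕ) :
    ∑ t ∈ A, Wc s b a l t ≤ (l - 1) * (sh s b a l).card := by
  classical
  have h1 : ∑ t ∈ A, Wc s b a l t =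
      ∑ i ∈ sh s b a l, (A.filter (fun t => b i ≤ t ∧ t ≤ a i)).card := by
    unfold Wc
    simp_rw [card_filter]
    exact sum_comm
  rw [h1, mul_comm, ← smul_eq_mul, ← sum_const]
  refine sum_le_sum fun i hi => ?_
  have h3 : a i < b i + (l - 1) := (mem_filter.1 hi).2
  have h5 : (A.filter (fun t => b i ≤ t ∧ t ≤ a i)).card ≤ a i + 1 - b i := by
    rw [← Nat.card_Icc]
    refine card_le_card fun t ht => ?_
    simp only [mem_filter] at ht
    exact mem_Icc.2 ht.2
  omega

/-- every short bin covers at most one multiple of `l` -/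
theorem sum_Wc_mul_le (q Q : ℕ) :
    ∑ m ∈ Ico q Q, Wc s b a l ((m + 1) * l) ≤ (sh s b a l).card := by
  classical
  have h1 : ∑ m ∈ Ico q Q, Wc s b a l ((m + 1) * l) =
      ∑ i ∈ sh s b a l, ((Ico q Q).filter (fun m => b i ≤ (m + 1) * l ∧ (m + 1) * l ≤ a i)).card := by
    unfold Wc
    simp_rw [card_filter]
    exact sum_comm
  rw [h1, card_eq_sum_ones]
  refine sum_le_sum fun i hi => ?_
  have h3 : a i < b i + (l - 1) := (mem_filter.1 hi).2
  refine card_le_one.2 fun m hm m' hm' => ?_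
  simp only [mem_filter] at hm hm'
  by_contra hne
  rcases Nat.lt_or_gt_of_ne hne with h | h
  · have : (m + 1 + 1) * l ≤ (m' + 1) * l := Nat.mul_le_mul_right _ (by omega)
    have h4 : (m + 1 + 1) * l = (m + 1) * l + l := by ring
    omega
  · have : (m' + 1 + 1) * l ≤ (m + 1) * l := Nat.mul_le_mul_right _ (by omega)
    have h4 : (m' + 1 + 1) * l = (m' + 1) * l + l := by ring
    omega

/-- suffix lower bound -/
theorem suffix_ge (hl : 2 ≤ l) (hle : Even l)
    (hb : ∀ i ∈ s, 1 ≤ b i ∧ a i ≤ b i + (l - 1)) {Q : ℕ}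
    (hX : ∀ t, l ≤ t → t ≤ Q * l → l / 2 ≤ cov s b a t) {q : ℕ} (hq : q ≤ Q) :
    Q * l ≤ 2 * (∑ j ∈ Ico (q * l) (Q * l), N s b a l j + (sh s b a l).card) + q * l := by
  obtain ⟨l', hl'⟩ := hle
  have h1 : ∑ j ∈ Ico (q * l) (Q * l), N s b a l j + ∑ m ∈ Ico q Q, Wc s b a l ((m + 1) * l) =
      ∑ m ∈ Ico q Q, cov s b a ((m + 1) * l) := by
    rw [sum_Ico_mul _ _ _ _ hq, ← sum_add_distrib]
    refine sum_congr rfl fun m _ => ?_
    rw [cov_eq s b a l hl hb (t := (m + 1) * l) (by nlinarith), sum_Ico_eq_sum_range]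
    have h2 : (m + 1) * l - ((m + 1) * l - l) = l := by
      have : (m + 1) * l = m * l + l := by ring
      omega
    have h3 : (m + 1) * l - l = m * l := by
      have : (m + 1) * l = m * l + l := by ring
      omega
    rw [h2, h3]
  have h4 : (Q - q) * (l / 2) ≤ ∑ m ∈ Ico q Q, cov s b a ((m + 1) * l) := by
    rw [← Nat.card_Ico, ← smul_eq_mul, ← sum_const]
    refine sum_le_sum fun m hm => ?_
    obtain ⟨_, hm2⟩ := mem_Ico.1 hm
    exact hX _ (by nlinarith) (Nat.mul_le_mul_right _ (by omega))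
  have h5 := sum_Wc_mul_le s b a l q Q
  have h6 : l / 2 = l' := by omega
  rw [h6] at h4
  obtain ⟨c, rfl⟩ := Nat.exists_eq_add_of_le hq
  have h7 : q + c - q = c := by omega
  rw [h7] at h4
  have h8 : (q + c) * l = q * l + c * (l' + l') := by rw [Nat.add_mul, ← hl']
  have h9 : c * (l' + l') = 2 * (c * l') := by ring
  omega

/-- total weight of the bad levels -/
theorem bad_le (hl : 2 ≤ l) (hle : Even l) (h : ℕ)
    (hb : ∀ i ∈ s, 1 ≤ b i ∧ b i ≤ a i ∧ a i ≤ b i + (l - 1)) {Q : ℕ} (hQ : 0 < Q)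
    (hX : ∀ t, l ≤ t → t ≤ Q * l → l / 2 ≤ cov s b a t) (hZ : 2 * s.card ≤ 2 * h + Q * l) :
    (sh s b a l).card ≤ l * (h + l / 2) ∧
    ∑ t ∈ Icc l (Q * l), ((cov s b a t - l / 2) + Wc s b a l t) ≤ l * (l * (h + l / 2)) := by
  have h1 := sum_cov_le s b a l hl (fun i hi => (hb i hi).2) (Icc l (Q * l))
  have h2 := sum_Wc_le s b a l hl (Icc l (Q * l))
  obtain ⟨l', hl'⟩ := hle
  have h6 : l / 2 = l' := by omega
  rw [h6] at hX ⊢
  have hlQ : l ≤ Q * l := by nlinarith
  have h3 : ∑ t ∈ Icc l (Q * l), (cov s b a t - l') + (Q * l + 1 - l) * l' =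
      ∑ t ∈ Icc l (Q * l), cov s b a t := by
    have hc : (Q * l + 1 - l) * l' = ∑ _t ∈ Icc l (Q * l), l' := by
      rw [sum_const, Nat.card_Icc, smul_eq_mul]
    rw [hc, ← sum_add_distrib]
    refine sum_congr rfl fun t ht => ?_
    obtain ⟨h7, h8⟩ := mem_Icc.1 ht
    have := hX t h7 h8
    omega
  have h4 : (Q * l + 1 - l) * l' + (l - 1) * l' = Q * l * l' := by
    rw [← Nat.add_mul]; congr 1; omega
  have h5 : l * s.card ≤ 2 * l' * h + Q * l * l' := by
    have : l * (2 * s.card) ≤ l * (2 * h + Q * l) := Nat.mul_le_mul_left _ hZ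
    have e1 : l * (2 * s.card) = 2 * (l * s.card) := by ring
    have e2 : l * (2 * h + Q * l) = 2 * (2 * l' * h + Q * l * l') := by
      rw [hl']; ring
    omega
  have h9 : ∑ t ∈ Icc l (Q * l), (cov s b a t - l') + (sh s b a l).card ≤
      2 * l' * h + (l - 1) * l' := by omega
  have h10 : 2 * l' * h + (l - 1) * l' ≤ l * (h + l') := by
    have e1 : l * (h + l') = 2 * l' * h + l * l' := by rw [hl']; ring
    have e2 : (l - 1) * l' ≤ l * l' := Nat.mul_le_mul_right _ (by omega)
    omega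
  have h11 : (l - 1) * (sh s b a l).card ≤ (l - 1) * (l * (h + l')) :=
    Nat.mul_le_mul_left _ (by omega)
  have h12 : l * (l * (h + l')) = (l - 1) * (l * (h + l')) + l * (h + l') := by
    have : l = (l - 1) + 1 := by omega
    nth_rewrite 1 [this]; ring
  refine ⟨by omega, ?_⟩
  rw [sum_add_distrib]
  omega

/-- a clean window exists -/
theorem exists_clean (hl : 2 ≤ l) (hle : Even l) (h : ℕ)
    (hb : ∀ i ∈ s, 1 ≤ b i ∧ b i ≤ a i ∧ a i ≤ b i + (l - 1)) {A R : ℕ} (hA : 0 < A)
    (hX : ∀ t, l ≤ t → t ≤ R * A * l → l / 2 ≤ cov s b a t)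
    (hZ : 2 * s.card ≤ 2 * h + R * A * l) (hR : l * (l * (h + l / 2)) < R) :
    ∃ w < R, ∀ t, w * A * l + l ≤ t → t ≤ (w + 1) * A * l →
      cov s b a t = l / 2 ∧ Wc s b a l t = 0 := by
  classical
  by_contra hcon
  push Not at hcon
  have hQ : 0 < R * A := Nat.mul_pos (by omega) hA
  obtain ⟨_, h1⟩ := bad_le s b a l hl hle h hb hQ hX hZ
  set bad := (Icc l (R * A * l)).filter (fun t => 0 < (cov s b a t - l / 2) + Wc s b a l t) with hbad
  have h2 : bad.card ≤ l * (l * (h + l / 2)) := by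
    refine le_trans ?_ h1
    rw [hbad, card_filter]
    refine sum_le_sum fun t _ => ?_
    split_ifs <;> omega
  have h3 : range R ⊆ bad.image (fun t => (t - 1) / (A * l)) := by
    intro w hw
    obtain ⟨t, ht1, ht2, ht3⟩ := hcon w (mem_range.1 hw)
    have hwR := mem_range.1 hw
    have e1 : (w + 1) * A * l = w * (A * l) + A * l := by ring
    have e2 : w * A * l = w * (A * l) := by ring
    have e3 : (w + 1) * A * l ≤ R * A * l :=
      Nat.mul_le_mul_right _ (Nat.mul_le_mul_right _ hwR)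
    have hAl : 0 < A * l := Nat.mul_pos hA (by omega)
    rw [mem_image]
    refine ⟨t, ?_, ?_⟩
    · rw [hbad, mem_filter, mem_Icc]
      refine ⟨⟨by omega, by omega⟩, ?_⟩
      have h4 := hX t (by omega) (by omega)
      by_cases h5 : cov s b a t = l / 2
      · have := ht3 h5; omega
      · omega
    · rw [Nat.div_eq_iff hAl]
      constructor
      · omega
      · omega
  have h4 := (card_le_card h3).trans card_image_le
  rw [card_range] at h4
  omega

/-- in a clean window the full counts are periodic -/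
theorem clean_const (hl : 2 ≤ l) (hb : ∀ i ∈ s, 1 ≤ b i ∧ a i ≤ b i + (l - 1)) {A w : ℕ}
    (hcl : ∀ t, w * A * l + l ≤ t → t ≤ (w + 1) * A * l → cov s b a t = l / 2 ∧ Wc s b a l t = 0)
    (q : ℕ) (hq : q < A) (r : ℕ) (hr : r < l) :
    N s b a l ((w * A + q) * l + r) = N s b a l (w * A * l + r) := by
  have hsum : ∀ t, w * A * l + l ≤ t → t ≤ (w + 1) * A * l →
      ∑ j ∈ Ico (t - l) t, N s b a l j = l / 2 := by
    intro t h1 h2
    obtain ⟨h3, h4⟩ := hcl t h1 h2
    rw [cov_eq s b a l hl hb (by omega), h4, Nat.add_zero] at h3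
    exact h3
  have hstep : ∀ j, w * A * l ≤ j → j + l < (w + 1) * A * l →
      N s b a l (j + l) = N s b a l j := by
    intro j h1 h2
    have e1 := hsum (j + l) (by omega) (by omega)
    have e2 := hsum (j + l + 1) (by omega) (by omega)
    have e3 : j + l - l = j := by omega
    have e4 : j + l + 1 - l = j + 1 := by omega
    rw [e3] at e1
    rw [e4] at e2
    rw [sum_eq_sum_Ico_succ_bot (by omega)] at e1
    rw [sum_Ico_succ_top (by omega)] at e2
    omega
  induction q with
  | zero => simp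
  | succ q ih =>
    have e1 : (w * A + (q + 1)) * l + r = ((w * A + q) * l + r) + l := by ring
    rw [e1, hstep _ _ _]
    · exact ih (by omega)
    · nlinarith
    · have : (w + 1) * A * l = (w * A + A) * l := by ring
      have h3 : (w * A + q + 2) * l ≤ (w * A + A) * l := Nat.mul_le_mul_right _ (by omega)
      have e2 : (w * A + q + 2) * l = (w * A + q) * l + l + l := by ring
      omega

/-- full counts above a rank are bounded by bins above that rank -/
theorem sum_N_rank_le (rk : ι → ℕ) (ρ : ℕ → ℕ) (G r : ℕ)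
    (hb : ∀ i ∈ s, 1 ≤ b i) (hrk : ∀ i ∈ s, a i = b i + (l - 1) → ρ (b i - 1) ≤ rk i) :
    ∑ j ∈ (range G).filter (fun j => r < ρ j), N s b a l j ≤
      (s.filter (fun i => r < rk i)).card := by
  classical
  rw [sum_N s b a l _ hb]
  refine card_le_card fun i hi => ?_
  simp only [mem_filter] at hi ⊢
  exact ⟨hi.1, lt_of_lt_of_le hi.2.2.2 (hrk i hi.1 hi.2.1)⟩

end

/-! ### the ranks -/

section rk
variable {l K M : ℕ} {C : ℕ → Finset ℕ}

theorem kap_block (hl : 0 < l) {κ q r : ℕ} (hq : q < 2 * M) (hr : r < l) :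
    kap l M ((κ * (2 * M) + q) * l + r) = κ := by
  unfold kap
  rw [Nat.add_comm, Nat.add_mul_div_right _ _ hl, Nat.div_eq_of_lt hr, Nat.zero_add, Nat.add_comm,
    Nat.add_mul_div_right _ _ (by omega), Nat.div_eq_of_lt hq, Nat.zero_add]

theorem code_block (hl : 0 < l) (c : Finset ℕ) {κ q r : ℕ} (hq : q < 2 * M) (hr : r < l) :
    code l M c ((κ * (2 * M) + q) * l + r) =
      if q < M then (if r ∈ c then 0 else 1) else (if r ∈ c then 3 else 2) := by
  unfold code
  have h1 : ((κ * (2 * M) + q) * l + r) / l = κ * (2 * M) + q := by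
    rw [Nat.add_comm, Nat.add_mul_div_right _ _ hl, Nat.div_eq_of_lt hr, Nat.zero_add]
  have h2 : ((κ * (2 * M) + q) * l + r) % l = r := by
    rw [Nat.add_comm, Nat.add_mul_mod_self_right, Nat.mod_eq_of_lt hr]
  have h3 : (κ * (2 * M) + q) % (2 * M) = q := by
    rw [Nat.add_comm, Nat.add_mul_mod_self_right, Nat.mod_eq_of_lt hq]
  rw [h1, h2, h3]

theorem kap_lt {j κ : ℕ} (h : j < κ * (2 * M) * l) : kap l M j < κ := by
  unfold kap
  refine Nat.div_lt_of_lt_mul (Nat.div_lt_of_lt_mul ?_)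
  calc j < κ * (2 * M) * l := h
    _ = l * (2 * M * κ) := by ring

theorem le_kap (hl : 0 < l) (hM : 0 < M) {j κ : ℕ} (h : κ * (2 * M) * l ≤ j) : κ ≤ kap l M j := by
  unfold kap
  rw [Nat.le_div_iff_mul_le (by omega), Nat.le_div_iff_mul_le hl]
  exact h

/-- splitting a sum over the segments of rank `> 4 κ + c`, `c ≤ 3` -/
theorem sum_rank {α : Type*} [AddCommMonoid α] (hl : 0 < l) (hM : 0 < M) (F : ℕ → α) {κ Q c : ℕ}
    (hc : c ≤ 3) (hκ : (κ + 1) * (2 * M) ≤ Q) :
    ∑ j ∈ (range (Q * l)).filter (fun j => 4 * κ + c < rho l K M C j), F j =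
      (∑ q ∈ range (2 * M), ∑ r ∈ range l,
        if c < (if q < M then (if r ∈ C (κ % K) then 0 else 1) else (if r ∈ C (κ % K) then 3 else 2))
          then F ((κ * (2 * M) + q) * l + r) else 0) +
      ∑ j ∈ Ico ((κ + 1) * (2 * M) * l) (Q * l), F j := by
  have h1 : κ * (2 * M) * l ≤ (κ + 1) * (2 * M) * l :=
    Nat.mul_le_mul_right _ (Nat.mul_le_mul_right _ (by omega))
  have h2 : (κ + 1) * (2 * M) * l ≤ Q * l := Nat.mul_le_mul_right _ hκ
  rw [sum_filter, range_eq_Ico, ← sum_Ico_consecutive _ (Nat.zero_le (κ * (2 * M) * l)) (h1.trans h2),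
    ← sum_Ico_consecutive _ h1 h2]
  have e1 : ∑ j ∈ Ico 0 (κ * (2 * M) * l), (if 4 * κ + c < rho l K M C j then F j else 0) = 0 := by
    refine sum_eq_zero fun j hj => ?_
    rw [if_neg]
    have h3 := kap_lt (mem_Ico.1 hj).2
    have h4 := code_le l M (C (kap l M j % K)) j
    unfold rho
    omega
  have e2 : ∑ j ∈ Ico ((κ + 1) * (2 * M) * l) (Q * l),
      (if 4 * κ + c < rho l K M C j then F j else 0) =
      ∑ j ∈ Ico ((κ + 1) * (2 * M) * l) (Q * l), F j := by
    refine sum_congr rfl fun j hj => ?_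
    rw [if_pos]
    have h3 := le_kap hl hM (mem_Ico.1 hj).1
    unfold rho
    omega
  rw [e1, e2, zero_add]
  congr 1
  rw [sum_Ico_mul _ _ _ _ (Nat.mul_le_mul_right _ (by omega)), sum_Ico_eq_sum_range]
  have h5 : (κ + 1) * (2 * M) - κ * (2 * M) = 2 * M := by
    have : (κ + 1) * (2 * M) = κ * (2 * M) + 2 * M := by ring
    omega
  rw [h5]
  refine sum_congr rfl fun q hq => sum_congr rfl fun r hr => ?_
  have hq' := mem_range.1 hq
  have hr' := mem_range.1 hr
  have h6 : rho l K M C ((κ * (2 * M) + q) * l + r) = 4 * κ +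
      (if q < M then (if r ∈ C (κ % K) then 0 else 1) else (if r ∈ C (κ % K) then 3 else 2)) := by
    unfold rho
    rw [kap_block hl hq' hr', code_block hl _ hq' hr']
  rw [h6]
  refine if_congr ?_ rfl rfl
  omega

theorem sum_three {α : Type*} [AddCommMonoid α] (f : ℕ → α) (c : Finset ℕ) (hc : c ⊆ range l) :
    (∑ q ∈ range (2 * M), ∑ r ∈ range l,
      if 2 < (if q < M then (if r ∈ c then 0 else 1) else (if r ∈ c then 3 else 2))
        then f r else 0) = M • ∑ r ∈ c, f r := by
  have h0 : ∑ r ∈ c, f r = ∑ r ∈ range l, if r ∈ c then f r else 0 := by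
    rw [← sum_filter]
    congr 1
    ext r
    simp only [mem_filter]
    exact ⟨fun h => ⟨hc h, h⟩, fun h => h.2⟩
  rw [two_mul, sum_range_add]
  have e1 : (∑ q ∈ range M, ∑ r ∈ range l,
      if 2 < (if q < M then (if r ∈ c then 0 else 1) else (if r ∈ c then 3 else 2))
        then f r else 0) = 0 := by
    refine sum_eq_zero fun q hq => sum_eq_zero fun r _ => ?_
    rw [if_pos (mem_range.1 hq), if_neg]
    split_ifs <;> omega
  rw [e1, zero_add, h0]
  have e2 : ∀ q ∈ range M, (∑ r ∈ range l,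
      if 2 < (if M + q < M then (if r ∈ c then 0 else 1) else (if r ∈ c then 3 else 2))
        then f r else 0) = ∑ r ∈ range l, if r ∈ c then f r else 0 := by
    intro q _
    refine sum_congr rfl fun r _ => ?_
    have hn : ¬ (M + q < M) := by omega
    simp only [hn, if_false]
    by_cases h : r ∈ c <;> simp [h]
  rw [sum_congr rfl e2, sum_const, card_range]

theorem sum_zero_code (f : ℕ → ℕ) (c : Finset ℕ) (hc : c ⊆ range l) :
    (∑ q ∈ range (2 * M), ∑ r ∈ range l,
      if 0 < (if q < M then (if r ∈ c then 0 else 1) else (if r ∈ c then 3 else 2))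
        then f r else 0) + M * ∑ r ∈ c, f r = 2 * M * ∑ r ∈ range l, f r := by
  have h0 : ∑ r ∈ c, f r = ∑ r ∈ range l, if r ∈ c then f r else 0 := by
    rw [← sum_filter]
    congr 1
    ext r
    simp only [mem_filter]
    exact ⟨fun h => ⟨hc h, h⟩, fun h => h.2⟩
  rw [two_mul, sum_range_add]
  have e1 : ∀ q ∈ range M, (∑ r ∈ range l,
      if 0 < (if q < M then (if r ∈ c then 0 else 1) else (if r ∈ c then 3 else 2))
        then f r else 0) + ∑ r ∈ c, f r = ∑ r ∈ range l, f r := by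
    intro q hq
    rw [h0, ← sum_add_distrib]
    refine sum_congr rfl fun r _ => ?_
    rw [if_pos (mem_range.1 hq)]
    by_cases h : r ∈ c <;> simp [h]
  have e2 : ∀ q ∈ range M, (∑ r ∈ range l,
      if 0 < (if M + q < M then (if r ∈ c then 0 else 1) else (if r ∈ c then 3 else 2))
        then f r else 0) = ∑ r ∈ range l, f r := by
    intro q _
    refine sum_congr rfl fun r _ => ?_
    have hn : ¬ (M + q < M) := by omega
    simp only [hn, if_false]
    by_cases h : r ∈ c <;> simp [h]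
  rw [sum_congr rfl e2, sum_const, card_range, smul_eq_mul]
  have e3 := sum_congr rfl e1
  rw [sum_add_distrib, sum_const, sum_const, card_range, smul_eq_mul, smul_eq_mul] at e3
  nlinarith

end rk

/-- **The combinatorial core of robustness.** -/
theorem core {ι : Type*} (s : Finset ι) (b a rk : ι → ℕ) (l K M R h : ℕ) (C : ℕ → Finset ℕ)
    (hl : 2 ≤ l) (hle : Even l) (hK : 0 < K) (hC : ∀ k < K, C k ⊆ range l ∧ Even (C k).card)
    (hM : h + l * (h + l / 2) < M) (hR : l * (l * (h + l / 2)) < R)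
    (hab : ∀ i ∈ s, 1 ≤ b i ∧ b i ≤ a i ∧ a i ≤ b i + (l - 1))
    (hrk : ∀ i ∈ s, a i = b i + (l - 1) → rho l K M C (b i - 1) ≤ rk i)
    (hX : ∀ t, l ≤ t → t ≤ l * (2 * M * K * R) →
      l / 2 ≤ (s.filter (fun i => b i ≤ t ∧ t ≤ a i)).card)
    (hZ : 2 * s.card ≤ 2 * h + l * (2 * M * K * R))
    (hsuf : ∀ r, 2 * (s.filter (fun i => r < rk i)).card ≤
      2 * h + ((range (l * (2 * M * K * R))).filter (fun j => r < rho l K M C j)).card) :
    ∃ f : ℕ → ℕ, ∑ r ∈ range l, f r = l / 2 ∧ ∀ k < K, 2 * ∑ r ∈ C k, f r = (C k).card := by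
  have hM0 : 0 < M := by omega
  set A := 2 * M * K with hAdef
  have hA : 0 < A := by positivity
  have hG : l * (2 * M * K * R) = R * A * l := by rw [hAdef]; ring
  have hsuf' : ∀ r, 2 * (s.filter (fun i => r < rk i)).card ≤
      2 * h + ((range (R * A * l)).filter (fun j => r < rho l K M C j)).card := by
    intro r
    have := hsuf r
    rwa [hG] at this
  rw [hG] at hX hZ
  have hb1 : ∀ i ∈ s, 1 ≤ b i := fun i hi => (hab i hi).1
  have hb2 : ∀ i ∈ s, 1 ≤ b i ∧ a i ≤ b i + (l - 1) := fun i hi => ⟨(hab i hi).1, (hab i hi).2.2⟩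
  have hQ : 0 < R * A := Nat.mul_pos (by omega) hA
  obtain ⟨hW, -⟩ := bad_le s b a l hl hle h hab hQ hX hZ
  obtain ⟨w, hwR, hcl⟩ := exists_clean s b a l hl hle h hab hA hX hZ hR
  have hconst := fun q hq r hr => clean_const s b a l hl hb2 hcl q hq r hr
  set f : ℕ → ℕ := fun r => N s b a l (w * A * l + r) with hf
  have hsumf : ∑ r ∈ range l, f r = l / 2 := by
    have h1 : w * A * l + l ≤ (w + 1) * A * l := by nlinarith
    obtain ⟨h3, h4⟩ := hcl (w * A * l + l) le_rfl h1
    rw [cov_eq s b a l hl hb2 (by omega), h4, Nat.add_zero, sum_Ico_eq_sum_range] at h3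
    have e1 : w * A * l + l - (w * A * l + l - l) = l := by omega
    have e2 : w * A * l + l - l = w * A * l := by omega
    rw [e1, e2] at h3
    exact h3
  refine ⟨f, hsumf, fun k hk => ?_⟩
  obtain ⟨hCk, c', hc'⟩ := hC k hk
  set κ := w * K + k with hκdef
  have hκmod : κ % K = k := by
    rw [hκdef, Nat.add_comm, Nat.add_mul_mod_self_right, Nat.mod_eq_of_lt hk]
  have hκ1 : κ + 1 ≤ R * K := by
    have : (w + 1) * K ≤ R * K := Nat.mul_le_mul_right _ hwR
    nlinarith
  have hκQ : (κ + 1) * (2 * M) ≤ R * A := by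
    calc (κ + 1) * (2 * M) ≤ R * K * (2 * M) := Nat.mul_le_mul_right _ hκ1
      _ = R * A := by rw [hAdef]; ring
  have hκA : κ * (2 * M) = w * A + k * (2 * M) := by rw [hκdef, hAdef]; ring
  have hblock : ∀ q ∈ range (2 * M), ∀ r ∈ range l,
      N s b a l ((κ * (2 * M) + q) * l + r) = f r := by
    intro q hq r hr
    have hq' := mem_range.1 hq
    have hr' := mem_range.1 hr
    have h1 : k * (2 * M) + q < A := by
      have : (k + 1) * (2 * M) ≤ K * (2 * M) := Nat.mul_le_mul_right _ hk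
      rw [hAdef]; nlinarith
    have := hconst (k * (2 * M) + q) h1 r hr'
    rw [hκA, Nat.add_assoc]
    exact this
  -- the two suffix inequalities
  set X := ∑ j ∈ Ico ((κ + 1) * (2 * M) * l) (R * A * l), N s b a l j with hXdef
  have hlater := suffix_ge s b a l hl hle hb2 hX hκQ
  rw [← hXdef] at hlater
  have key : ∀ c, c ≤ 3 →
      2 * ((∑ q ∈ range (2 * M), ∑ r ∈ range l,
        if c < (if q < M then (if r ∈ C k then 0 else 1) else (if r ∈ C k then 3 else 2))
          then f r else 0) + X) ≤ 2 * h +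
      ((∑ q ∈ range (2 * M), ∑ r ∈ range l,
        if c < (if q < M then (if r ∈ C k then 0 else 1) else (if r ∈ C k then 3 else 2))
          then 1 else 0) + (R * A * l - (κ + 1) * (2 * M) * l)) := by
    intro c hc
    have h1 := sum_N_rank_le s b a l rk (rho l K M C) (R * A * l) (4 * κ + c) hb1 hrk
    have h2 := hsuf' (4 * κ + c)
    rw [card_eq_sum_ones ((range (R * A * l)).filter _),
      sum_rank (by omega) hM0 (fun _ => 1) hc hκQ, sum_const,
      Nat.card_Ico, smul_eq_mul, mul_one, hκmod] at h2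
    rw [sum_rank (by omega) hM0 (N s b a l) hc hκQ, hκmod] at h1
    have h3 : (∑ q ∈ range (2 * M), ∑ r ∈ range l,
        if c < (if q < M then (if r ∈ C k then 0 else 1) else (if r ∈ C k then 3 else 2))
          then N s b a l ((κ * (2 * M) + q) * l + r) else 0) =
        ∑ q ∈ range (2 * M), ∑ r ∈ range l,
        if c < (if q < M then (if r ∈ C k then 0 else 1) else (if r ∈ C k then 3 else 2))
          then f r else 0 := by
      refine sum_congr rfl fun q hq => sum_congr rfl fun r hr => ?_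
      rw [hblock q hq r hr]
    rw [h3] at h1
    omega
  have k2 := key 2 (by omega)
  have k0 := key 0 (by omega)
  rw [sum_three f (C k) hCk, sum_three (fun _ => 1) (C k) hCk] at k2
  have z1 := sum_zero_code (l := l) (M := M) f (C k) hCk
  have z2 := sum_zero_code (l := l) (M := M) (fun _ => 1) (C k) hCk
  rw [hsumf] at z1
  simp only [sum_const, card_range, smul_eq_mul, mul_one] at z2 k2
  set F := ∑ r ∈ C k, f r with hF
  set S0 := ∑ q ∈ range (2 * M), ∑ r ∈ range l,
        if 0 < (if q < M then (if r ∈ C k then 0 else 1) else (if r ∈ C k then 3 else 2))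
          then f r else 0 with hS0
  set S1 := ∑ q ∈ range (2 * M), ∑ r ∈ range l,
        if 0 < (if q < M then (if r ∈ C k then 0 else 1) else (if r ∈ C k then 3 else 2))
          then 1 else 0 with hS1
  set P := (κ + 1) * (2 * M) * l with hP
  have hPQ : P ≤ R * A * l := Nat.mul_le_mul_right _ hκQ
  obtain ⟨l', hl'⟩ := hle
  have hl2 : l / 2 = l' := by omega
  rw [hl2] at hW hM z1
  rw [hc'] at k2 z2 ⊢
  have e1 : M * (c' + c') = 2 * (M * c') := by ring
  have e2 : 2 * M * l = 2 * (2 * M * l') := by rw [hl']; ring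
  rw [e1] at k2 z2
  rw [e2] at z2
  -- F ≤ c'
  have a1 : M * F < M * (c' + 1) := by
    have : M * (c' + 1) = M * c' + M := by ring
    omega
  have a2 : M * c' < M * (F + 1) := by
    have : M * (F + 1) = M * F + M := by ring
    omega
  have b1 := Nat.lt_of_mul_lt_mul_left a1
  have b2 := Nat.lt_of_mul_lt_mul_left a2
  omega

end Crest.Agent.R318.Core834
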