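import Mathlib

/-!
Row 318, piece (a): geometry of one chain (helper135's uniform 3-slot construction).

Tagged items of the three slots, their integer sizes and the classification of all feasible
triples.
-/

set_option autoImplicit false

namespace Crest.Agent.R318.Geo887

/-- Items of slot 1. -/
inductive S1
  | node (t : ℕ)
  | copy (t : ℕ) (y : ℤ)
  | bot

/-- Items of slot 2. -/
inductive S2
  | start (t : ℕ)
  | copy (t : ℕ) (y : ℤ)
  | bot

/-- Items of slot 3. -/
inductive S3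
  | zed
  | copy (t : ℕ) (y : ℤ)
  | wire (r : ℕ)

/-- The numerical parameters of a chain. `w` is minus the least slot 3 size of the copied system,
`W` bounds all its sizes. -/
structure Par where
  l : ℕ
  G : ℕ
  rho : ℕ → ℕ
  tau : ℕ → ℤ
  D : ℤ
  g : ℤ
  H : ℤ
  L : ℤ
  w : ℤ

namespace Par

variable (P : Par)

/-- Largest interior level index. -/
def T : ℕ := P.G + P.l - 1

/-- The shift of copy `t` in slots 2 and 3. -/
def A (t : ℕ) : ℤ := P.L ^ t * (1 + P.w) - 2

def s1 : S1 → ℤ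
  | .node t => P.tau t + P.H
  | .copy t y => P.tau t + P.L ^ t * y
  | .bot => P.tau 0

def s2 : S2 → ℤ
  | .start t => -P.tau t + P.H
  | .copy t y => -P.tau t - P.A t + P.L ^ t * y
  | .bot => -P.tau (P.T + 1)

def s3 : S3 → ℤ
  | .zed => P.L ^ (P.T + 1) - 2
  | .copy t y => P.A t + P.L ^ t * y
  | .wire r => -((P.l : ℤ) - 1) * P.D - P.g * r - 2 * P.H

/-- Level of a slot 1 item. -/
def lev1 : S1 → ℕ
  | .node t => t
  | .copy t _ => t
  | .bot => 0

/-- Level of a slot 2 item. -/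
def lev2 : S2 → ℕ
  | .start t => t
  | .copy t _ => t
  | .bot => P.T + 1

/-- Admissible slot 1 items. -/
def V1 (W : ℤ) : S1 → Prop
  | .node t => P.l ≤ t ∧ t ≤ P.T
  | .copy t y => P.l ≤ t ∧ t ≤ P.G ∧ -W ≤ y ∧ y ≤ W
  | .bot => True

/-- Admissible slot 2 items. -/
def V2 (W : ℤ) : S2 → Prop
  | .start t => 1 ≤ t ∧ t ≤ P.G
  | .copy t y => P.l ≤ t ∧ t ≤ P.G ∧ -W ≤ y ∧ y ≤ W
  | .bot => True

/-- Admissible slot 3 items. -/
def V3 (R : ℕ) : S3 → Prop
  | .zed => True
  | .copy t y => P.l ≤ t ∧ t ≤ P.G ∧ -P.w ≤ y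
  | .wire r => r ≤ R

/-- The inequalities between the parameters. `E` is a lower bound for all gaps of `tau`, `R` an
upper bound for all ranks. -/
structure Ok (W E : ℤ) (R : ℕ) : Prop where
  hl : 2 ≤ P.l
  hG : 1 ≤ P.G
  hw : 0 ≤ P.w
  hW : 0 ≤ W
  hL : 1 + P.w + 2 * W < P.L
  hH : P.L ^ (P.T + 1) < P.H
  hg : 2 * P.H + 2 * P.L ^ (P.T + 1) < P.g
  hE : P.g * R + 2 * P.H + 2 * P.L ^ (P.T + 1) < E
  hgap : ∀ t, t ≤ P.T → E ≤ P.tau (t + 1) - P.tau t
  hrel : ∀ b, 1 ≤ b → b ≤ P.G →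
    P.tau (b + (P.l - 1)) - P.tau b = ((P.l : ℤ) - 1) * P.D + P.g * P.rho (b - 1)

variable {P}

section

variable {W E : ℤ} {R : ℕ}

theorem Ok.L_pos (h : P.Ok W E R) : 1 < P.L := by
  have := h.hL; have := h.hw; have := h.hW; linarith

theorem Ok.pow_pos (h : P.Ok W E R) (t : ℕ) : 0 < P.L ^ t :=
  _root_.pow_pos (by have := h.L_pos; linarith) t

theorem Ok.pow_le (h : P.Ok W E R) {s t : ℕ} (hst : s ≤ t) : P.L ^ s ≤ P.L ^ t :=
  pow_le_pow_right₀ (by have := h.L_pos; linarith) hst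

/-- Everything belonging to copy `t` is small compared to `L ^ s` for `s > t`. -/
theorem Ok.pow_lt (h : P.Ok W E R) {s t : ℕ} (hst : t < s) :
    P.L ^ t * (1 + P.w + 2 * W) < P.L ^ s := by
  have h1 : P.L ^ (t + 1) ≤ P.L ^ s := h.pow_le hst
  have h2 : P.L ^ t * (1 + P.w + 2 * W) < P.L ^ t * P.L :=
    mul_lt_mul_of_pos_left h.hL (h.pow_pos t)
  rw [pow_succ] at h1
  linarith

theorem Ok.two_le_pow (h : P.Ok W E R) {t : ℕ} (ht : P.l ≤ t) : 4 ≤ P.L ^ t := by
  have h2 : 2 ≤ t := h.hl.trans ht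
  have h1 : P.L ^ 2 ≤ P.L ^ t := h.pow_le h2
  have := h.L_pos
  nlinarith

theorem Ok.E_pos (h : P.Ok W E R) : 0 < E := by
  have h1 := h.hE
  have h2 := h.hg
  have h3 := h.hH
  have h4 := h.pow_pos (P.T + 1)
  have h5 : 0 ≤ P.g * R := mul_nonneg (by linarith) (by positivity)
  linarith

theorem Ok.gap (h : P.Ok W E R) {a b : ℕ} (hab : b < a) (ha : a ≤ P.T + 1) :
    E ≤ P.tau a - P.tau b := by
  induction a with
  | zero => omega
  | succ a ih =>
    rcases Nat.lt_or_ge b a with hlt | hge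
    · have h1 := ih hlt (by omega)
      have h2 := h.hgap a (by omega)
      have h3 := h.E_pos
      linarith
    · have : b = a := by omega
      subst this
      exact h.hgap b (by omega)

theorem Ok.T_eq (h : P.Ok W E R) : P.T + 1 = P.G + P.l := by
  have := h.hl; unfold T; omega

/-- Lower bound for slot 1 items. -/
theorem Ok.s1_ge (h : P.Ok W E R) {a : S1} (ha : P.V1 W a) :
    P.tau (lev1 a) - P.L ^ P.G * W ≤ P.s1 a := by
  have hG := h.pow_pos P.G
  have hHp : 0 < P.H := lt_trans (h.pow_pos _) h.hH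
  have hnn : 0 ≤ P.L ^ P.G * W := mul_nonneg hG.le h.hW
  cases a with
  | node t => simp only [s1, lev1]; linarith
  | bot => simp only [s1, lev1]; linarith
  | copy t y =>
    simp only [s1, lev1]
    obtain ⟨h1, h2, h3, h4⟩ := ha
    have h5 : P.L ^ t * (-W) ≤ P.L ^ t * y := mul_le_mul_of_nonneg_left h3 (h.pow_pos t).le
    have h6 : P.L ^ t * W ≤ P.L ^ P.G * W := mul_le_mul_of_nonneg_right (h.pow_le h2) h.hW
    linarith

/-- Lower bound for slot 2 items. -/
theorem Ok.s2_ge (h : P.Ok W E R) {b : S2} (hb : P.V2 W b) :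
    -P.tau (P.lev2 b) - P.L ^ P.G * (1 + P.w + W) ≤ P.s2 b := by
  have hG := h.pow_pos P.G
  have hHp : 0 < P.H := lt_trans (h.pow_pos _) h.hH
  have hw := h.hw
  have hW := h.hW
  have hnn : 0 ≤ P.L ^ P.G * (1 + P.w + W) := mul_nonneg hG.le (by linarith)
  cases b with
  | start t => simp only [s2, lev2]; linarith
  | bot => simp only [s2, lev2]; linarith
  | copy t y =>
    simp only [s2, lev2, A]
    obtain ⟨h1, h2, h3, h4⟩ := hb
    have h5 : P.L ^ t * (-W) ≤ P.L ^ t * y := mul_le_mul_of_nonneg_left h3 (h.pow_pos t).le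
    have h6 : P.L ^ t * (1 + P.w + W) ≤ P.L ^ P.G * (1 + P.w + W) :=
      mul_le_mul_of_nonneg_right (h.pow_le h2) (by linarith)
    linarith

/-- Together the two errors are at most `Y`. -/
theorem Ok.err_lt (h : P.Ok W E R) :
    P.L ^ P.G * W + P.L ^ P.G * (1 + P.w + W) < P.L ^ (P.T + 1) := by
  have h1 : P.G < P.T + 1 := by rw [h.T_eq]; have := h.hl; omega
  have := h.pow_lt h1
  linarith

/-- Items of slot 3 which are not wires are positive. -/
theorem Ok.s3_copy_ge (h : P.Ok W E R) {t : ℕ} {y : ℤ} (hc : P.V3 R (.copy t y)) :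
    P.L ^ t - 2 ≤ P.s3 (.copy t y) := by
  obtain ⟨h1, h2, h3⟩ := hc
  simp only [s3, A]
  have h5 : P.L ^ t * (-P.w) ≤ P.L ^ t * y := mul_le_mul_of_nonneg_left h3 (h.pow_pos t).le
  linarith

theorem Ok.s3_pos (h : P.Ok W E R) {c : S3} (hc : P.V3 R c) (hn : ∀ r, c ≠ .wire r) :
    0 < P.s3 c := by
  cases c with
  | zed =>
    simp only [s3]
    have := h.two_le_pow (t := P.T + 1) (by rw [h.T_eq]; omega)
    linarith
  | copy t y =>
    have h1 := h.s3_copy_ge hc
    have := h.two_le_pow hc.1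
    linarith
  | wire r => exact absurd rfl (hn r)

theorem lev1_le (h : P.Ok W E R) {a : S1} (ha : P.V1 W a) : lev1 a ≤ P.T := by
  have := h.hl
  cases a with
  | node t => exact ha.2
  | bot => exact Nat.zero_le _
  | copy t y => have := ha.2.1; simp only [lev1]; unfold T; omega

/-- Slot 3 item not a wire: either slot 1 level below slot 2 level, or an inner bin of a copy. -/
theorem Ok.nonwire (h : P.Ok W E R) {a : S1} {b : S2} {c : S3} (ha : P.V1 W a) (hb : P.V2 W b)
    (hc : P.V3 R c) (hn : ∀ r, c ≠ .wire r) (hs : P.s1 a + P.s2 b + P.s3 c ≤ 0) :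
    lev1 a < P.lev2 b ∨ ∃ t y1 y2, a = .copy t y1 ∧ b = .copy t y2 ∧
      ((∃ y3, c = .copy t y3 ∧ y1 + y2 + y3 ≤ 0) ∨
        ∃ s y3, s < t ∧ c = .copy s y3 ∧ y1 + y2 ≤ P.w) := by
  have h3 := h.s3_pos hc hn
  have h1 := h.s1_ge ha
  have h2 := h.s2_ge hb
  have he := h.err_lt
  have hl1 := lev1_le h ha
  have hHY := h.hH
  have hEb := h.hE
  have hgb := h.hg
  have hYp := h.pow_pos (P.T + 1)
  have hgR : 0 ≤ P.g * R := mul_nonneg (by linarith) (by positivity)
  rcases Nat.lt_trichotomy (lev1 a) (P.lev2 b) with hlt | heq | hgt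
  · exact Or.inl hlt
  · right
    cases a with
    | bot =>
      -- level 0, impossible
      exfalso
      cases b with
      | start t => have := hb.1; simp only [lev1, lev2] at heq; omega
      | copy t y => have := hb.1; have := h.hl; simp only [lev1, lev2] at heq; omega
      | bot => simp only [lev1, lev2] at heq; omega
    | node t =>
      exfalso
      simp only [lev1] at heq
      rw [← heq] at h2
      simp only [s1] at hs
      have : 0 ≤ P.L ^ P.G * W := mul_nonneg (h.pow_pos _).le h.hW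
      linarith
    | copy t y1 =>
      cases b with
      | bot => exfalso; simp only [lev1, lev2] at heq hl1; omega
      | start t' =>
        exfalso
        simp only [lev1, lev2] at heq
        subst heq
        simp only [lev1] at h1
        simp only [s2] at hs
        have : 0 ≤ P.L ^ P.G * (1 + P.w + W) :=
          mul_nonneg (h.pow_pos _).le (by have := h.hw; have := h.hW; linarith)
        linarith
      | copy t' y2 =>
        simp only [lev1, lev2] at heq
        subst heq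
        refine ⟨t, y1, y2, rfl, rfl, ?_⟩
        obtain ⟨ha1, ha2, ha3, ha4⟩ := ha
        obtain ⟨hb1, hb2, hb3, hb4⟩ := hb
        have hp := h.pow_pos t
        have hy : P.L ^ t * (-(2 * W)) ≤ P.L ^ t * (y1 + y2) :=
          mul_le_mul_of_nonneg_left (by linarith) hp.le
        simp only [s1, s2, A] at hs
        cases c with
        | wire r => exact absurd rfl (hn r)
        | zed =>
          exfalso
          simp only [s3] at hs
          have h4 : P.L ^ t * (1 + P.w + 2 * W) < P.L ^ (P.T + 1) :=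
            h.pow_lt (by rw [h.T_eq]; have := h.hl; omega)
          linarith
        | copy s y3 =>
          have hc3 := h.s3_copy_ge hc
          rcases Nat.lt_trichotomy s t with hst | hst | hst
          · right
            refine ⟨s, y3, hst, rfl, ?_⟩
            by_contra hcon
            have hcon' : 0 ≤ y1 + y2 - 1 - P.w := by omega
            have h5 : 0 ≤ P.L ^ t * (y1 + y2 - 1 - P.w) := mul_nonneg hp.le hcon'
            have h6 := h.pow_pos s
            linarith
          · left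
            subst hst
            refine ⟨y3, rfl, ?_⟩
            simp only [s3, A] at hs
            have h5 : P.L ^ s * (y1 + y2 + y3) ≤ 0 := by linarith
            by_contra hcon
            push Not at hcon
            have := mul_pos hp hcon
            linarith
          · exfalso
            have h4 := h.pow_lt hst
            linarith
  · exfalso
    have hg1 := h.gap hgt (by omega)
    linarith

/-- Slot 3 item a wire. -/
theorem Ok.wire (h : P.Ok W E R) {a : S1} {b : S2} {r : ℕ} (ha : P.V1 W a) (hb : P.V2 W b)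
    (hr : r ≤ R) (hs : P.s1 a + P.s2 b + P.s3 (.wire r) ≤ 0) (hge : P.lev2 b ≤ lev1 a) :
    lev1 a ≤ P.lev2 b + (P.l - 1) ∧
      (lev1 a = P.lev2 b + (P.l - 1) → P.rho (P.lev2 b - 1) ≤ r) := by
  have h1 := h.s1_ge ha
  have h2 := h.s2_ge hb
  have he := h.err_lt
  have hl1 := lev1_le h ha
  have hHY := h.hH
  have hEb := h.hE
  have hgb := h.hg
  have hYp := h.pow_pos (P.T + 1)
  have hll := h.hl
  have hTe := h.T_eq
  have hgp : 0 < P.g := by linarith
  simp only [s3] at hs
  -- level of b is at least one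
  have hb1 : 1 ≤ P.lev2 b := by
    cases b with
    | start t => exact hb.1
    | copy t y => have := hb.1; simp only [lev2]; omega
    | bot => simp only [lev2]; omega
  have key : ∀ c, 1 ≤ c → c ≤ P.G →
      P.tau (c + (P.l - 1)) - P.tau c = ((P.l : ℤ) - 1) * P.D + P.g * P.rho (c - 1) := h.hrel
  have hrho : P.g * r ≤ P.g * R := mul_le_mul_of_nonneg_left (by exact_mod_cast hr) hgp.le
  refine ⟨?_, ?_⟩
  · by_contra hcon
    push Not at hcon
    have hbG : P.lev2 b ≤ P.G := by omega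
    have h4 := key _ hb1 hbG
    have h5 := h.gap hcon (by omega)
    have h6 : 0 ≤ P.g * (P.rho (P.lev2 b - 1) : ℤ) := mul_nonneg hgp.le (by positivity)
    linarith
  · intro heq
    have hbG : P.lev2 b ≤ P.G := by omega
    have h4 := key _ hb1 hbG
    rw [← heq] at h4
    by_contra hcon
    push Not at hcon
    have h7 : (r : ℤ) + 1 ≤ P.rho (P.lev2 b - 1) := by exact_mod_cast hcon
    have h8 : P.g * ((r : ℤ) + 1) ≤ P.g * P.rho (P.lev2 b - 1) :=
      mul_le_mul_of_nonneg_left h7 hgp.le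
    linarith

/-- Chain geometry: classification of all feasible triples. -/
theorem Ok.geometry (h : P.Ok W E R) {a : S1} {b : S2} {c : S3} (ha : P.V1 W a) (hb : P.V2 W b)
    (hc : P.V3 R c) (hs : P.s1 a + P.s2 b + P.s3 c ≤ 0) :
    lev1 a < P.lev2 b ∨
    (∃ t y1 y2, a = .copy t y1 ∧ b = .copy t y2 ∧
      ((∃ y3, c = .copy t y3 ∧ y1 + y2 + y3 ≤ 0) ∨
        ∃ s y3, s < t ∧ c = .copy s y3 ∧ y1 + y2 ≤ P.w)) ∨
    (∃ r, c = .wire r ∧ P.lev2 b ≤ lev1 a ∧ lev1 a ≤ P.lev2 b + (P.l - 1) ∧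
      (lev1 a = P.lev2 b + (P.l - 1) → P.rho (P.lev2 b - 1) ≤ r)) := by
  by_cases hlt : lev1 a < P.lev2 b
  · exact Or.inl hlt
  · by_cases hw : ∃ r, c = .wire r
    · obtain ⟨r, rfl⟩ := hw
      right; right
      have := h.wire ha hb hc hs (by omega)
      exact ⟨r, rfl, by omega, this.1, this.2⟩
    · push Not at hw
      rcases h.nonwire ha hb hc hw hs with h1 | h1
      · exact absurd h1 hlt
      · exact Or.inr (Or.inl h1)

/-! ### Slot-order separations -/

/-- Upper bound for slot 1 items. -/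
theorem Ok.s1_le (h : P.Ok W E R) {a : S1} (ha : P.V1 W a) :
    P.s1 a ≤ P.tau (lev1 a) + P.H := by
  have hHp : 0 < P.H := lt_trans (h.pow_pos _) h.hH
  have he := h.err_lt
  have hHY := h.hH
  have hG := h.pow_pos P.G
  have hnn : 0 ≤ P.L ^ P.G * (1 + P.w + W) :=
    mul_nonneg hG.le (by have := h.hw; have := h.hW; linarith)
  cases a with
  | node t => simp only [s1, lev1]; linarith
  | bot => simp only [s1, lev1]; linarith
  | copy t y =>
    simp only [s1, lev1]
    obtain ⟨h1, h2, h3, h4⟩ := ha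
    have h5 : P.L ^ t * y ≤ P.L ^ t * W := mul_le_mul_of_nonneg_left h4 (h.pow_pos t).le
    have h6 : P.L ^ t * W ≤ P.L ^ P.G * W := mul_le_mul_of_nonneg_right (h.pow_le h2) h.hW
    linarith

/-- Upper bound for slot 2 items. -/
theorem Ok.s2_le (h : P.Ok W E R) {b : S2} (hb : P.V2 W b) :
    P.s2 b ≤ -P.tau (P.lev2 b) + P.H := by
  have hHp : 0 < P.H := lt_trans (h.pow_pos _) h.hH
  have he := h.err_lt
  have hHY := h.hH
  have hG := h.pow_pos P.G
  have hw := h.hw
  have hnn : 0 ≤ P.L ^ P.G * (1 + P.w + W) :=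
    mul_nonneg hG.le (by have := h.hW; linarith)
  cases b with
  | start t => simp only [s2, lev2]; linarith
  | bot => simp only [s2, lev2]; linarith
  | copy t y =>
    simp only [s2, lev2, A]
    obtain ⟨h1, h2, h3, h4⟩ := hb
    have h5 : P.L ^ t * y ≤ P.L ^ t * W := mul_le_mul_of_nonneg_left h4 (h.pow_pos t).le
    have h6 : P.L ^ t * W ≤ P.L ^ P.G * W := mul_le_mul_of_nonneg_right (h.pow_le h2) h.hW
    have h7 := h.two_le_pow h1
    have h8 : P.L ^ t * 1 ≤ P.L ^ t * (1 + P.w) :=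
      mul_le_mul_of_nonneg_left (by linarith) (h.pow_pos t).le
    linarith

/-- `L ^ t * (2 + w + 2 W) ≤ Y` for interior `t`. -/
theorem Ok.pow_le_Y (h : P.Ok W E R) {t : ℕ} (ht : t ≤ P.G) :
    P.L ^ t * (2 + P.w + 2 * W) ≤ P.L ^ (P.T + 1) := by
  have h1 : P.L ^ (t + 1) ≤ P.L ^ (P.T + 1) := h.pow_le (by rw [h.T_eq]; have := h.hl; omega)
  have h2 : P.L ^ t * (2 + P.w + 2 * W) ≤ P.L ^ t * P.L :=
    mul_le_mul_of_nonneg_left (by have := h.hL; linarith) (h.pow_pos t).le
  rw [pow_succ] at h1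
  linarith

theorem Ok.E_gt (h : P.Ok W E R) : 2 * P.H + 2 * P.L ^ (P.T + 1) < E := by
  have h5 : 0 ≤ P.g * R := mul_nonneg (by
    have := h.hg; have := h.hH; have := h.pow_pos (P.T + 1); linarith) (by positivity)
  have := h.hE
  linarith

/-- Slot 1: items of higher level are above everything of copy `t`. -/
theorem Ok.s1_above (h : P.Ok W E R) {a : S1} (ha : P.V1 W a) {t : ℕ} (ht : t ≤ P.G) {x : ℤ}
    (hx : x ≤ W + 1) (hlt : t < lev1 a) : P.tau t + P.L ^ t * x ≤ P.s1 a := by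
  have h1 := h.s1_ge ha
  have h2 := h.gap hlt (by have := lev1_le h ha; omega)
  have h3 : P.L ^ t * x ≤ P.L ^ t * (2 + P.w + 2 * W) :=
    mul_le_mul_of_nonneg_left (by have := h.hw; have := h.hW; linarith) (h.pow_pos t).le
  have h4 := h.pow_le_Y ht
  have h5 := h.err_lt
  have h6 := h.E_gt
  have h7 := h.hH
  have h8 : 0 ≤ P.L ^ P.G * (1 + P.w + W) :=
    mul_nonneg (h.pow_pos _).le (by have := h.hw; have := h.hW; linarith)
  have h9 := h.pow_pos (P.T + 1)
  linarith

/-- Slot 1: items of lower level are below everything of copy `t`. -/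
theorem Ok.s1_below (h : P.Ok W E R) {a : S1} (ha : P.V1 W a) {t : ℕ} (ht : t ≤ P.G) {x : ℤ}
    (hx : -(W + 1) ≤ x) (hlt : lev1 a < t) : P.s1 a < P.tau t + P.L ^ t * x := by
  have h1 := h.s1_le ha
  have h2 := h.gap hlt (by rw [h.T_eq]; omega)
  have h3 : P.L ^ t * (-(2 + P.w + 2 * W)) ≤ P.L ^ t * x :=
    mul_le_mul_of_nonneg_left (by have := h.hw; have := h.hW; linarith) (h.pow_pos t).le
  have h4 := h.pow_le_Y ht
  have h6 := h.E_gt
  have h7 := h.hH
  have h9 := h.pow_pos (P.T + 1)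
  linarith

/-- Slot 1: the node item of level `t` is above everything of copy `t`. -/
theorem Ok.s1_node (h : P.Ok W E R) {t : ℕ} (ht : t ≤ P.G) {x : ℤ}
    (hx : x ≤ W + 1) : P.tau t + P.L ^ t * x ≤ P.s1 (.node t) := by
  have h3 : P.L ^ t * x ≤ P.L ^ t * (2 + P.w + 2 * W) :=
    mul_le_mul_of_nonneg_left (by have := h.hw; have := h.hW; linarith) (h.pow_pos t).le
  have h4 := h.pow_le_Y ht
  have h7 := h.hH
  simp only [s1]
  linarith

theorem Ok.s1_copy (h : P.Ok W E R) {t : ℕ} {x y : ℤ} :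
    P.tau t + P.L ^ t * x ≤ P.s1 (.copy t y) ↔ x ≤ y := by
  simp only [s1]
  constructor
  · intro hh
    exact le_of_mul_le_mul_left (by linarith) (h.pow_pos t)
  · intro hh
    have := mul_le_mul_of_nonneg_left hh (h.pow_pos t).le
    linarith

/-- Slot 2: items of lower level are above everything of copy `t`. -/
theorem Ok.s2_above (h : P.Ok W E R) {b : S2} (hb : P.V2 W b) {t : ℕ} (ht : t ≤ P.G) {x : ℤ}
    (hx : x ≤ W + 1) (hlt : P.lev2 b < t) : -P.tau t - P.A t + P.L ^ t * x ≤ P.s2 b := by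
  have h1 := h.s2_ge hb
  have h2 := h.gap hlt (by rw [h.T_eq]; omega)
  have h3 : P.L ^ t * x ≤ P.L ^ t * (2 + P.w + 2 * W) :=
    mul_le_mul_of_nonneg_left (by have := h.hw; have := h.hW; linarith) (h.pow_pos t).le
  have h4 := h.pow_le_Y ht
  have h5 := h.err_lt
  have h6 := h.E_gt
  have h7 := h.hH
  have h8 : 0 ≤ P.L ^ P.G * W := mul_nonneg (h.pow_pos _).le h.hW
  have h9 := h.pow_pos (P.T + 1)
  have h10 : 0 ≤ P.L ^ t * (1 + P.w) := mul_nonneg (h.pow_pos t).le (by have := h.hw; linarith)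
  have h11 : 2 ≤ P.H := by
    have := h.two_le_pow (t := P.T + 1) (by rw [h.T_eq]; omega)
    linarith
  simp only [A]
  linarith

/-- Slot 2: items of higher level are below everything of copy `t`. -/
theorem Ok.s2_below (h : P.Ok W E R) {b : S2} (hb : P.V2 W b) {t : ℕ} (ht : t ≤ P.G) {x : ℤ}
    (hx : -(W + 1) ≤ x) (hlt : t < P.lev2 b) : P.s2 b < -P.tau t - P.A t + P.L ^ t * x := by
  have h1 := h.s2_le hb
  have hb2 : P.lev2 b ≤ P.T + 1 := by
    have := h.T_eq
    cases b with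
    | start t => have := hb.2; simp only [lev2]; omega
    | bot => simp only [lev2]; exact le_rfl
    | copy t y => have := hb.2.1; simp only [lev2]; omega
  have h2 := h.gap hlt hb2
  have h3 : P.L ^ t * (-(W + 1)) ≤ P.L ^ t * x :=
    mul_le_mul_of_nonneg_left hx (h.pow_pos t).le
  have h4 := h.pow_le_Y ht
  have h6 := h.E_gt
  have h7 := h.hH
  have h9 := h.pow_pos (P.T + 1)
  have h10 : 0 ≤ P.L ^ t * W := mul_nonneg (h.pow_pos t).le h.hW
  simp only [A]
  linarith

/-- Slot 2: the start item of level `t` is above everything of copy `t`. -/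
theorem Ok.s2_start (h : P.Ok W E R) {t : ℕ} (hlt : P.l ≤ t) (ht : t ≤ P.G) {x : ℤ}
    (hx : x ≤ W + 1) : -P.tau t - P.A t + P.L ^ t * x ≤ P.s2 (.start t) := by
  have h3 : P.L ^ t * x ≤ P.L ^ t * (W + 1) :=
    mul_le_mul_of_nonneg_left hx (h.pow_pos t).le
  have h4 := h.pow_le_Y ht
  have h7 := h.hH
  have h5 := h.two_le_pow hlt
  have h10 : 0 ≤ P.L ^ t * W := mul_nonneg (h.pow_pos t).le h.hW
  have h11 : 0 ≤ P.L ^ t * P.w := mul_nonneg (h.pow_pos t).le h.hw
  simp only [s2, A]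
  linarith

theorem Ok.s2_copy (h : P.Ok W E R) {t : ℕ} {x y : ℤ} :
    -P.tau t - P.A t + P.L ^ t * x ≤ P.s2 (.copy t y) ↔ x ≤ y := by
  simp only [s2]
  constructor
  · intro hh
    exact le_of_mul_le_mul_left (by linarith) (h.pow_pos t)
  · intro hh
    have := mul_le_mul_of_nonneg_left hh (h.pow_pos t).le
    linarith

/-- Slot 3: `zed` is above everything of copy `t`. -/
theorem Ok.s3_zed (h : P.Ok W E R) {t : ℕ} (ht : t ≤ P.G) {x : ℤ}
    (hx : x ≤ W + 1) : P.A t + P.L ^ t * x ≤ P.s3 .zed := by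
  have h3 : P.L ^ t * x ≤ P.L ^ t * (W + 1) :=
    mul_le_mul_of_nonneg_left hx (h.pow_pos t).le
  have h4 := h.pow_le_Y ht
  have h10 : 0 ≤ P.L ^ t * W := mul_nonneg (h.pow_pos t).le h.hW
  simp only [s3, A]
  linarith

/-- Slot 3: higher copies are above everything of copy `t`. -/
theorem Ok.s3_above (h : P.Ok W E R) {s : ℕ} {y : ℤ} (hc : P.V3 R (.copy s y)) {t : ℕ} {x : ℤ}
    (hx : x ≤ W + 1) (hst : t < s) : P.A t + P.L ^ t * x ≤ P.s3 (.copy s y) := by
  have h1 := h.s3_copy_ge hc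
  have h2 : P.L ^ (t + 1) ≤ P.L ^ s := h.pow_le hst
  have h3 : P.L ^ t * x ≤ P.L ^ t * (W + 1) :=
    mul_le_mul_of_nonneg_left hx (h.pow_pos t).le
  have h4 : P.L ^ t * (2 + P.w + 2 * W) ≤ P.L ^ t * P.L :=
    mul_le_mul_of_nonneg_left (by have := h.hL; linarith) (h.pow_pos t).le
  have h10 : 0 ≤ P.L ^ t * W := mul_nonneg (h.pow_pos t).le h.hW
  rw [pow_succ] at h2
  simp only [A]
  linarith

/-- Slot 3: lower copies are below everything of copy `t`. -/
theorem Ok.s3_below (h : P.Ok W E R) {s : ℕ} {y : ℤ} (hy : y ≤ W) {t : ℕ} {x : ℤ}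
    (hx : -P.w ≤ x) (hst : s < t) : P.s3 (.copy s y) < P.A t + P.L ^ t * x := by
  have h1 : P.L ^ s * (1 + P.w + 2 * W) < P.L ^ t := h.pow_lt hst
  have h3 : P.L ^ t * (-P.w) ≤ P.L ^ t * x :=
    mul_le_mul_of_nonneg_left hx (h.pow_pos t).le
  have h4 : P.L ^ s * y ≤ P.L ^ s * W := mul_le_mul_of_nonneg_left hy (h.pow_pos s).le
  have h10 : 0 ≤ P.L ^ s * W := mul_nonneg (h.pow_pos s).le h.hW
  simp only [s3, A]
  linarith

theorem Ok.s3_copy (h : P.Ok W E R) {t : ℕ} {x y : ℤ} :
    P.A t + P.L ^ t * x ≤ P.s3 (.copy t y) ↔ x ≤ y := by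
  simp only [s3]
  constructor
  · intro hh
    exact le_of_mul_le_mul_left (by linarith) (h.pow_pos t)
  · intro hh
    have := mul_le_mul_of_nonneg_left hh (h.pow_pos t).le
    linarith

theorem Ok.g_pos (h : P.Ok W E R) : 0 < P.g := by
  have := h.hg; have := h.hH; have := h.pow_pos (P.T + 1); linarith

theorem Ok.H_pos (h : P.Ok W E R) : 0 < P.H := by
  have := h.hH; have := h.pow_pos (P.T + 1); linarith

/-- Slot 3: wires are ordered by rank, smaller rank is larger. -/
theorem Ok.s3_wire_le (h : P.Ok W E R) {r r' : ℕ} :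
    P.s3 (.wire r) ≤ P.s3 (.wire r') ↔ r' ≤ r := by
  have hg := h.g_pos
  simp only [s3]
  constructor
  · intro hh
    have h1 : P.g * (r' : ℤ) ≤ P.g * r := by linarith
    exact_mod_cast le_of_mul_le_mul_left h1 hg
  · intro hh
    have h1 : P.g * (r' : ℤ) ≤ P.g * r := mul_le_mul_of_nonneg_left (by exact_mod_cast hh) hg.le
    linarith

/-- Slot 3: wires are negative if `D ≥ 0`. -/
theorem Ok.s3_wire_neg (h : P.Ok W E R) (hD : 0 ≤ P.D) (r : ℕ) : P.s3 (.wire r) < 0 := by
  have hg := h.g_pos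
  have hH := h.H_pos
  have hl := h.hl
  simp only [s3]
  have h1 : (0 : ℤ) ≤ ((P.l : ℤ) - 1) * P.D :=
    mul_nonneg (by have : (2 : ℤ) ≤ P.l := by exact_mod_cast hl
                   linarith) hD
  have h2 : 0 ≤ P.g * (r : ℤ) := mul_nonneg hg.le (by positivity)
  linarith

/-- Slot 3: everything of a copy (from `-w` on) is positive. -/
theorem Ok.s3_copy_pos (h : P.Ok W E R) {t : ℕ} (ht : P.l ≤ t) {x : ℤ} (hx : -P.w ≤ x) :
    0 < P.A t + P.L ^ t * x := by
  have h3 : P.L ^ t * (-P.w) ≤ P.L ^ t * x :=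
    mul_le_mul_of_nonneg_left hx (h.pow_pos t).le
  have := h.two_le_pow ht
  simp only [A]
  linarith

end

end Par

end Crest.Agent.R318.Geo887
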