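import Crest.Agent.R318.Spec_135
import Crest.Agent.R318.Geo_887

/-!
Row 318, piece (a), bridge: the parameters of `Spec135` satisfy `Geo887.Par.Ok`, and the chain is a
well-formed system.
-/

set_option autoImplicit false

namespace Crest.Agent.R318.Spar887

open Crest.Agent.R318 Spec135 Geo887

variable {l : ℕ} {Cs : List (List ℕ)} {h : ℕ} {S : Sys}

/-! ### Elementary facts on the parameters -/

theorem Good.K_pos (hg : Good l Cs) : 0 < Cs.length := List.length_pos_iff.2 hg.ne_nil

theorem Good.C_le (hg : Good l Cs) {C : List ℕ} (hC : C ∈ Cs) : C.length ≤ l := by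
  have h1 : C.toFinset ⊆ Finset.range l := by
    intro i hi
    rw [List.mem_toFinset] at hi
    exact Finset.mem_range.2 (hg.lt_l C hC i hi)
  have h2 := Finset.card_le_card h1
  rwa [List.toFinset_card_of_nodup (hg.nodup C hC), Finset.card_range] at h2

theorem Good.con_le (hg : Good l Cs) (κ : ℕ) : (con Cs κ).length ≤ l :=
  Good.C_le hg (con_mem hg.ne_nil κ)

theorem Good.QQ_pos (hg : Good l Cs) : 0 < QQ l Cs.length h := by
  unfold QQ
  have := mm_pos l h; have := RR_pos l h; have := Good.K_pos hg
  positivity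

theorem Good.GG_pos (hg : Good l Cs) : 0 < GG l Cs.length h := by
  unfold GG
  have := Good.QQ_pos (h := h) hg
  have := hg.two_le
  positivity

/-- `G = 4 m K R l` -/
theorem GG_eq (l K h : ℕ) : GG l K h = 2 * (K * RR l h * (2 * (mm l h * l))) := by
  unfold GG QQ; ring

theorem l_le_GG (hg : Good l Cs) : l ≤ GG l Cs.length h := by
  unfold GG
  exact Nat.le_mul_of_pos_right _ (Good.QQ_pos hg)

theorem Good.rmax_ge (hg : Good l Cs) : 8 ≤ rmax l Cs.length h := by
  unfold rmax
  have h1 : 2 ≤ RR l h := by unfold RR; omega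
  have h2 := Good.K_pos hg
  calc 8 = 4 * 1 * 2 := by norm_num
    _ ≤ 4 * Cs.length * RR l h := by gcongr; omega

theorem code_le (l m : ℕ) (C : List ℕ) (j : ℕ) : code l m C j ≤ 3 := by
  unfold code; split_ifs <;> omega

theorem kap_lt (hg : Good l Cs) {j : ℕ} (hj : j < GG l Cs.length h) :
    kap l (mm l h) j < Cs.length * RR l h := by
  unfold kap
  have hm := mm_pos l h
  rw [Nat.div_div_eq_div_mul, Nat.div_lt_iff_lt_mul (by have := hg.two_le; positivity)]
  calc j < GG l Cs.length h := hj
    _ = _ := by unfold GG QQ; ring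

theorem kap_le (hg : Good l Cs) {j : ℕ} (hj : j ≤ GG l Cs.length h) :
    kap l (mm l h) j ≤ Cs.length * RR l h := by
  unfold kap
  have hm := mm_pos l h
  rw [Nat.div_div_eq_div_mul]
  apply Nat.div_le_of_le_mul
  calc j ≤ GG l Cs.length h := hj
    _ = _ := by unfold GG QQ; ring

theorem rho_lt (hg : Good l Cs) {j : ℕ} (hj : j < GG l Cs.length h) :
    rho l Cs h j < rmax l Cs.length h := by
  unfold rho rmax
  have h1 := kap_lt hg hj
  have h2 := code_le l (mm l h) (con Cs (kap l (mm l h) j)) j
  have h3 : 4 * Cs.length * RR l h = 4 * (Cs.length * RR l h) := by ring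
  omega

theorem rho_le (hg : Good l Cs) {j : ℕ} (hj : j ≤ GG l Cs.length h) :
    rho l Cs h j ≤ rmax l Cs.length h + 3 := by
  unfold rho rmax
  have h1 := kap_le hg hj
  have h2 := code_le l (mm l h) (con Cs (kap l (mm l h) j)) j
  have h3 : 4 * Cs.length * RR l h = 4 * (Cs.length * RR l h) := by ring
  omega

theorem eta_le (hg : Good l Cs) {t : ℕ} (ht : t ≤ T1 l Cs.length h) :
    eta l Cs h t ≤ t * (rmax l Cs.length h + 3) := by
  unfold eta
  calc ((List.range t).map (fun i =>
      if l + i * (l - 1) ≤ t then rho l Cs h (t - (l + i * (l - 1))) else 0)).sum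
      ≤ ((List.range t).map (fun i =>
      if l + i * (l - 1) ≤ t then rho l Cs h (t - (l + i * (l - 1))) else 0)).length •
        (rmax l Cs.length h + 3) := by
        apply List.sum_le_card_nsmul
        intro x hx
        simp only [List.mem_map, List.mem_range] at hx
        obtain ⟨i, _, rfl⟩ := hx
        split_ifs
        · apply rho_le hg
          unfold T1 at ht
          omega
        · exact Nat.zero_le _
    _ = t * (rmax l Cs.length h + 3) := by simp

/-- all drops of `eta` are dominated by half of `D` -/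
theorem gg_eta_le (hg : Good l Cs) {t : ℕ} (ht : t ≤ T1 l Cs.length h) :
    gg l Cs.length h S * eta l Cs h t + gg l Cs.length h S * rmax l Cs.length h +
      8 * HH l Cs.length h S + 8 * YY l Cs.length h S ≤ DD l Cs.length h S := by
  have h1 := eta_le hg ht
  have h2 := Good.rmax_ge (h := h) hg
  unfold DD
  generalize gg l Cs.length h S = g
  generalize rmax l Cs.length h = r at *
  generalize T1 l Cs.length h = T at *
  generalize eta l Cs h t = e at *
  have h3 : e ≤ T * (r + 3) := h1.trans (Nat.mul_le_mul_right _ ht)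
  have h4 : e + r ≤ 2 * (T + 2) * (r + 1) := by
    obtain ⟨r', rfl⟩ := Nat.exists_eq_add_of_le h2
    nlinarith [Nat.zero_le (T * r')]
  have h5 : g * e + g * r ≤ 2 * g * (T + 2) * (r + 1) := by
    calc g * e + g * r = g * (e + r) := by ring
      _ ≤ g * (2 * (T + 2) * (r + 1)) := Nat.mul_le_mul_left _ h4
      _ = _ := by ring
  omega

/-! ### The parameters in the sense of `Geo887` -/

/-- the parameters of the chain -/
def spar (l : ℕ) (Cs : List (List ℕ)) (h : ℕ) (S : Sys) : Par where
  l := l
  G := GG l Cs.length h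
  rho := rho l Cs h
  tau := fun t => (tau l Cs h S t : ℤ)
  D := DD l Cs.length h S
  g := gg l Cs.length h S
  H := HH l Cs.length h S
  L := Lam S
  w := S.w

@[simp] theorem spar_l : (spar l Cs h S).l = l := rfl
@[simp] theorem spar_G : (spar l Cs h S).G = GG l Cs.length h := rfl
@[simp] theorem spar_rho : (spar l Cs h S).rho = rho l Cs h := rfl
@[simp] theorem spar_tau (t : ℕ) : (spar l Cs h S).tau t = (tau l Cs h S t : ℤ) := rfl
@[simp] theorem spar_D : (spar l Cs h S).D = (DD l Cs.length h S : ℤ) := rfl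
@[simp] theorem spar_g : (spar l Cs h S).g = (gg l Cs.length h S : ℤ) := rfl
@[simp] theorem spar_H : (spar l Cs h S).H = (HH l Cs.length h S : ℤ) := rfl
@[simp] theorem spar_L : (spar l Cs h S).L = (Lam S : ℤ) := rfl
@[simp] theorem spar_w : (spar l Cs h S).w = (S.w : ℤ) := rfl

theorem spar_T (hg : Good l Cs) : (spar l Cs h S).T + 1 = T1 l Cs.length h := by
  have := hg.two_le
  unfold Par.T T1
  simp only [spar_l, spar_G]
  omega

theorem spar_Y (hg : Good l Cs) :
    (spar l Cs h S).L ^ ((spar l Cs h S).T + 1) = (YY l Cs.length h S : ℤ) := by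
  rw [spar_T hg, spar_L]
  unfold YY
  push_cast
  rfl

/-- the lower bound for the gaps -/
def sE (l : ℕ) (Cs : List (List ℕ)) (h : ℕ) (S : Sys) : ℤ :=
  gg l Cs.length h S * rmax l Cs.length h + 2 * HH l Cs.length h S + 2 * YY l Cs.length h S + 1

theorem HH_pos (l K h : ℕ) (S : Sys) : 0 < HH l K h S := by unfold HH; omega

theorem tau_zero (l : ℕ) (Cs : List (List ℕ)) (h : ℕ) (S : Sys) (hl : 2 ≤ l) :
    tau l Cs h S 0 = 0 := by
  unfold tau
  rw [eta_lt l Cs h 0 (by omega)]
  simp

theorem spar_ok (hg : Good l Cs) :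
    (spar l Cs h S).Ok S.W (sE l Cs h S) (rmax l Cs.length h) := by
  refine ⟨hg.two_le, Good.GG_pos hg, ?_, ?_, ?_, ?_, ?_, ?_, ?_, ?_⟩
  · simp
  · simp
  · simp only [spar_w, spar_L]
    unfold Lam
    push_cast
    linarith
  · rw [spar_Y hg, spar_H]
    unfold HH
    push_cast
    linarith
  · rw [spar_Y hg, spar_H, spar_g]
    unfold gg
    push_cast
    linarith
  · rw [spar_Y hg, spar_H, spar_g]
    unfold sE
    linarith
  · intro t ht
    have ht' : t + 1 ≤ T1 l Cs.length h := by
      rw [← spar_T (h := h) (S := S) hg]; omega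
    have h1 := gg_eta_le (S := S) hg (by omega : t ≤ T1 l Cs.length h)
    have h2 := HH_pos l Cs.length h S
    rw [spar_tau, spar_tau]
    unfold sE tau
    have h3 : (gg l Cs.length h S * eta l Cs h t + gg l Cs.length h S * rmax l Cs.length h +
      8 * HH l Cs.length h S + 8 * YY l Cs.length h S : ℤ) ≤ DD l Cs.length h S := by
      exact_mod_cast h1
    have h4 : (0 : ℤ) < HH l Cs.length h S := by exact_mod_cast h2
    have h5 : (0 : ℤ) ≤ YY l Cs.length h S := by positivity
    have h6 : (0 : ℤ) ≤ gg l Cs.length h S * eta l Cs h (t + 1) := by positivity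
    push_cast
    linarith
  · intro b hb hbG
    have hl := hg.two_le
    simp only [spar_l, spar_tau, spar_D, spar_g, spar_rho]
    unfold tau
    have h1 := eta_succ l Cs h (b - 1) hl
    rw [show b - 1 + l = b + (l - 1) by omega, show b - 1 + 1 = b by omega] at h1
    rw [h1]
    have h2 : ((l - 1 : ℕ) : ℤ) = (l : ℤ) - 1 := by
      rw [Nat.cast_sub (by omega)]; norm_num
    push_cast [h2]
    ring

/-! ### Tags of the members of the lists -/

theorem mem_ch1 (hg : Good l Cs) (hS : S.Wf) {y : ℤ} (hy : y ∈ ch1 l Cs h S) :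
    ∃ x : S1, (spar l Cs h S).V1 S.W x ∧ (spar l Cs h S).s1 x = y ∧
      ∀ t z, x = .copy t z → z ∈ S.I1 := by
  have hl := hg.two_le
  have hlG := l_le_GG (h := h) hg
  unfold ch1 at hy
  rw [List.mem_append, List.mem_append] at hy
  rcases hy with (hy | hy) | hy
  · obtain rfl := (List.mem_replicate.1 hy).2
    refine ⟨.bot, trivial, ?_, ?_⟩
    · simp [Par.s1, tau_zero l Cs h S hl, bot1]
    · intro t z e; cases e
  · simp only [List.mem_map, List.mem_range] at hy
    obtain ⟨j, hj, rfl⟩ := hy
    refine ⟨.node (j + l), ⟨?_, ?_⟩, ?_, ?_⟩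
    · simp
    · have := spar_T (h := h) (S := S) hg
      unfold T1 at this
      omega
    · simp [Par.s1, node]
    · intro t z e; cases e
  · simp only [List.mem_flatMap, List.mem_range, List.mem_map] at hy
    obtain ⟨i, hi, z, hz, rfl⟩ := hy
    unfold nLev at hi
    have hz' := abs_le.1 (hS.abs1 z hz)
    refine ⟨.copy (i + l) z, ⟨?_, ?_, hz'.1, hz'.2⟩, ?_, ?_⟩
    · simp
    · simp only [spar_G]; omega
    · simp [Par.s1, cop1]
    · intro t z' e; cases e; exact hz

theorem mem_ch2 (hg : Good l Cs) (hS : S.Wf) {y : ℤ} (hy : y ∈ ch2 l Cs h S) :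
    ∃ x : S2, (spar l Cs h S).V2 S.W x ∧ (spar l Cs h S).s2 x = y ∧
      ∀ t z, x = .copy t z → z ∈ S.I2 := by
  have hl := hg.two_le
  have hlG := l_le_GG (h := h) hg
  unfold ch2 at hy
  rw [List.mem_append, List.mem_append] at hy
  rcases hy with (hy | hy) | hy
  · obtain rfl := (List.mem_replicate.1 hy).2
    refine ⟨.bot, trivial, ?_, ?_⟩
    · simp [Par.s2, bot2, spar_T (h := h) (S := S) hg]
    · intro t z e; cases e
  · simp only [List.mem_map, List.mem_range] at hy
    obtain ⟨j, hj, rfl⟩ := hy
    refine ⟨.start (j + 1), ⟨?_, ?_⟩, ?_, ?_⟩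
    · omega
    · simp only [spar_G]; omega
    · simp [Par.s2, start]
    · intro t z e; cases e
  · simp only [List.mem_flatMap, List.mem_range, List.mem_map] at hy
    obtain ⟨i, hi, z, hz, rfl⟩ := hy
    unfold nLev at hi
    have hz' := abs_le.1 (hS.abs2 z hz)
    refine ⟨.copy (i + l) z, ⟨?_, ?_, hz'.1, hz'.2⟩, ?_, ?_⟩
    · simp
    · simp only [spar_G]; omega
    · simp [Par.s2, cop2, Par.A, AA]
    · intro t z' e; cases e; exact hz

theorem s3_wire_eq (hl : 2 ≤ l) (r : ℕ) :
    (spar l Cs h S).s3 (.wire r) = wire l Cs.length h S r := by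
  have h2 : ((l - 1 : ℕ) : ℤ) = (l : ℤ) - 1 := by
    rw [Nat.cast_sub (by omega)]; norm_num
  simp only [Par.s3, wire, drop, spar_l, spar_D, spar_g, spar_H]
  push_cast [h2]
  ring

theorem s3_zed_eq (hg : Good l Cs) : (spar l Cs h S).s3 .zed = zed l Cs.length h S := by
  simp only [Par.s3, zed]
  rw [spar_Y hg]

theorem s3_copy_eq (t : ℕ) (z : ℤ) : (spar l Cs h S).s3 (.copy t z) = cop3 S t z := by
  simp [Par.s3, cop3, Par.A, AA]

theorem mem_ch3 (hg : Good l Cs) (hS : S.Wf) {y : ℤ} (hy : y ∈ ch3 l Cs h S) :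
    ∃ x : S3, (spar l Cs h S).V3 (rmax l Cs.length h) x ∧ (spar l Cs h S).s3 x = y ∧
      (∀ t z, x = .copy t z → z ∈ S.I3) ∧ (∀ r, x = .wire r → r < rmax l Cs.length h) := by
  have hl := hg.two_le
  have hlG := l_le_GG (h := h) hg
  unfold ch3 at hy
  rw [List.mem_append, List.mem_append] at hy
  rcases hy with (hy | hy) | hy
  · obtain rfl := (List.mem_replicate.1 hy).2
    refine ⟨.zed, trivial, s3_zed_eq hg, ?_, ?_⟩
    · intro t z e; cases e
    · intro r e; cases e
  · simp only [List.mem_flatMap, List.mem_range] at hy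
    obtain ⟨κ, hκ, hy⟩ := hy
    have hrm : 4 * κ + 3 < rmax l Cs.length h := by
      unfold rmax
      have : 4 * Cs.length * RR l h = 4 * (Cs.length * RR l h) := by ring
      omega
    have key : ∃ r, r ≤ 4 * κ + 3 ∧ y = wire l Cs.length h S r := by
      unfold wireBlock at hy
      rw [List.mem_append, List.mem_append, List.mem_append] at hy
      rcases hy with ((hy | hy) | hy) | hy
      · exact ⟨4 * κ, by omega, (List.mem_replicate.1 hy).2⟩
      · exact ⟨4 * κ + 1, by omega, (List.mem_replicate.1 hy).2⟩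
      · exact ⟨4 * κ + 2, by omega, (List.mem_replicate.1 hy).2⟩
      · exact ⟨4 * κ + 3, by omega, (List.mem_replicate.1 hy).2⟩
    obtain ⟨r, hr, rfl⟩ := key
    refine ⟨.wire r, ?_, s3_wire_eq hl r, ?_, ?_⟩
    · change r ≤ _; omega
    · intro t z e; cases e
    · intro r' e; cases e; omega
  · simp only [List.mem_flatMap, List.mem_range, List.mem_map] at hy
    obtain ⟨i, hi, z, hz, rfl⟩ := hy
    unfold nLev at hi
    refine ⟨.copy (i + l) z, ⟨?_, ?_, ?_⟩, s3_copy_eq _ _, ?_, ?_⟩
    · simp
    · simp only [spar_G]; omega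
    · simpa using hS.neg_w_le z hz
    · intro t z' e; cases e; exact hz
    · intro r e; cases e

/-! ### Lengths -/

theorem length_ch1 : (ch1 l Cs h S).length =
    l / 2 + GG l Cs.length h + nLev l Cs.length h * S.I1.length := by
  simp [ch1, List.length_flatMap, Nat.add_assoc]

theorem length_ch2 : (ch2 l Cs h S).length =
    l / 2 + GG l Cs.length h + nLev l Cs.length h * S.I2.length := by
  simp [ch2, List.length_flatMap, Nat.add_assoc]

theorem length_wireBlock (hg : Good l Cs) (κ : ℕ) :
    (wireBlock l Cs h S κ).length = 2 * (mm l h * l) := by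
  have h1 := Good.con_le hg κ
  simp only [wireBlock, List.length_append, List.length_replicate]
  obtain ⟨d, hd⟩ := Nat.exists_eq_add_of_le h1
  have h2 : l - (con Cs κ).length = d := by omega
  rw [h2]
  generalize mm l h = m
  rw [hd]
  generalize (con Cs κ).length = c
  ring

theorem length_wires (hg : Good l Cs) (n : ℕ) :
    ((List.range n).flatMap (wireBlock l Cs h S)).length = n * (2 * (mm l h * l)) := by
  rw [List.length_flatMap]
  simp only [length_wireBlock hg, List.map_const', List.sum_replicate, List.length_range, smul_eq_mul]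

theorem length_ch3 (hg : Good l Cs) : (ch3 l Cs h S).length =
    l / 2 + GG l Cs.length h + nLev l Cs.length h * S.I3.length := by
  have h1 := length_wires (h := h) (S := S) hg (Cs.length * RR l h)
  have h2 := GG_eq l Cs.length h
  have h3 := hg.even_l
  obtain ⟨l', hl'⟩ := h3
  simp only [ch3, List.length_append, List.length_replicate, h1]
  have h4 : ((List.range (nLev l Cs.length h)).flatMap
      (fun i => S.I3.map (cop3 S (i + l)))).length = nLev l Cs.length h * S.I3.length := by
    simp [List.length_flatMap]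
  rw [h4]
  unfold T1
  omega

/-! ### Bounds -/

/-- everything in the chain is bounded by `(T1 + 3) D` -/
theorem tau_le (hg : Good l Cs) {t : ℕ} (ht : t ≤ T1 l Cs.length h) :
    (tau l Cs h S t : ℤ) + 8 * HH l Cs.length h S + 8 * YY l Cs.length h S ≤
      (T1 l Cs.length h + 1) * DD l Cs.length h S := by
  have h1 := gg_eta_le (S := S) hg ht
  have h2 : tau l Cs h S t + 8 * HH l Cs.length h S + 8 * YY l Cs.length h S ≤
      (T1 l Cs.length h + 1) * DD l Cs.length h S := by
    unfold tau
    have h3 : t * DD l Cs.length h S ≤ T1 l Cs.length h * DD l Cs.length h S :=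
      Nat.mul_le_mul_right _ ht
    have h4 : (T1 l Cs.length h + 1) * DD l Cs.length h S =
      T1 l Cs.length h * DD l Cs.length h S + DD l Cs.length h S := by ring
    omega
  exact_mod_cast h2

/-- copies are small -/
theorem copy_small (hg : Good l Cs) {t : ℕ} (ht : t ≤ GG l Cs.length h) {z : ℤ}
    (hz : |z| ≤ (S.W : ℤ)) :
    |(Lam S : ℤ) ^ t * z| ≤ YY l Cs.length h S ∧ |AA S t| ≤ YY l Cs.length h S := by
  have hl := hg.two_le
  have ok := spar_ok (h := h) (S := S) hg
  have h1 : (Lam S : ℤ) ^ t * (1 + S.w + 2 * S.W) < (YY l Cs.length h S : ℤ) := by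
    have := ok.pow_lt (s := (spar l Cs h S).T + 1) (t := t) (by
      rw [spar_T hg]; unfold T1; omega)
    rwa [spar_Y hg] at this
  have h2 : (0 : ℤ) < (Lam S : ℤ) ^ t := ok.pow_pos t
  have h3 : (0 : ℤ) ≤ S.w := by positivity
  have h4 : (0 : ℤ) ≤ S.W := by positivity
  constructor
  · rw [abs_mul, abs_of_pos h2]
    have h5 : (Lam S : ℤ) ^ t * |z| ≤ (Lam S : ℤ) ^ t * (1 + S.w + 2 * S.W) :=
      mul_le_mul_of_nonneg_left (by linarith) h2.le
    linarith
  · unfold AA
    have h5 : (Lam S : ℤ) ^ t * (1 + S.w) ≤ (Lam S : ℤ) ^ t * (1 + S.w + 2 * S.W) :=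
      mul_le_mul_of_nonneg_left (by linarith) h2.le
    have h6 : (Lam S : ℤ) ^ t * 1 ≤ (Lam S : ℤ) ^ t * (1 + S.w) :=
      mul_le_mul_of_nonneg_left (by linarith) h2.le
    rw [abs_le]
    constructor
    · have : (4 : ℤ) ≤ YY l Cs.length h S := by
        have := ok.two_le_pow (t := (spar l Cs h S).T + 1) (by
          rw [spar_T hg, spar_l]; unfold T1; omega)
        rwa [spar_Y hg] at this
      linarith
    · linarith

theorem drop_le (hg : Good l Cs) : drop l Cs.length h S (rmax l Cs.length h) ≤
    (T1 l Cs.length h + 1) * DD l Cs.length h S := by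
  have h1 := gg_eta_le (S := S) hg (Nat.zero_le (T1 l Cs.length h))
  have hl := hg.two_le
  unfold drop
  have h2 : (l - 1) * DD l Cs.length h S ≤ T1 l Cs.length h * DD l Cs.length h S :=
    Nat.mul_le_mul_right _ (by unfold T1; omega)
  have h4 : (T1 l Cs.length h + 1) * DD l Cs.length h S =
    T1 l Cs.length h * DD l Cs.length h S + DD l Cs.length h S := by ring
  omega

theorem drop_mono {r r' : ℕ} (hr : r ≤ r') (K : ℕ) : drop l K h S r ≤ drop l K h S r' := by
  unfold drop
  gcongr

theorem YY_le_DD (hg : Good l Cs) :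
    (8 * HH l Cs.length h S + 8 * YY l Cs.length h S : ℤ) ≤ DD l Cs.length h S := by
  have h1 := gg_eta_le (S := S) hg (Nat.zero_le (T1 l Cs.length h))
  have h2 : 8 * HH l Cs.length h S + 8 * YY l Cs.length h S ≤ DD l Cs.length h S := by omega
  exact_mod_cast h2

theorem chain_wf (hg : Good l Cs) (hS : S.Wf) : (chain l Cs h S).Wf := by
  have hl := hg.two_le
  have hlG := l_le_GG (h := h) hg
  have hY0 : (0 : ℤ) ≤ YY l Cs.length h S := by positivity
  have hH0 : (0 : ℤ) < HH l Cs.length h S := by exact_mod_cast HH_pos _ _ _ _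
  have hYD := YY_le_DD (h := h) (S := S) hg
  have hW : ((chain l Cs h S).W : ℤ) =
      (T1 l Cs.length h + 1) * DD l Cs.length h S + 2 * DD l Cs.length h S := by
    simp only [chain]; push_cast; ring
  have hdrop := drop_le (h := h) (S := S) hg
  have hT0 : (0 : ℤ) ≤ (T1 l Cs.length h + 1) * DD l Cs.length h S := by positivity
  refine ⟨?_, ?_, ?_, ?_, ?_, ?_, ?_⟩
  · change (ch2 l Cs h S).length = (ch1 l Cs h S).length
    rw [length_ch1, length_ch2, hS.len2]
  · change (ch3 l Cs h S).length = (ch1 l Cs h S).length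
    rw [length_ch1, length_ch3 hg, hS.len3]
  · intro y hy
    obtain ⟨x, hV, rfl, hx⟩ := mem_ch1 hg hS hy
    rw [hW]
    cases x with
    | node t =>
      obtain ⟨h1, h2⟩ := hV
      have ht : t ≤ T1 l Cs.length h := by rw [← spar_T (h := h) (S := S) hg]; omega
      have h3 := tau_le (S := S) hg ht
      simp only [Par.s1, spar_tau, spar_H]
      have h4 : (0 : ℤ) ≤ tau l Cs h S t := by positivity
      rw [abs_of_nonneg (by linarith)]
      linarith
    | copy t z =>
      obtain ⟨h1, h2, _, _⟩ := hV
      have ht : t ≤ T1 l Cs.length h := by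
        rw [spar_G] at h2; unfold T1; omega
      have h3 := tau_le (S := S) hg ht
      have h5 := (copy_small hg h2 (hS.abs1 z (hx t z rfl))).1
      have h6 := abs_le.1 h5
      simp only [Par.s1, spar_tau, spar_L]
      have h4 : (0 : ℤ) ≤ tau l Cs h S t := by positivity
      rw [abs_le]
      constructor <;> linarith
    | bot =>
      simp only [Par.s1, spar_tau, tau_zero l Cs h S hl]
      simp only [Nat.cast_zero, abs_zero]
      linarith
  · intro y hy
    obtain ⟨x, hV, rfl, hx⟩ := mem_ch2 hg hS hy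
    rw [hW]
    cases x with
    | start t =>
      obtain ⟨h1, h2⟩ := hV
      have ht : t ≤ T1 l Cs.length h := by
        rw [spar_G] at h2; unfold T1; omega
      have h3 := tau_le (S := S) hg ht
      simp only [Par.s2, spar_tau, spar_H]
      have h4 : (0 : ℤ) ≤ tau l Cs h S t := by positivity
      rw [abs_le]
      constructor <;> linarith
    | copy t z =>
      obtain ⟨h1, h2, _, _⟩ := hV
      have ht : t ≤ T1 l Cs.length h := by
        rw [spar_G] at h2; unfold T1; omega
      have h3 := tau_le (S := S) hg ht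
      have h5 := copy_small hg h2 (hS.abs2 z (hx t z rfl))
      have h6 := abs_le.1 h5.1
      have h7 := abs_le.1 h5.2
      have h8 : (spar l Cs h S).A t = AA S t := rfl
      simp only [Par.s2, spar_tau, spar_L, h8]
      have h4 : (0 : ℤ) ≤ tau l Cs h S t := by positivity
      rw [abs_le]
      constructor <;> linarith
    | bot =>
      have h3 := tau_le (S := S) hg (le_refl (T1 l Cs.length h))
      simp only [Par.s2, spar_tau, spar_T (h := h) (S := S) hg]
      rw [abs_neg, abs_of_nonneg (by positivity)]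
      linarith
  · intro y hy
    obtain ⟨x, hV, rfl, hx, hr⟩ := mem_ch3 hg hS hy
    rw [hW]
    cases x with
    | zed =>
      rw [s3_zed_eq hg]
      unfold zed
      rw [abs_le]
      constructor <;> linarith
    | copy t z =>
      obtain ⟨h1, h2, _⟩ := hV
      have h5 := copy_small hg h2 (hS.abs3 z (hx t z rfl))
      have h6 := abs_le.1 h5.1
      have h7 := abs_le.1 h5.2
      rw [s3_copy_eq]
      unfold cop3
      rw [abs_le]
      constructor <;> linarith
    | wire r =>
      have hr' := hr r rfl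
      rw [s3_wire_eq hl]
      unfold wire
      rw [abs_neg, abs_of_nonneg (by positivity)]
      have h9 : drop l Cs.length h S r ≤ (T1 l Cs.length h + 1) * DD l Cs.length h S :=
        (drop_mono hr'.le _).trans hdrop
      have h10 : (drop l Cs.length h S r : ℤ) ≤
        (T1 l Cs.length h + 1) * DD l Cs.length h S := by exact_mod_cast h9
      linarith
  · change drop l Cs.length h S (rmax l Cs.length h) ≤ (T1 l Cs.length h + 3) * DD l Cs.length h S
    exact hdrop.trans (Nat.mul_le_mul_right _ (by omega))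
  · intro y hy
    obtain ⟨x, hV, rfl, hx, hr⟩ := mem_ch3 hg hS hy
    change -(drop l Cs.length h S (rmax l Cs.length h) : ℤ) ≤ _
    have hd0 : (2 * HH l Cs.length h S : ℤ) ≤ drop l Cs.length h S (rmax l Cs.length h) := by
      have : 2 * HH l Cs.length h S ≤ drop l Cs.length h S (rmax l Cs.length h) := by
        unfold drop; omega
      exact_mod_cast this
    have hYH : (YY l Cs.length h S : ℤ) + 1 = HH l Cs.length h S := by
      unfold HH; push_cast; ring
    cases x with
    | zed =>
      rw [s3_zed_eq hg]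
      unfold zed
      linarith
    | copy t z =>
      obtain ⟨h1, h2, h3⟩ := hV
      have ok := spar_ok (h := h) (S := S) hg
      rw [s3_copy_eq]
      unfold cop3 AA
      have hp : (0 : ℤ) < (Lam S : ℤ) ^ t := ok.pow_pos t
      have h4 : (Lam S : ℤ) ^ t * (-(S.w : ℤ)) ≤ (Lam S : ℤ) ^ t * z :=
        mul_le_mul_of_nonneg_left h3 hp.le
      have h5 : (Lam S : ℤ) ^ t * (1 + S.w) = (Lam S : ℤ) ^ t - (Lam S : ℤ) ^ t * (-(S.w : ℤ)) := by
        ring
      linarith
    | wire r =>
      have hr' := hr r rfl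
      rw [s3_wire_eq hl]
      unfold wire
      have : drop l Cs.length h S r ≤ drop l Cs.length h S (rmax l Cs.length h) :=
        drop_mono hr'.le _
      have : (drop l Cs.length h S r : ℤ) ≤ drop l Cs.length h S (rmax l Cs.length h) := by
        exact_mod_cast this
      linarith

theorem sys_wf (hg : Good l Cs) (k h : ℕ) : (sys l Cs k h).Wf := by
  induction k generalizing h with
  | zero => exact wf_S0
  | succ k ih => exact chain_wf hg (ih _)

end Crest.Agent.R318.Spar887
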