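import Mathlib
import Crest.Agent.R318.Core_834
import Crest.Agent.R318.Spec_135

/-!
# Row 318 (S0492, S0493): glue between the combinatorial core (Core_834) and the specification
(Spec_135): ranks, HALF solutions, count of the wire items.
-/

set_option autoImplicit false
set_option linter.dupNamespace false

namespace Crest.Agent.R318.Glue834

open Finset
open Crest.Agent.R318.Spec135 (Good HalfSol con mm RR QQ GG T1 rmax Sys wireBlock wire b0)

/-! ### ranks -/

theorem kap_eq (l m j : ℕ) : Spec135.kap l m j = Core834.kap l (2 * m) j := by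
  unfold Spec135.kap Core834.kap
  congr 1
  ring

theorem code_eq (l m : ℕ) (C : List ℕ) (j : ℕ) :
    Spec135.code l m C j = Core834.code l (2 * m) C.toFinset j := by
  unfold Spec135.code Core834.code
  have h : 2 * (2 * m) = 4 * m := by ring
  simp only [h, List.mem_toFinset]

theorem con_mod (Cs : List (List ℕ)) (κ : ℕ) : con Cs (κ % Cs.length) = con Cs κ := by
  unfold con
  rw [Nat.mod_mod]

theorem rho_eq (l : ℕ) (Cs : List (List ℕ)) (h j : ℕ) :
    Spec135.rho l Cs h j =
      Core834.rho l Cs.length (2 * mm l h) (fun k => (con Cs k).toFinset) j := by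
  unfold Spec135.rho Core834.rho
  simp only [con_mod]
  rw [kap_eq, code_eq]

theorem GG_eq (l K h : ℕ) : GG l K h = l * (2 * (2 * mm l h) * K * RR l h) := by
  unfold GG QQ
  ring

theorem GG_eq' (l K h : ℕ) : GG l K h = K * RR l h * (4 * mm l h) * l := by
  unfold GG QQ
  ring

theorem even_GG (l K h : ℕ) : GG l K h = 2 * (l * (2 * mm l h * K * RR l h)) := by
  unfold GG QQ
  ring

theorem GG_pos {l K h : ℕ} (hl : 0 < l) (hK : 0 < K) : 0 < GG l K h := by
  unfold GG QQ mm RR
  positivity

/-- the rank of a segment is `< rmax` -/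
theorem rho_lt (l : ℕ) (Cs : List (List ℕ)) (h j : ℕ) (hj : j < GG l Cs.length h) :
    Spec135.rho l Cs h j < rmax l Cs.length h := by
  have h1 : Core834.kap l (2 * mm l h) j < Cs.length * RR l h := by
    apply Core834.kap_lt
    rw [GG_eq'] at hj
    calc j < _ := hj
      _ = _ := by ring
  have h2 := Core834.code_le l (2 * mm l h)
    (con Cs (Core834.kap l (2 * mm l h) j % Cs.length)).toFinset j
  rw [rho_eq]
  unfold Core834.rho rmax
  have h3 : 4 * (Core834.kap l (2 * mm l h) j + 1) ≤ 4 * (Cs.length * RR l h) :=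
    Nat.mul_le_mul_left _ h1
  have h4 : 4 * Cs.length * RR l h = 4 * (Cs.length * RR l h) := by ring
  rw [h4]
  simp only
  omega

/-! ### HALF instances -/

theorem length_pos {l : ℕ} {Cs : List (List ℕ)} (hg : Good l Cs) : 0 < Cs.length :=
  List.length_pos_iff.2 hg.ne_nil

theorem con_nodup {l : ℕ} {Cs : List (List ℕ)} (hg : Good l Cs) (κ : ℕ) : (con Cs κ).Nodup :=
  hg.nodup _ (Spec135.con_mem hg.ne_nil κ)

theorem con_card {l : ℕ} {Cs : List (List ℕ)} (hg : Good l Cs) (κ : ℕ) :
    (con Cs κ).toFinset.card = (con Cs κ).length :=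
  List.toFinset_card_of_nodup (con_nodup hg κ)

theorem con_sub {l : ℕ} {Cs : List (List ℕ)} (hg : Good l Cs) (κ : ℕ) :
    (con Cs κ).toFinset ⊆ range l := by
  intro i hi
  rw [List.mem_toFinset] at hi
  exact mem_range.2 (hg.lt_l _ (Spec135.con_mem hg.ne_nil κ) i hi)

theorem con_length_le {l : ℕ} {Cs : List (List ℕ)} (hg : Good l Cs) (κ : ℕ) :
    (con Cs κ).length ≤ l := by
  rw [← con_card hg κ]
  calc _ ≤ (range l).card := card_le_card (con_sub hg κ)
    _ = l := card_range l

theorem con_even {l : ℕ} {Cs : List (List ℕ)} (hg : Good l Cs) (κ : ℕ) :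
    Even (con Cs κ).length :=
  hg.even_C _ (Spec135.con_mem hg.ne_nil κ)

/-- every constraint is some `con Cs k`, `k < K` -/
theorem exists_con {Cs : List (List ℕ)} {C : List ℕ} (hC : C ∈ Cs) :
    ∃ k < Cs.length, con Cs k = C := by
  obtain ⟨k, hk, rfl⟩ := List.getElem_of_mem hC
  refine ⟨k, hk, ?_⟩
  unfold con
  rw [Nat.mod_eq_of_lt hk, List.getD_eq_getElem _ _ hk]

/-! ### wire ranks -/

/-- the ranks of the wire items of block `κ` -/
def rankBlock (l : ℕ) (Cs : List (List ℕ)) (h : ℕ) (κ : ℕ) : List ℕ :=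
  List.replicate (mm l h * (con Cs κ).length) (4 * κ) ++
  List.replicate (mm l h * (l - (con Cs κ).length)) (4 * κ + 1) ++
  List.replicate (mm l h * (l - (con Cs κ).length)) (4 * κ + 2) ++
  List.replicate (mm l h * (con Cs κ).length) (4 * κ + 3)

/-- the ranks of all wire items -/
def wr (l : ℕ) (Cs : List (List ℕ)) (h : ℕ) : List ℕ :=
  (List.range (Cs.length * RR l h)).flatMap (rankBlock l Cs h)

theorem wireBlock_eq (l : ℕ) (Cs : List (List ℕ)) (h : ℕ) (S : Sys) (κ : ℕ) :
    wireBlock l Cs h S κ = (rankBlock l Cs h κ).map (wire l Cs.length h S) := by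
  simp [wireBlock, rankBlock]

/-- the wire part of `ch3` -/
theorem wires_eq (l : ℕ) (Cs : List (List ℕ)) (h : ℕ) (S : Sys) :
    (List.range (Cs.length * RR l h)).flatMap (wireBlock l Cs h S) =
      (wr l Cs h).map (wire l Cs.length h S) := by
  rw [wr, List.map_flatMap]
  congr 1
  funext κ
  exact wireBlock_eq l Cs h S κ

theorem sum_map_range {α : Type*} [AddCommMonoid α] (f : ℕ → α) (n : ℕ) :
    ((List.range n).map f).sum = ∑ i ∈ range n, f i := by
  induction n with
  | zero => simp
  | succ n ih => rw [List.range_succ, List.map_append, List.sum_append, ih, sum_range_succ]; simp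

theorem countP_rankBlock (l : ℕ) (Cs : List (List ℕ)) (h : ℕ) (κ : ℕ) (p : ℕ → Prop)
    [DecidablePred p] :
    (rankBlock l Cs h κ).countP (fun x => decide (p x)) =
      mm l h * ((con Cs κ).length * ((if p (4 * κ) then 1 else 0) + (if p (4 * κ + 3) then 1 else 0)) +
        (l - (con Cs κ).length) *
          ((if p (4 * κ + 1) then 1 else 0) + (if p (4 * κ + 2) then 1 else 0))) := by
  unfold rankBlock
  simp only [List.countP_append, List.countP_replicate, decide_eq_true_eq]
  split_ifs <;> ring

/-- sum over one row of a block -/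
theorem sum_row {l : ℕ} (c : Finset ℕ) (hc : c ⊆ range l) (x y : ℕ) :
    (∑ r ∈ range l, if r ∈ c then x else y) = c.card * x + (l - c.card) * y := by
  rw [sum_ite, sum_const, sum_const, smul_eq_mul, smul_eq_mul]
  have h1 : (range l).filter (fun r => r ∈ c) = c := by
    ext r; simp only [mem_filter]; exact ⟨fun h => h.2, fun h => ⟨hc h, h⟩⟩
  have h2 : ((range l).filter (fun r => r ∉ c)).card = l - c.card := by
    have : (range l).filter (fun r => r ∉ c) = range l \ c := by
      ext r; simp only [mem_filter, mem_sdiff]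
    rw [this, card_sdiff_of_subset hc, card_range]
  rw [h1, h2]

/-- **count of the wire items**: half of the segments, for every set of ranks -/
theorem count_wr {l : ℕ} {Cs : List (List ℕ)} (hg : Good l Cs) (h : ℕ) (p : ℕ → Prop)
    [DecidablePred p] :
    ((range (GG l Cs.length h)).filter (fun j => p (Spec135.rho l Cs h j))).card =
      2 * (wr l Cs h).countP (fun x => decide (p x)) := by
  have hl : 0 < l := by have := hg.two_le; omega
  rw [card_filter, GG_eq', Core834.sum_range_mul, Core834.sum_range_mul]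
  unfold wr
  rw [List.countP_flatMap, sum_map_range, mul_sum]
  refine sum_congr rfl fun κ _ => ?_
  have e : ∀ q ∈ range (4 * mm l h), ∀ r ∈ range l,
      (if p (Spec135.rho l Cs h ((κ * (4 * mm l h) + q) * l + r)) then 1 else 0 : ℕ) =
      if q < 2 * mm l h then (if r ∈ (con Cs κ).toFinset then (if p (4 * κ) then 1 else 0)
        else (if p (4 * κ + 1) then 1 else 0)) else (if r ∈ (con Cs κ).toFinset then
          (if p (4 * κ + 3) then 1 else 0) else (if p (4 * κ + 2) then 1 else 0)) := by
    intro q hq r hr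
    have hq' := mem_range.1 hq
    have hr' := mem_range.1 hr
    have e1 : (κ * (4 * mm l h) + q) = (κ * (2 * (2 * mm l h)) + q) := by ring
    have e2 : q < 2 * (2 * mm l h) := by omega
    rw [rho_eq, e1]
    unfold Core834.rho
    rw [Core834.kap_block hl e2 hr', Core834.code_block hl _ e2 hr']
    simp only [con_mod]
    split_ifs <;> simp_all
  rw [sum_congr rfl fun q hq => sum_congr rfl fun r hr => e q hq r hr]
  rw [show 4 * mm l h = 2 * mm l h + 2 * mm l h by ring, sum_range_add]
  have e3 : ∀ q ∈ range (2 * mm l h), (∑ r ∈ range l,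
      if q < 2 * mm l h then (if r ∈ (con Cs κ).toFinset then (if p (4 * κ) then 1 else 0)
        else (if p (4 * κ + 1) then 1 else 0)) else (if r ∈ (con Cs κ).toFinset then
          (if p (4 * κ + 3) then 1 else 0) else (if p (4 * κ + 2) then 1 else 0))) =
      (con Cs κ).length * (if p (4 * κ) then 1 else 0) + (l - (con Cs κ).length) *
        (if p (4 * κ + 1) then 1 else 0) := by
    intro q hq
    simp only [if_pos (mem_range.1 hq)]
    rw [sum_row _ (con_sub hg κ), con_card hg κ]
  have e4 : ∀ q ∈ range (2 * mm l h), (∑ r ∈ range l,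
      if 2 * mm l h + q < 2 * mm l h then (if r ∈ (con Cs κ).toFinset then
        (if p (4 * κ) then 1 else 0)
        else (if p (4 * κ + 1) then 1 else 0)) else (if r ∈ (con Cs κ).toFinset then
          (if p (4 * κ + 3) then 1 else 0) else (if p (4 * κ + 2) then 1 else 0))) =
      (con Cs κ).length * (if p (4 * κ + 3) then 1 else 0) + (l - (con Cs κ).length) *
        (if p (4 * κ + 2) then 1 else 0) := by
    intro q _
    have hn : ¬ (2 * mm l h + q < 2 * mm l h) := by omega
    simp only [if_neg hn]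
    rw [sum_row _ (con_sub hg κ), con_card hg κ]
  rw [sum_congr rfl e3, sum_congr rfl e4, sum_const, sum_const, card_range, smul_eq_mul,
    smul_eq_mul]
  simp only [Function.comp]
  rw [countP_rankBlock]
  ring

/-- the number of wire items is `G / 2` -/
theorem length_wr {l : ℕ} {Cs : List (List ℕ)} (hg : Good l Cs) (h : ℕ) :
    2 * (wr l Cs h).length = GG l Cs.length h := by
  have := count_wr hg h (fun _ => True)
  simp only [filter_true, card_range, decide_true] at this
  rw [this, List.countP_true]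

theorem mem_wr_lt {l : ℕ} {Cs : List (List ℕ)} {h r : ℕ} (hr : r ∈ wr l Cs h) :
    r < rmax l Cs.length h := by
  unfold wr at hr
  rw [List.mem_flatMap] at hr
  obtain ⟨κ, hκ, hr⟩ := hr
  have hκ' := List.mem_range.1 hκ
  have h1 : 4 * (κ + 1) ≤ 4 * (Cs.length * RR l h) := Nat.mul_le_mul_left _ hκ'
  have h2 : 4 * (Cs.length * RR l h) = rmax l Cs.length h := by unfold rmax; ring
  unfold rankBlock at hr
  simp only [List.mem_append, List.mem_replicate] at hr
  omega

/-! ### the core in the parameters of the specification -/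

/-- `core` with the parameters of the specification -/
theorem core135 {ι : Type*} (s : Finset ι) (b a rk : ι → ℕ) (l h : ℕ) (Cs : List (List ℕ))
    (hg : Good l Cs)
    (hab : ∀ i ∈ s, 1 ≤ b i ∧ b i ≤ a i ∧ a i ≤ b i + (l - 1))
    (hrk : ∀ i ∈ s, a i = b i + (l - 1) → Spec135.rho l Cs h (b i - 1) ≤ rk i)
    (hX : ∀ t, l ≤ t → t ≤ GG l Cs.length h →
      l / 2 ≤ (s.filter (fun i => b i ≤ t ∧ t ≤ a i)).card)
    (hZ : 2 * s.card ≤ 2 * h + GG l Cs.length h)
    (hsuf : ∀ r, 2 * (s.filter (fun i => r < rk i)).card ≤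
      2 * h + ((range (GG l Cs.length h)).filter (fun j => r < Spec135.rho l Cs h j)).card) :
    ∃ f : ℕ → ℕ, HalfSol l Cs f := by
  obtain ⟨f, hf1, hf2⟩ := Core834.core s b a rk l Cs.length (2 * mm l h) (RR l h) h
    (fun k => (con Cs k).toFinset) hg.two_le hg.even_l (length_pos hg)
    (fun k _ => ⟨con_sub hg k, by rw [con_card hg k]; exact con_even hg k⟩)
    (by unfold mm b0; omega) (by unfold RR b0; omega) hab
    (fun i hi hi2 => by rw [← rho_eq]; exact hrk i hi hi2)
    (fun t h1 h2 => hX t h1 (by rw [GG_eq]; exact h2))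
    (by rw [← GG_eq]; exact hZ)
    (fun r => by
      rw [← GG_eq]
      simp only [← rho_eq]
      exact hsuf r)
  refine ⟨f, hf1, fun C hC => ?_⟩
  obtain ⟨k, hk, rfl⟩ := exists_con hC
  have h1 := hf2 k hk
  rw [con_card hg k] at h1
  have h2 : ∑ r ∈ (con Cs k).toFinset, f r = ((con Cs k).map f).sum :=
    List.sum_toFinset f (con_nodup hg k)
  rw [h2] at h1
  omega

/-- `core135` with the counts of the wire items -/
theorem core135' {ι : Type*} (s : Finset ι) (b a rk : ι → ℕ) (l h : ℕ) (Cs : List (List ℕ))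
    (hg : Good l Cs)
    (hab : ∀ i ∈ s, 1 ≤ b i ∧ b i ≤ a i ∧ a i ≤ b i + (l - 1))
    (hrk : ∀ i ∈ s, a i = b i + (l - 1) → Spec135.rho l Cs h (b i - 1) ≤ rk i)
    (hX : ∀ t, l ≤ t → t ≤ GG l Cs.length h →
      l / 2 ≤ (s.filter (fun i => b i ≤ t ∧ t ≤ a i)).card)
    (hZ : s.card ≤ h + (wr l Cs h).length)
    (hsuf : ∀ r, (s.filter (fun i => r < rk i)).card ≤
      h + (wr l Cs h).countP (fun x => decide (r < x))) :
    ∃ f : ℕ → ℕ, HalfSol l Cs f := by
  refine core135 s b a rk l h Cs hg hab hrk hX ?_ ?_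
  · have := length_wr hg h
    omega
  · intro r
    have h1 := count_wr hg h (fun x => r < x)
    have h2 := hsuf r
    omega

end Crest.Agent.R318.Glue834
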