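import Crest.Agent.R318.Acc_75
import Crest.Agent.R318.Spar_887
import Crest.Agent.R318.Glue_834

/-!
# Row 318 (S0493): the robustness step for the interval chain

`step : Good l Cs → S.Wf → Rob S k (hNext l Cs.length k h) → (¬ ∃ f, HalfSol l Cs f) →
  Rob (chain l Cs h S) (k + 1) h`.
-/

set_option autoImplicit false

namespace Crest.Agent.R318.Step75

open Finset Crest.Agent.R318.Spec135 Crest.Agent.R318.Spar887
open Crest.Agent.R318.Geo887 (S1 S2 S3 Par)

/-! ### generic lemmas on lists -/

theorem cov_ext {ι : Type} {o : ℤ} {I : List ℤ} {s : Finset ι} {y : ι → ℤ} (hc : Cov o I s y)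
    (x : ℤ) (hx : 0 ≤ o ∨ ∃ z ∈ I, x ≤ z) :
    (I.countP (fun z => decide (x ≤ z)) : ℤ) ≤ o + ((s.filter (fun i => x ≤ y i)).card : ℤ) := by
  by_cases hz : ∃ z ∈ I, x ≤ z
  · obtain ⟨z, hz, hxz⟩ := hz
    obtain ⟨m, hm, hmin⟩ := (I.toFinset.filter (fun z => x ≤ z)).exists_min_image id
      ⟨z, by simp [hz, hxz]⟩
    simp only [mem_filter, List.mem_toFinset, id] at hm hmin
    have h1 := hc m hm.1
    have h2 : I.countP (fun z => decide (x ≤ z)) = I.countP (fun z => decide (m ≤ z)) := by
      apply List.countP_congr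
      intro w hw
      simp only [decide_eq_true_eq]
      exact ⟨fun hxw => hmin w ⟨hw, hxw⟩, fun hmw => hm.2.trans hmw⟩
    have h3 : ((s.filter (fun i => m ≤ y i)).card : ℤ) ≤ (s.filter (fun i => x ≤ y i)).card := by
      have : (s.filter (fun i => m ≤ y i)).card ≤ (s.filter (fun i => x ≤ y i)).card := by
        refine card_le_card fun i hi => ?_
        simp only [mem_filter] at hi ⊢
        exact ⟨hi.1, hm.2.trans hi.2⟩
      exact_mod_cast this
    rw [h2]
    linarith
  · have h0 : 0 ≤ o := by
      rcases hx with hx | hx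
      · exact hx
      · exact absurd hx hz
    have h2 : I.countP (fun z => decide (x ≤ z)) = 0 := by
      rw [List.countP_eq_zero]
      intro w hw
      simp only [decide_eq_true_eq]
      exact fun hxw => hz ⟨w, hw, hxw⟩
    rw [h2]
    simp only [Nat.cast_zero]
    positivity

theorem countP_range_ge (p : ℕ → Bool) (a n : ℕ) (hp : ∀ j, a ≤ j → j < n → p j = true) :
    n - a ≤ (List.range n).countP p := by
  induction n with
  | zero => simp
  | succ n ih =>
    rw [List.range_succ, List.countP_append]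
    have h1 := ih fun j h1 h2 => hp j h1 (by omega)
    by_cases han : a ≤ n
    · have h2 := hp n han (Nat.lt_succ_self n)
      simp only [List.countP_cons, List.countP_nil, h2, if_true]
      omega
    · omega

theorem countP_range_lt (p : ℕ → Bool) (a n : ℕ) (han : a ≤ n) (hp : ∀ j < a, p j = true) :
    a ≤ (List.range n).countP p := by
  obtain ⟨d, rfl⟩ := Nat.exists_eq_add_of_le han
  rw [List.range_add, List.countP_append]
  have : (List.range a).countP p = a := by
    rw [List.countP_eq_length.2, List.length_range]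
    intro j hj
    exact hp j (List.mem_range.1 hj)
  omega

theorem sum_range_ge (f : ℕ → ℕ) (a n b c : ℕ) (han : a < n) (hc : c ≤ f a)
    (hb : ∀ i, a < i → i < n → b ≤ f i) :
    (n - a - 1) * b + c ≤ ((List.range n).map f).sum := by
  induction n with
  | zero => omega
  | succ n ih =>
    rw [List.range_succ, List.map_append, List.sum_append]
    simp only [List.map_cons, List.map_nil, List.sum_cons, List.sum_nil, add_zero]
    rcases Nat.lt_or_ge a n with h1 | h1
    · have h2 := ih h1 fun i h2 h3 => hb i h2 (by omega)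
      have h3 := hb n h1 (Nat.lt_succ_self n)
      have h4 : n + 1 - a - 1 = (n - a - 1) + 1 := by omega
      rw [h4, Nat.add_mul, Nat.one_mul]
      omega
    · have h2 : a = n := by omega
      subst h2
      have h3 : a + 1 - a - 1 = 0 := by omega
      rw [h3, Nat.zero_mul]
      omega

theorem sum_range_lt (f : ℕ → ℕ) (a n b c : ℕ) (han : a < n) (hc : c ≤ f a)
    (hb : ∀ i < a, b ≤ f i) : a * b + c ≤ ((List.range n).map f).sum := by
  obtain ⟨d, rfl⟩ := Nat.exists_eq_add_of_le (Nat.succ_le_of_lt han)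
  rw [List.range_add, List.map_append, List.sum_append, List.range_succ, List.map_append,
    List.sum_append]
  simp only [List.map_cons, List.map_nil, List.sum_cons, List.sum_nil, add_zero]
  have h1 : a * b ≤ ((List.range a).map f).sum := by
    have h2 := List.card_nsmul_le_sum ((List.range a).map f) b (by
      intro x hx
      rw [List.mem_map] at hx
      obtain ⟨i, hi, rfl⟩ := hx
      exact hb i (List.mem_range.1 hi))
    simpa using h2
  omega

theorem countP_copies {α : Type} (n : ℕ) (F : ℕ → List α) (p : α → Bool) :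
    ((List.range n).flatMap F).countP p = ((List.range n).map fun i => (F i).countP p).sum := by
  rw [List.countP_flatMap]
  rfl

/-! ### tags -/

section tags

variable (l : ℕ) (Cs : List (List ℕ)) (h : ℕ) (S : Sys)

/-- valid tags of slot 1 -/
def U1 : S1 → Prop
  | .node t => l ≤ t ∧ t < GG l Cs.length h + l
  | .copy t y => l ≤ t ∧ t ≤ GG l Cs.length h ∧ y ∈ S.I1
  | .bot => True

/-- valid tags of slot 2 -/
def U2 : S2 → Prop
  | .start t => 1 ≤ t ∧ t ≤ GG l Cs.length h
  | .copy t y => l ≤ t ∧ t ≤ GG l Cs.length h ∧ y ∈ S.I2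
  | .bot => True

/-- valid tags of slot 3 -/
def U3 : S3 → Prop
  | .zed => True
  | .copy t y => l ≤ t ∧ t ≤ GG l Cs.length h ∧ y ∈ S.I3
  | .wire r => r ≤ rmax l Cs.length h

end tags

variable {l : ℕ} {Cs : List (List ℕ)} {h : ℕ} {S : Sys}

theorem U1.v1 (hg : Good l Cs) (hS : S.Wf) {a : S1} (ha : U1 l Cs h S a) :
    (spar l Cs h S).V1 S.W a := by
  cases a with
  | node t =>
    obtain ⟨h1, h2⟩ := ha
    refine ⟨h1, ?_⟩
    have := spar_T (h := h) (S := S) hg
    simp only [T1] at this
    omega
  | copy t y =>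
    obtain ⟨h1, h2, h3⟩ := ha
    have h4 := abs_le.1 (hS.abs1 y h3)
    exact ⟨h1, h2, h4.1, h4.2⟩
  | bot => trivial

theorem U2.v2 (hS : S.Wf) {a : S2} (ha : U2 l Cs h S a) : (spar l Cs h S).V2 S.W a := by
  cases a with
  | start t => exact ha
  | copy t y =>
    obtain ⟨h1, h2, h3⟩ := ha
    have h4 := abs_le.1 (hS.abs2 y h3)
    exact ⟨h1, h2, h4.1, h4.2⟩
  | bot => trivial

theorem U3.v3 (hS : S.Wf) {a : S3} (ha : U3 l Cs h S a) :
    (spar l Cs h S).V3 (rmax l Cs.length h) a := by
  cases a with
  | zed => trivial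
  | copy t y =>
    obtain ⟨h1, h2, h3⟩ := ha
    exact ⟨h1, h2, hS.neg_w_le y h3⟩
  | wire r => exact ha

theorem tag1 (hg : Good l Cs) {y : ℤ} (hy : y ∈ ch1 l Cs h S) :
    ∃ a, U1 l Cs h S a ∧ (spar l Cs h S).s1 a = y := by
  simp only [ch1, List.mem_append, List.mem_replicate, List.mem_map, List.mem_flatMap,
    List.mem_range] at hy
  rcases hy with (⟨_, rfl⟩ | ⟨j, hj, rfl⟩) | ⟨i, hi, z, hz, rfl⟩
  · refine ⟨.bot, trivial, ?_⟩
    simp only [Par.s1, spar_tau, tau_zero l Cs h S hg.two_le, bot1]
    rfl
  · exact ⟨.node (j + l), ⟨by omega, by omega⟩, rfl⟩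
  · refine ⟨.copy (i + l) z, ⟨by omega, ?_, hz⟩, rfl⟩
    simp only [nLev] at hi
    omega

theorem tag2 (hg : Good l Cs) {y : ℤ} (hy : y ∈ ch2 l Cs h S) :
    ∃ a, U2 l Cs h S a ∧ (spar l Cs h S).s2 a = y := by
  simp only [ch2, List.mem_append, List.mem_replicate, List.mem_map, List.mem_flatMap,
    List.mem_range] at hy
  rcases hy with (⟨_, rfl⟩ | ⟨j, hj, rfl⟩) | ⟨i, hi, z, hz, rfl⟩
  · refine ⟨.bot, trivial, ?_⟩
    simp only [Par.s2, spar_T hg]
    rfl
  · exact ⟨.start (j + 1), ⟨by omega, by omega⟩, rfl⟩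
  · refine ⟨.copy (i + l) z, ⟨by omega, ?_, hz⟩, rfl⟩
    simp only [nLev] at hi
    omega

theorem s3_wire_eq (hg : Good l Cs) (r : ℕ) :
    (spar l Cs h S).s3 (.wire r) = wire l Cs.length h S r := by
  have := hg.two_le
  simp only [Par.s3, wire, drop, spar_l, spar_D, spar_g, spar_H]
  push_cast [Nat.cast_sub (show 1 ≤ l by omega)]
  ring

theorem tag3 (hg : Good l Cs) {y : ℤ} (hy : y = -((chain l Cs h S).w : ℤ) ∨ y ∈ ch3 l Cs h S) :
    ∃ a, U3 l Cs h S a ∧ (spar l Cs h S).s3 a = y := by
  rcases hy with rfl | hy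
  · exact ⟨.wire (rmax l Cs.length h), le_rfl, s3_wire_eq hg _⟩
  · rw [ch3, Glue834.wires_eq] at hy
    simp only [List.mem_append, List.mem_replicate, List.mem_map, List.mem_flatMap,
      List.mem_range] at hy
    rcases hy with (⟨_, rfl⟩ | ⟨r, hr, rfl⟩) | ⟨i, hi, z, hz, rfl⟩
    · refine ⟨.zed, trivial, ?_⟩
      simp only [Par.s3, spar_Y hg]
      rfl
    · exact ⟨.wire r, (Glue834.mem_wr_lt hr).le, s3_wire_eq hg r⟩
    · refine ⟨.copy (i + l) z, ⟨by omega, ?_, hz⟩, rfl⟩
      simp only [nLev] at hi
      omega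

/-! ### counting items above a threshold -/

theorem count1 (hg : Good l Cs) (hS : S.Wf) {t : ℕ} (ht : l ≤ t) (ht' : t ≤ GG l Cs.length h)
    {x : ℤ} (hx : x ≤ S.W + 1) :
    (GG l Cs.length h + l - t) + (GG l Cs.length h - t) * S.I1.length +
      S.I1.countP (fun z => decide (x ≤ z)) ≤
    (ch1 l Cs h S).countP (fun z => decide
      ((spar l Cs h S).tau t + (spar l Cs h S).L ^ t * x ≤ z)) := by
  have hok := spar_ok (h := h) (S := S) hg
  rw [ch1, List.countP_append, List.countP_append, List.countP_map, countP_copies]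
  have h1 : GG l Cs.length h + l - t ≤ (List.range (GG l Cs.length h)).countP
      ((fun z => decide ((spar l Cs h S).tau t + (spar l Cs h S).L ^ t * x ≤ z)) ∘
        fun j => node l Cs h S (j + l)) := by
    have := countP_range_ge ((fun z => decide
      ((spar l Cs h S).tau t + (spar l Cs h S).L ^ t * x ≤ z)) ∘
        fun j => node l Cs h S (j + l)) (t - l) (GG l Cs.length h) (by
      intro j h1 h2
      simp only [Function.comp, decide_eq_true_eq]
      rcases Nat.lt_or_ge t (j + l) with h3 | h3
      · exact hok.s1_above (a := .node (j + l)) (U1.v1 hg hS ⟨by omega, by omega⟩) ht' hx h3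
      · have h4 : t = j + l := by omega
        rw [← h4]
        exact hok.s1_node ht' hx)
    omega
  have h2 : (GG l Cs.length h - t) * S.I1.length + S.I1.countP (fun z => decide (x ≤ z)) ≤
      ((List.range (nLev l Cs.length h)).map fun i =>
        (S.I1.map (cop1 l Cs h S (i + l))).countP (fun z => decide
          ((spar l Cs h S).tau t + (spar l Cs h S).L ^ t * x ≤ z))).sum := by
    have h3 := sum_range_ge (fun i =>
        (S.I1.map (cop1 l Cs h S (i + l))).countP (fun z => decide
          ((spar l Cs h S).tau t + (spar l Cs h S).L ^ t * x ≤ z))) (t - l)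
          (nLev l Cs.length h) S.I1.length (S.I1.countP (fun z => decide (x ≤ z)))
          (by simp only [nLev]; omega)
          (by
            rw [List.countP_map]
            apply List.countP_mono_left
            intro z hz hz'
            simp only [Function.comp, decide_eq_true_eq] at hz' ⊢
            rw [show t - l + l = t by omega]
            exact (hok.s1_copy (t := t)).2 hz')
          (by
            intro i h1 h2
            simp only [nLev] at h2
            rw [List.countP_map, List.countP_eq_length.2]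
            intro z hz
            simp only [Function.comp, decide_eq_true_eq]
            exact hok.s1_above (a := .copy (i + l) z) (U1.v1 hg hS ⟨by omega, by omega, hz⟩) ht' hx
              (by simp only [Par.lev1]; omega))
    have h4 : nLev l Cs.length h - (t - l) - 1 = GG l Cs.length h - t := by
      simp only [nLev]; omega
    rwa [h4] at h3
  omega

theorem count2 (hg : Good l Cs) (hS : S.Wf) {t : ℕ} (ht : l ≤ t) (ht' : t ≤ GG l Cs.length h)
    {x : ℤ} (hx : x ≤ S.W + 1) :
    t + (t - l) * S.I1.length + S.I2.countP (fun z => decide (x ≤ z)) ≤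
    (ch2 l Cs h S).countP (fun z => decide
      (-(spar l Cs h S).tau t - (spar l Cs h S).A t + (spar l Cs h S).L ^ t * x ≤ z)) := by
  have hok := spar_ok (h := h) (S := S) hg
  rw [ch2, List.countP_append, List.countP_append, List.countP_map, countP_copies]
  have h1 : t ≤ (List.range (GG l Cs.length h)).countP
      ((fun z => decide
        (-(spar l Cs h S).tau t - (spar l Cs h S).A t + (spar l Cs h S).L ^ t * x ≤ z)) ∘
        fun j => start l Cs h S (j + 1)) := by
    refine countP_range_lt _ _ _ ht' ?_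
    intro j h1
    simp only [Function.comp, decide_eq_true_eq]
    rcases Nat.lt_or_ge (j + 1) t with h3 | h3
    · exact hok.s2_above (b := .start (j + 1)) (U2.v2 hS ⟨by omega, by omega⟩) ht' hx h3
    · have h4 : t = j + 1 := by omega
      rw [← h4]
      exact hok.s2_start ht ht' hx
  have h2 : (t - l) * S.I1.length + S.I2.countP (fun z => decide (x ≤ z)) ≤
      ((List.range (nLev l Cs.length h)).map fun i =>
        (S.I2.map (cop2 l Cs h S (i + l))).countP (fun z => decide
          (-(spar l Cs h S).tau t - (spar l Cs h S).A t + (spar l Cs h S).L ^ t * x ≤ z))).sum := by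
    refine sum_range_lt (fun i =>
        (S.I2.map (cop2 l Cs h S (i + l))).countP (fun z => decide
          (-(spar l Cs h S).tau t - (spar l Cs h S).A t + (spar l Cs h S).L ^ t * x ≤ z))) (t - l)
          (nLev l Cs.length h) S.I1.length (S.I2.countP (fun z => decide (x ≤ z)))
          (by simp only [nLev]; omega)
          (by
            rw [List.countP_map]
            apply List.countP_mono_left
            intro z hz hz'
            simp only [Function.comp, decide_eq_true_eq] at hz' ⊢
            rw [show t - l + l = t by omega]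
            exact (hok.s2_copy (t := t)).2 hz')
          (by
            intro i h1
            rw [List.countP_map, List.countP_eq_length.2, hS.len2]
            intro z hz
            simp only [Function.comp, decide_eq_true_eq]
            exact hok.s2_above (b := .copy (i + l) z) (U2.v2 hS ⟨by omega, by omega, hz⟩) ht' hx
              (by simp only [Par.lev2]; omega))
  omega

theorem count3 (hg : Good l Cs) (hS : S.Wf) {t : ℕ} (ht : l ≤ t) (ht' : t ≤ GG l Cs.length h)
    {x : ℤ} (hx : x ≤ S.W + 1) :
    (GG l Cs.length h + l) / 2 + (GG l Cs.length h - t) * S.I1.length +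
      S.I3.countP (fun z => decide (x ≤ z)) ≤
    (ch3 l Cs h S).countP (fun z => decide
      ((spar l Cs h S).A t + (spar l Cs h S).L ^ t * x ≤ z)) := by
  have hok := spar_ok (h := h) (S := S) hg
  rw [ch3, List.countP_append, List.countP_append, List.countP_replicate,
    countP_copies (nLev l Cs.length h)]
  have h0 : (spar l Cs h S).A t + (spar l Cs h S).L ^ t * x ≤ zed l Cs.length h S := by
    have h1 := hok.s3_zed ht' hx
    have h2 : (spar l Cs h S).s3 .zed = zed l Cs.length h S := by
      simp only [Par.s3, spar_Y hg]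
      rfl
    rwa [h2] at h1
  rw [if_pos (decide_eq_true h0)]
  have h2 : (GG l Cs.length h - t) * S.I1.length + S.I3.countP (fun z => decide (x ≤ z)) ≤
      ((List.range (nLev l Cs.length h)).map fun i =>
        (S.I3.map (cop3 S (i + l))).countP (fun z => decide
          ((spar l Cs h S).A t + (spar l Cs h S).L ^ t * x ≤ z))).sum := by
    have h3 := sum_range_ge (fun i =>
        (S.I3.map (cop3 S (i + l))).countP (fun z => decide
          ((spar l Cs h S).A t + (spar l Cs h S).L ^ t * x ≤ z))) (t - l)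
          (nLev l Cs.length h) S.I1.length (S.I3.countP (fun z => decide (x ≤ z)))
          (by simp only [nLev]; omega)
          (by
            rw [List.countP_map]
            apply List.countP_mono_left
            intro z hz hz'
            simp only [Function.comp, decide_eq_true_eq] at hz' ⊢
            rw [show t - l + l = t by omega]
            exact (hok.s3_copy (t := t)).2 hz')
          (by
            intro i h1 h2
            simp only [nLev] at h2
            rw [List.countP_map, List.countP_eq_length.2, hS.len3]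
            intro z hz
            simp only [Function.comp, decide_eq_true_eq]
            exact hok.s3_above (s := i + l) (y := z)
              (U3.v3 (h := h) hS (a := .copy (i + l) z) ⟨by omega, by omega, hz⟩) hx (by omega))
    have h4 : nLev l Cs.length h - (t - l) - 1 = GG l Cs.length h - t := by
      simp only [nLev]; omega
    rwa [h4] at h3
  simp only [T1]
  omega

theorem length_ch1 : (chain l Cs h S).I1.length =
    l / 2 + GG l Cs.length h + nLev l Cs.length h * S.I1.length := by
  simp [chain, ch1, List.length_flatMap, Nat.add_assoc]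

/-- items which are not wires are positive -/
theorem nonwire_pos (hg : Good l Cs) (hS : S.Wf) :
    (∀ z ∈ List.replicate (T1 l Cs.length h / 2) (zed l Cs.length h S), 1 ≤ z) ∧
    (∀ z ∈ (List.range (nLev l Cs.length h)).flatMap (fun i => S.I3.map (cop3 S (i + l))),
      1 ≤ z) := by
  have hok := spar_ok (h := h) (S := S) hg
  constructor
  · intro z hz
    obtain rfl := (List.mem_replicate.1 hz).2
    have h1 := hok.s3_pos (c := .zed) trivial (by simp)
    have h2 : (spar l Cs h S).s3 .zed = zed l Cs.length h S := by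
      simp only [Par.s3, spar_Y hg]
      rfl
    rw [h2] at h1
    omega
  · intro z hz
    simp only [List.mem_flatMap, List.mem_range, List.mem_map, nLev] at hz
    obtain ⟨i, hi, y, hy, rfl⟩ := hz
    have h1 := hok.s3_pos (c := .copy (i + l) y)
      (U3.v3 (h := h) hS (a := .copy (i + l) y) ⟨by omega, by omega, hy⟩) (by simp)
    have h2 : (spar l Cs h S).s3 (.copy (i + l) y) = cop3 S (i + l) y := rfl
    rw [h2] at h1
    omega

theorem count4 (hg : Good l Cs) (hS : S.Wf) :
    (GG l Cs.length h + l) / 2 + (GG l Cs.length h + 1 - l) * S.I1.length ≤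
    (ch3 l Cs h S).countP (fun z => decide (1 ≤ z)) := by
  obtain ⟨h1, h2⟩ := nonwire_pos (h := h) hg hS
  have e1 : (List.replicate (T1 l Cs.length h / 2) (zed l Cs.length h S)).countP
      (fun z => decide (1 ≤ z)) = (GG l Cs.length h + l) / 2 := by
    rw [List.countP_eq_length.2 (fun z hz => decide_eq_true (h1 z hz)), List.length_replicate, T1]
  have e2 : ((List.range (nLev l Cs.length h)).flatMap
      (fun i => S.I3.map (cop3 S (i + l)))).countP (fun z => decide (1 ≤ z)) =
      (GG l Cs.length h + 1 - l) * S.I1.length := by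
    rw [List.countP_eq_length.2 (fun z hz => decide_eq_true (h2 z hz))]
    simp [List.length_flatMap, hS.len3, nLev]
  rw [ch3, List.countP_append, List.countP_append, e1, e2]
  omega

theorem count5 (hg : Good l Cs) (hS : S.Wf) (r : ℕ) :
    2 * (GG l Cs.length h + l / 2 + (GG l Cs.length h + 1 - l) * S.I1.length) ≤
    2 * (ch3 l Cs h S).countP (fun z => decide (wire l Cs.length h S r ≤ z)) +
      #{j ∈ range (GG l Cs.length h) | r < rho l Cs h j} := by
  have hok := spar_ok (h := h) (S := S) hg
  obtain ⟨h1, h2⟩ := nonwire_pos (h := h) hg hS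
  have hw : wire l Cs.length h S r ≤ 1 := by
    rw [← s3_wire_eq hg]
    have := hok.s3_wire_neg (by simp) r
    omega
  have e1 : (List.replicate (T1 l Cs.length h / 2) (zed l Cs.length h S)).countP
      (fun z => decide (wire l Cs.length h S r ≤ z)) = (GG l Cs.length h + l) / 2 := by
    rw [List.countP_eq_length.2 (fun z hz => decide_eq_true (hw.trans (h1 z hz))),
      List.length_replicate, T1]
  have e2 : ((List.range (nLev l Cs.length h)).flatMap
      (fun i => S.I3.map (cop3 S (i + l)))).countP
      (fun z => decide (wire l Cs.length h S r ≤ z)) =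
      (GG l Cs.length h + 1 - l) * S.I1.length := by
    rw [List.countP_eq_length.2 (fun z hz => decide_eq_true (hw.trans (h2 z hz)))]
    simp [List.length_flatMap, hS.len3, nLev]
  rw [ch3, List.countP_append, List.countP_append, e1, e2, Glue834.wires_eq,
    List.countP_map]
  have h3 : (Glue834.wr l Cs h).countP ((fun z => decide (wire l Cs.length h S r ≤ z)) ∘
      wire l Cs.length h S) = (Glue834.wr l Cs h).countP (fun x => decide (x ≤ r)) := by
    apply List.countP_congr
    intro x hx
    simp only [Function.comp, decide_eq_true_eq]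
    rw [← s3_wire_eq hg, ← s3_wire_eq hg]
    exact hok.s3_wire_le
  have h4 := Glue834.count_wr hg h (fun x => r < x)
  have h5 := Glue834.length_wr hg h
  have h6 : (Glue834.wr l Cs h).countP (fun x => decide (x ≤ r)) +
      (Glue834.wr l Cs h).countP (fun x => decide (r < x)) = (Glue834.wr l Cs h).length := by
    rw [List.length_eq_countP_add_countP (fun x => decide (x ≤ r))]
    congr 1
    apply List.countP_congr
    intro x _
    simp
  rw [h3]
  have h7 : 2 * ((GG l Cs.length h + l) / 2) = GG l Cs.length h + l := by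
    obtain ⟨m, hm⟩ := hg.even_l
    have := Glue834.even_GG l Cs.length h
    omega
  have h8 : 2 * (l / 2) = l := by
    obtain ⟨m, hm⟩ := hg.even_l
    omega
  have h9 : (GG l Cs.length h + 1 - l) * S.I1.length =
    (GG l Cs.length h + 1 - l) * S.I1.length := rfl
  rw [h4]
  omega

/-! ### the data of a cover -/

/-- inner value of a slot 1 tag -/
def iv1 : S1 → Option ℤ
  | .copy _ y => some y
  | _ => none

/-- inner value of a slot 2 tag -/
def iv2 : S2 → Option ℤ
  | .copy _ y => some y
  | _ => none

/-- inner value of a slot 3 tag -/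
def iv3 : S3 → ℤ
  | .copy _ y => y
  | _ => 0

/-- height of a slot 3 tag -/
def ht3 (G : ℕ) : S3 → ℕ
  | .zed => G + 1
  | .copy t _ => t
  | .wire _ => 0

/-- rank of a slot 3 tag -/
def rk3 : S3 → ℕ
  | .wire r => r
  | _ => 0

theorem step {k : ℕ} (hg : Good l Cs) (hS : S.Wf) (hrob : Rob S k (hNext l Cs.length k h))
    (hno : ¬ ∃ f, HalfSol l Cs f) : Rob (chain l Cs h S) (k + 1) h := by
  intro ι s y1 y2 y3 o1 o2 o3 ho1 ho2 hbin c1 c2 c3 hU hV
  apply hno
  have hok := spar_ok (h := h) (S := S) hg
  have hl := hg.two_le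
  have hlG := l_le_GG (h := h) hg
  have hT := spar_T (h := h) (S := S) hg
  -- tags
  have t1 : ∀ i, ∃ a, i ∈ s → U1 l Cs h S a ∧ (spar l Cs h S).s1 a = y1 i := by
    intro i
    by_cases hi : i ∈ s
    · obtain ⟨a, ha⟩ := tag1 hg (hbin i hi).1
      exact ⟨a, fun _ => ha⟩
    · exact ⟨.bot, fun hi' => absurd hi' hi⟩
  have t2 : ∀ i, ∃ a, i ∈ s → U2 l Cs h S a ∧ (spar l Cs h S).s2 a = y2 i := by
    intro i
    by_cases hi : i ∈ s
    · obtain ⟨a, ha⟩ := tag2 hg (hbin i hi).2.1
      exact ⟨a, fun _ => ha⟩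
    · exact ⟨.bot, fun hi' => absurd hi' hi⟩
  have t3 : ∀ i, ∃ a, i ∈ s → U3 l Cs h S a ∧ (spar l Cs h S).s3 a = y3 i := by
    intro i
    by_cases hi : i ∈ s
    · obtain ⟨a, ha⟩ := tag3 hg (hbin i hi).2.2.1
      exact ⟨a, fun _ => ha⟩
    · exact ⟨.zed, fun hi' => absurd hi' hi⟩
  choose a ha using t1
  choose b hb using t2
  choose c hc using t3
  have hgeo := fun i (hi : i ∈ s) => hok.geometry (U1.v1 hg hS (ha i hi).1) (U2.v2 hS (hb i hi).1)
    (U3.v3 hS (hc i hi).1) (by
      rw [(ha i hi).2, (hb i hi).2, (hc i hi).2]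
      exact (hbin i hi).2.2.2)
  have hzed : ∃ z ∈ ch3 l Cs h S, z = zed l Cs.length h S := by
    refine ⟨_, ?_, rfl⟩
    rw [ch3, List.mem_append, List.mem_append, List.mem_replicate]
    refine Or.inl (Or.inl ⟨?_, rfl⟩)
    simp only [T1]
    omega
  have hzed_eq : (spar l Cs h S).s3 .zed = zed l Cs.length h S := by
    simp only [Par.s3, spar_Y hg]
    rfl
  -- slot 1
  have k1 : ∀ t, l ≤ t → t ≤ GG l Cs.length h → ∀ x : ℤ, -((S.W : ℤ) + 1) ≤ x → x ≤ S.W + 1 →
      ((GG l Cs.length h + l - t : ℕ) : ℤ) + ((GG l Cs.length h - t : ℕ) : ℤ) * S.I1.length +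
        S.I1.countP (fun z => decide (x ≤ z)) ≤
      o1 + #{i ∈ s | t < Par.lev1 (a i) ∨ (Par.lev1 (a i) = t ∧ ∀ y, iv1 (a i) = some y →
        x ≤ y)} := by
    intro t ht ht' x hx hx'
    have h1 := cov_ext c1 ((spar l Cs h S).tau t + (spar l Cs h S).L ^ t * x) (Or.inl ho1)
    have h2 := count1 (h := h) hg hS ht ht' hx'
    have h3 : #{i ∈ s | (spar l Cs h S).tau t + (spar l Cs h S).L ^ t * x ≤ y1 i} ≤
        #{i ∈ s | t < Par.lev1 (a i) ∨ (Par.lev1 (a i) = t ∧ ∀ y, iv1 (a i) = some y →
          x ≤ y)} := by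
      refine card_le_card fun i hi => ?_
      simp only [mem_filter] at hi ⊢
      obtain ⟨hi, h4⟩ := hi
      refine ⟨hi, ?_⟩
      rw [← (ha i hi).2] at h4
      rcases Nat.lt_trichotomy (Par.lev1 (a i)) t with h5 | h5 | h5
      · have := hok.s1_below (U1.v1 hg hS (ha i hi).1) ht' hx h5
        omega
      · right
        refine ⟨h5, fun y hy => ?_⟩
        cases h6 : a i with
        | node t' => rw [h6] at hy; simp [iv1] at hy
        | bot => rw [h6] at hy; simp [iv1] at hy
        | copy t' y' =>
          rw [h6] at hy h4 h5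
          simp only [iv1, Option.some.injEq] at hy
          simp only [Par.lev1] at h5
          subst hy h5
          exact hok.s1_copy.1 h4
      · exact Or.inl h5
    have h2' : ((GG l Cs.length h + l - t : ℕ) : ℤ) +
        ((GG l Cs.length h - t : ℕ) : ℤ) * S.I1.length +
        S.I1.countP (fun z => decide (x ≤ z)) ≤ ((ch1 l Cs h S).countP (fun z => decide
      ((spar l Cs h S).tau t + (spar l Cs h S).L ^ t * x ≤ z)) : ℤ) := by exact_mod_cast h2
    have h3' : (#{i ∈ s | (spar l Cs h S).tau t + (spar l Cs h S).L ^ t * x ≤ y1 i} : ℤ) ≤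
        #{i ∈ s | t < Par.lev1 (a i) ∨ (Par.lev1 (a i) = t ∧ ∀ y, iv1 (a i) = some y →
          x ≤ y)} := by exact_mod_cast h3
    exact h2'.trans (h1.trans (by linarith))
  -- slot 2
  have k2 : ∀ t, l ≤ t → t ≤ GG l Cs.length h → ∀ x : ℤ, -((S.W : ℤ) + 1) ≤ x → x ≤ S.W + 1 →
      (t : ℤ) + ((t - l : ℕ) : ℤ) * S.I1.length + S.I2.countP (fun z => decide (x ≤ z)) ≤
      o2 + #{i ∈ s | (spar l Cs h S).lev2 (b i) < t ∨ ((spar l Cs h S).lev2 (b i) = t ∧
        ∀ y, iv2 (b i) = some y → x ≤ y)} := by
    intro t ht ht' x hx hx'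
    have h1 := cov_ext c2 (-(spar l Cs h S).tau t - (spar l Cs h S).A t +
      (spar l Cs h S).L ^ t * x) (Or.inl ho2)
    have h2 := count2 (h := h) hg hS ht ht' hx'
    have h3 : #{i ∈ s | -(spar l Cs h S).tau t - (spar l Cs h S).A t +
        (spar l Cs h S).L ^ t * x ≤ y2 i} ≤
        #{i ∈ s | (spar l Cs h S).lev2 (b i) < t ∨ ((spar l Cs h S).lev2 (b i) = t ∧
          ∀ y, iv2 (b i) = some y → x ≤ y)} := by
      refine card_le_card fun i hi => ?_
      simp only [mem_filter] at hi ⊢
      obtain ⟨hi, h4⟩ := hi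
      refine ⟨hi, ?_⟩
      rw [← (hb i hi).2] at h4
      rcases Nat.lt_trichotomy ((spar l Cs h S).lev2 (b i)) t with h5 | h5 | h5
      · exact Or.inl h5
      · right
        refine ⟨h5, fun y hy => ?_⟩
        cases h6 : b i with
        | start t' => rw [h6] at hy; simp [iv2] at hy
        | bot => rw [h6] at hy; simp [iv2] at hy
        | copy t' y' =>
          rw [h6] at hy h4 h5
          simp only [iv2, Option.some.injEq] at hy
          simp only [Par.lev2] at h5
          subst hy h5
          exact hok.s2_copy.1 h4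
      · have := hok.s2_below (U2.v2 hS (hb i hi).1) ht' hx h5
        omega
    have h2' : (t : ℤ) + ((t - l : ℕ) : ℤ) * S.I1.length +
        S.I2.countP (fun z => decide (x ≤ z)) ≤ ((ch2 l Cs h S).countP (fun z => decide
      (-(spar l Cs h S).tau t - (spar l Cs h S).A t +
        (spar l Cs h S).L ^ t * x ≤ z)) : ℤ) := by exact_mod_cast h2
    have h3' : (#{i ∈ s | -(spar l Cs h S).tau t - (spar l Cs h S).A t +
        (spar l Cs h S).L ^ t * x ≤ y2 i} : ℤ) ≤
        #{i ∈ s | (spar l Cs h S).lev2 (b i) < t ∨ ((spar l Cs h S).lev2 (b i) = t ∧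
          ∀ y, iv2 (b i) = some y → x ≤ y)} := by exact_mod_cast h3
    exact h2'.trans (h1.trans (by linarith))
  -- slot 3
  have k3 : ∀ t, l ≤ t → t ≤ GG l Cs.length h → ∀ x : ℤ, -(S.w : ℤ) ≤ x → x ≤ S.W + 1 →
      (((GG l Cs.length h + l) / 2 : ℕ) : ℤ) + ((GG l Cs.length h - t : ℕ) : ℤ) * S.I1.length +
        S.I3.countP (fun z => decide (x ≤ z)) ≤
      o3 + #{i ∈ s | t < ht3 (GG l Cs.length h) (c i) ∨ (ht3 (GG l Cs.length h) (c i) = t ∧
        x ≤ iv3 (c i))} := by
    intro t ht ht' x hx hx'
    have h1 := cov_ext c3 ((spar l Cs h S).A t + (spar l Cs h S).L ^ t * x) (Or.inr (by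
      obtain ⟨z, hz, hz'⟩ := hzed
      refine ⟨z, hz, ?_⟩
      rw [hz', ← hzed_eq]
      exact hok.s3_zed ht' hx'))
    have h2 := count3 (h := h) hg hS ht ht' hx'
    have h3 : #{i ∈ s | (spar l Cs h S).A t + (spar l Cs h S).L ^ t * x ≤ y3 i} ≤
        #{i ∈ s | t < ht3 (GG l Cs.length h) (c i) ∨ (ht3 (GG l Cs.length h) (c i) = t ∧
          x ≤ iv3 (c i))} := by
      refine card_le_card fun i hi => ?_
      simp only [mem_filter] at hi ⊢
      obtain ⟨hi, h4⟩ := hi
      refine ⟨hi, ?_⟩
      obtain ⟨h5, h6⟩ := hc i hi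
      rw [← h6] at h4
      cases h7 : c i with
      | zed => left; simp only [ht3]; omega
      | wire r =>
        rw [h7] at h4
        have h8 := hok.s3_wire_neg (by simp) r
        have h9 := hok.s3_copy_pos (t := t) ht (x := x) (by simpa using hx)
        omega
      | copy t' y' =>
        rw [h7] at h4 h5
        rcases Nat.lt_trichotomy t' t with h8 | h8 | h8
        · have h9 := hok.s3_below (s := t') (y := y') (t := t) (x := x)
            (abs_le.1 (hS.abs3 y' h5.2.2)).2 (by simpa using hx) h8
          omega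
        · subst h8
          right
          exact ⟨rfl, hok.s3_copy.1 h4⟩
        · left
          exact h8
    have h2' : (((GG l Cs.length h + l) / 2 : ℕ) : ℤ) +
        ((GG l Cs.length h - t : ℕ) : ℤ) * S.I1.length +
        S.I3.countP (fun z => decide (x ≤ z)) ≤ ((ch3 l Cs h S).countP (fun z => decide
      ((spar l Cs h S).A t + (spar l Cs h S).L ^ t * x ≤ z)) : ℤ) := by exact_mod_cast h2
    have h3' : (#{i ∈ s | (spar l Cs h S).A t + (spar l Cs h S).L ^ t * x ≤ y3 i} : ℤ) ≤
        #{i ∈ s | t < ht3 (GG l Cs.length h) (c i) ∨ (ht3 (GG l Cs.length h) (c i) = t ∧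
          x ≤ iv3 (c i))} := by exact_mod_cast h3
    exact h2'.trans (h1.trans (by linarith))
  have hz1 : (1 : ℤ) ≤ zed l Cs.length h S := by
    rw [← hzed_eq]
    exact hok.s3_pos (c := .zed) trivial (by simp)
  have k4 : (((GG l Cs.length h + l) / 2 : ℕ) : ℤ) +
      ((GG l Cs.length h + 1 - l : ℕ) : ℤ) * S.I1.length ≤
      o3 + #{i ∈ s | 1 ≤ ht3 (GG l Cs.length h) (c i)} := by
    have h1 := cov_ext c3 1 (Or.inr (by
      obtain ⟨z, hz, hz'⟩ := hzed
      exact ⟨z, hz, hz' ▸ hz1⟩))
    have h2 := count4 (h := h) hg hS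
    have h3 : #{i ∈ s | 1 ≤ y3 i} ≤ #{i ∈ s | 1 ≤ ht3 (GG l Cs.length h) (c i)} := by
      refine card_le_card fun i hi => ?_
      simp only [mem_filter] at hi ⊢
      obtain ⟨hi, h4⟩ := hi
      refine ⟨hi, ?_⟩
      obtain ⟨h5, h6⟩ := hc i hi
      rw [← h6] at h4
      cases h7 : c i with
      | zed => simp only [ht3]; omega
      | wire r =>
        rw [h7] at h4
        have h8 := hok.s3_wire_neg (by simp) r
        omega
      | copy t' y' =>
        rw [h7] at h5
        have h8 := h5.1
        simp only [ht3]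
        omega
    have h2' : (((GG l Cs.length h + l) / 2 : ℕ) : ℤ) +
      ((GG l Cs.length h + 1 - l : ℕ) : ℤ) * S.I1.length ≤
        ((ch3 l Cs h S).countP (fun z => decide (1 ≤ z)) : ℤ) := by exact_mod_cast h2
    have h3' : (#{i ∈ s | 1 ≤ y3 i} : ℤ) ≤ #{i ∈ s | 1 ≤ ht3 (GG l Cs.length h) (c i)} := by
      exact_mod_cast h3
    exact h2'.trans (h1.trans (by linarith))
  have k5 : ∀ r, 2 * ((GG l Cs.length h : ℤ) + (l / 2 : ℕ) +
      ((GG l Cs.length h + 1 - l : ℕ) : ℤ) * S.I1.length) -
      #{j ∈ range (GG l Cs.length h) | r < rho l Cs h j} ≤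
      2 * (o3 + #{i ∈ s | ¬ (ht3 (GG l Cs.length h) (c i) = 0 ∧ r < rk3 (c i))}) := by
    intro r
    have hwr : wire l Cs.length h S r ≤ 1 := by
      rw [← s3_wire_eq hg]
      have := hok.s3_wire_neg (by simp) r
      omega
    have h1 := cov_ext c3 (wire l Cs.length h S r) (Or.inr (by
      obtain ⟨z, hz, hz'⟩ := hzed
      exact ⟨z, hz, hz' ▸ hwr.trans hz1⟩))
    have h2 := count5 (h := h) hg hS r
    have h3 : #{i ∈ s | wire l Cs.length h S r ≤ y3 i} ≤
        #{i ∈ s | ¬ (ht3 (GG l Cs.length h) (c i) = 0 ∧ r < rk3 (c i))} := by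
      refine card_le_card fun i hi => ?_
      simp only [mem_filter] at hi ⊢
      obtain ⟨hi, h4⟩ := hi
      refine ⟨hi, ?_⟩
      obtain ⟨h5, h6⟩ := hc i hi
      rw [← h6, ← s3_wire_eq hg] at h4
      cases h7 : c i with
      | zed => simp only [ht3]; omega
      | wire r' =>
        rw [h7] at h4
        have h8 := hok.s3_wire_le.1 h4
        simp only [ht3, rk3]
        omega
      | copy t' y' =>
        rw [h7] at h5
        have h8 := h5.1
        simp only [ht3]
        omega
    have h2' : 2 * ((GG l Cs.length h : ℤ) + (l / 2 : ℕ) +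
      ((GG l Cs.length h + 1 - l : ℕ) : ℤ) * S.I1.length) ≤
      2 * ((ch3 l Cs h S).countP (fun z => decide (wire l Cs.length h S r ≤ z)) : ℤ) +
        #{j ∈ range (GG l Cs.length h) | r < rho l Cs h j} := by exact_mod_cast h2
    have h3' : (#{i ∈ s | wire l Cs.length h S r ≤ y3 i} : ℤ) ≤
        #{i ∈ s | ¬ (ht3 (GG l Cs.length h) (c i) = 0 ∧ r < rk3 (c i))} := by exact_mod_cast h3
    have h4 : ((chain l Cs h S).I3.countP
      (fun z => decide (wire l Cs.length h S r ≤ z)) : ℤ) =
      (ch3 l Cs h S).countP (fun z => decide (wire l Cs.length h S r ≤ z)) := rfl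
    rw [h4] at h1
    linarith
  have hcop : ∀ i ∈ s, ∀ t y, c i = .copy t y → 2 ≤ t := fun i hi t y h7 => by
    have h5 := (hc i hi).1
    rw [h7] at h5
    have := h5.1
    omega
  have D : Acc75.Data s (fun i => Par.lev1 (a i)) (fun i => (spar l Cs h S).lev2 (b i))
      (fun i => ht3 (GG l Cs.length h) (c i)) (fun i => rk3 (c i)) (fun i => iv1 (a i))
      (fun i => iv2 (b i)) (fun i => iv3 (c i)) S l (GG l Cs.length h) (rho l Cs h) k h
      (hNext l Cs.length k h) o1 o2 o3 := by
    refine
      { wf := hS, l_even := hg.even_l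
        G_even := by rw [Glue834.even_GG]; exact even_two_mul _
        two_le := hl, l_le := hlG, h_le := ?_, rob := hrob, geo := ?_, c1 := ?_, c1z := ?_
        c2 := ?_, c2z := ?_, c3 := ?_, c4 := k4, c5 := k5, hU := ?_, hV := ?_ }
    · unfold hNext T1
      have : GG l Cs.length h * (k + h + GG l Cs.length h) ≤
          (GG l Cs.length h + l + 1) * (k + 1 + h + GG l Cs.length h) :=
        Nat.mul_le_mul (by omega) (by omega)
      omega
    · intro i hi
      rcases hgeo i hi with h1 | ⟨t, z1, z2, e1, e2, h1⟩ | ⟨r, e3, h1, _⟩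
      · exact Or.inl h1
      · right; left
        have u1 := (ha i hi).1
        have u2 := (hb i hi).1
        have u3 := (hc i hi).1
        rw [e1] at u1
        rw [e2] at u2
        rw [e1, e2]
        rcases h1 with ⟨z3, e3, h1⟩ | ⟨t', z3, h2, e3, h1⟩
        · rw [e3] at u3
          rw [e3]
          have h3 := hcop i hi _ _ e3
          refine ⟨rfl, by simp only [ht3]; omega, le_rfl, z1, z2, rfl, rfl, fun _ => ?_,
            fun h4 => absurd h4 (by simp only [ht3, Par.lev1]; omega)⟩
          exact ⟨u1.2.2, u2.2.2, Or.inr u3.2.2, h1⟩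
        · rw [e3]
          have h3 := hcop i hi _ _ e3
          refine ⟨rfl, by simp only [ht3]; omega, by simp only [ht3, Par.lev1]; omega, z1, z2,
            rfl, rfl, fun h4 => absurd h4 (by simp only [ht3, Par.lev1]; omega), fun _ => ?_⟩
          refine ⟨u1.2.2, u2.2.2, Or.inl rfl, ?_⟩
          rw [spar_w] at h1
          linarith
      · right; right
        rw [e3]
        exact ⟨rfl, h1⟩
    · intro t ht ht' x hx
      have h1 := abs_le.1 (hS.abs1 x hx)
      exact k1 t ht ht' x (by omega) (by omega)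
    · intro t ht ht'
      have h1 := k1 t ht ht' (S.W + 1) (by omega) le_rfl
      have h2 : S.I1.countP (fun z => decide ((S.W : ℤ) + 1 ≤ z)) = 0 := by
        rw [List.countP_eq_zero]
        intro z hz
        have h1 := abs_le.1 (hS.abs1 z hz)
        simp only [decide_eq_true_eq]
        omega
      rw [h2] at h1
      have h3 : #{i ∈ s | t < Par.lev1 (a i) ∨ (Par.lev1 (a i) = t ∧
          ∀ y, iv1 (a i) = some y → (S.W : ℤ) + 1 ≤ y)} ≤
          #{i ∈ s | t < Par.lev1 (a i) ∨ (Par.lev1 (a i) = t ∧ iv1 (a i) = none)} := by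
        refine card_le_card fun i hi => ?_
        simp only [mem_filter] at hi ⊢
        obtain ⟨hi, h4⟩ := hi
        refine ⟨hi, h4.imp_right fun h5 => ⟨h5.1, ?_⟩⟩
        cases h6 : a i with
        | node t' => rfl
        | bot => rfl
        | copy t' y' =>
          have h7 := (ha i hi).1
          rw [h6] at h7
          have h8 := h5.2 y' (by rw [h6]; rfl)
          have h9 := abs_le.1 (hS.abs1 y' h7.2.2)
          omega
      have h3' : (#{i ∈ s | t < Par.lev1 (a i) ∨ (Par.lev1 (a i) = t ∧
          ∀ y, iv1 (a i) = some y → (S.W : ℤ) + 1 ≤ y)} : ℤ) ≤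
          #{i ∈ s | t < Par.lev1 (a i) ∨ (Par.lev1 (a i) = t ∧ iv1 (a i) = none)} := by
        exact_mod_cast h3
      simp only [Nat.cast_zero, add_zero] at h1
      exact h1.trans (by linarith)
    · intro t ht ht' x hx
      have h1 := abs_le.1 (hS.abs2 x hx)
      exact k2 t ht ht' x (by omega) (by omega)
    · intro t ht ht'
      have h1 := k2 t ht ht' (S.W + 1) (by omega) le_rfl
      have h2 : S.I2.countP (fun z => decide ((S.W : ℤ) + 1 ≤ z)) = 0 := by
        rw [List.countP_eq_zero]
        intro z hz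
        have h1 := abs_le.1 (hS.abs2 z hz)
        simp only [decide_eq_true_eq]
        omega
      rw [h2] at h1
      have h3 : #{i ∈ s | (spar l Cs h S).lev2 (b i) < t ∨ ((spar l Cs h S).lev2 (b i) = t ∧
          ∀ y, iv2 (b i) = some y → (S.W : ℤ) + 1 ≤ y)} ≤
          #{i ∈ s | (spar l Cs h S).lev2 (b i) < t ∨ ((spar l Cs h S).lev2 (b i) = t ∧
            iv2 (b i) = none)} := by
        refine card_le_card fun i hi => ?_
        simp only [mem_filter] at hi ⊢
        obtain ⟨hi, h4⟩ := hi
        refine ⟨hi, h4.imp_right fun h5 => ⟨h5.1, ?_⟩⟩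
        cases h6 : b i with
        | start t' => rfl
        | bot => rfl
        | copy t' y' =>
          have h7 := (hb i hi).1
          rw [h6] at h7
          have h8 := h5.2 y' (by rw [h6]; rfl)
          have h9 := abs_le.1 (hS.abs2 y' h7.2.2)
          omega
      have h3' : (#{i ∈ s | (spar l Cs h S).lev2 (b i) < t ∨
          ((spar l Cs h S).lev2 (b i) = t ∧
          ∀ y, iv2 (b i) = some y → (S.W : ℤ) + 1 ≤ y)} : ℤ) ≤
          #{i ∈ s | (spar l Cs h S).lev2 (b i) < t ∨ ((spar l Cs h S).lev2 (b i) = t ∧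
            iv2 (b i) = none)} := by exact_mod_cast h3
      simp only [Nat.cast_zero, add_zero] at h1
      exact h1.trans (by linarith)
    · intro t ht ht' x hx
      have h1 := abs_le.1 (hS.abs3 x hx)
      exact k3 t ht ht' x (hS.neg_w_le x hx) (by omega)
    · rw [length_ch1] at hU
      simp only [nLev] at hU
      push_cast at hU ⊢
      linarith
    · rw [length_ch1] at hV
      simp only [nLev] at hV
      push_cast at hV ⊢
      linarith
  -- the core
  refine Glue834.core135 (s.filter fun i => ht3 (GG l Cs.length h) (c i) = 0 ∧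
    (spar l Cs h S).lev2 (b i) ≤ Par.lev1 (a i)) (fun i => (spar l Cs h S).lev2 (b i))
    (fun i => Par.lev1 (a i)) (fun i => rk3 (c i)) l h Cs hg ?_ ?_ ?_ ?_ ?_
  · intro i hi
    simp only [mem_filter] at hi
    obtain ⟨hi, h1, h2⟩ := hi
    refine ⟨?_, h2, ?_⟩
    · have u2 := (hb i hi).1
      cases h6 : b i with
      | start t' => rw [h6] at u2; exact u2.1
      | bot => simp only [Par.lev2]; omega
      | copy t' y' =>
        rw [h6] at u2
        have := u2.1
        simp only [Par.lev2]; omega
    · rcases hgeo i hi with h3 | ⟨t, z1, z2, e1, e2, h3⟩ | ⟨r, e3, h3, h4, _⟩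
      · omega
      · rw [e1, e2]
        simp only [Par.lev1, Par.lev2]
        omega
      · exact h4
  · intro i hi h3
    simp only [mem_filter] at hi
    obtain ⟨hi, h1, h2⟩ := hi
    rcases hgeo i hi with h4 | ⟨t, z1, z2, e1, e2, h4⟩ | ⟨r, e3, _, _, h4⟩
    · omega
    · rw [e1, e2] at h3
      simp only [Par.lev1, Par.lev2] at h3
      omega
    · rw [e3]
      exact h4 h3
  · intro t ht ht'
    refine (Acc75.crossing D ht ht').trans (card_le_card fun i hi => ?_)
    simp only [Acc75.cov, mem_filter] at hi ⊢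
    obtain ⟨hi, h1, h2, h3⟩ := hi
    exact ⟨⟨hi, h1, h2.trans h3⟩, h2, h3⟩
  · refine le_trans (Nat.mul_le_mul_left 2 (card_le_card fun i hi => ?_)) (Acc75.wires D)
    simp only [mem_filter] at hi ⊢
    exact ⟨hi.1, hi.2.1⟩
  · intro r
    refine le_trans (Nat.mul_le_mul_left 2 (card_le_card fun i hi => ?_)) (Acc75.suffix D r)
    simp only [mem_filter] at hi ⊢
    exact ⟨hi.1.1, hi.1.2.1, hi.2⟩

end Crest.Agent.R318.Step75
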