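import Crest.Agent.R318.Assembly_982
import Crest.Agent.R318.Spar_887
import Crest.Agent.R318.Step_75

/-!
# Row 318: the two statements
-/

set_option autoImplicit false

namespace Crest.Agent.R318.Assembly982

open Crest.Agent.R318.Spec135 Crest.Agent.Lib.PT Crest.BinPacking Crest.Enc

theorem wfStmt : WfStmt := fun _ _ _ _ hg hS => Spar887.chain_wf hg hS

theorem stepStmt : StepStmt := fun _ _ _ _ _ hg hS hrob hno => Step75.step hg hS hrob hno

theorem s0492 (c : ℕ) : Wrap_91.GapInstance c := s0492_of wfStmt stepStmt c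

theorem s0493 (c : ℕ) (A : Set (List Bool)) (hA : Crest.Complexity.InNP A) :
    ∃ f : List Bool → List Bool, Crest.Complexity.PolyTime f ∧
      ∀ x : List Bool, ∃ (sizes : List ℚ) (B : ℕ),
        f x = natCode sizes.length ++ (sizes.map ratCode).flatten ++ natCode B ∧
        (∀ a ∈ sizes, 1 / 6 < a ∧ a ≤ 1) ∧
        (x ∈ A → PacksInto (fun i : Fin sizes.length => sizes.get i) B) ∧
        (x ∉ A → ¬ PacksInto (fun i : Fin sizes.length => sizes.get i) (B + c)) :=
  s0493_of wfStmt stepStmt c A hA

end Crest.Agent.R318.Assembly982
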