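import Crest.Agent.R318.Geo_887

/-!
Row 318, piece (a), second part: explicit parameters satisfying `Par.Ok`.
-/

set_option autoImplicit false

namespace Crest.Agent.R318.Geo887

open Finset

/-- `sfun l rho t = ∑ rho (i - 1)` over `1 ≤ i < t` with `(l - 1) ∣ (t - i)`. -/
def sfun (l : ℕ) (rho : ℕ → ℕ) (t : ℕ) : ℕ :=
  ∑ i ∈ Ico 1 t, if (l - 1) ∣ (t - i) then rho (i - 1) else 0

theorem sfun_rel {l : ℕ} (hl : 2 ≤ l) (rho : ℕ → ℕ) {b : ℕ} (hb : 1 ≤ b) :
    sfun l rho (b + (l - 1)) = sfun l rho b + rho (b - 1) := by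
  have hm : 1 ≤ l - 1 := by omega
  unfold sfun
  generalize l - 1 = m at hm ⊢
  rw [← Finset.sum_Ico_consecutive _ hb (by omega : b ≤ b + m)]
  congr 1
  · apply Finset.sum_congr rfl
    intro i hi
    rw [Finset.mem_Ico] at hi
    have h1 : b + m - i = (b - i) + m := by omega
    rw [h1]
    by_cases hd : m ∣ b - i
    · rw [if_pos hd, if_pos (Dvd.dvd.add hd dvd_rfl)]
    · rw [if_neg hd, if_neg (fun hc => hd ((Nat.dvd_add_left dvd_rfl).1 hc))]
  · rw [Finset.sum_eq_single_of_mem b (by rw [Finset.mem_Ico]; omega)]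
    · rw [if_pos]
      rw [Nat.add_sub_cancel_left]
    · intro i hi hne
      rw [Finset.mem_Ico] at hi
      rw [if_neg]
      intro hd
      have := Nat.le_of_dvd (by omega) hd
      omega

theorem sfun_le {l : ℕ} (hl : 2 ≤ l) (rho : ℕ → ℕ) (G R : ℕ) (hR : ∀ j ≤ G, rho j ≤ R) {t : ℕ}
    (ht : t ≤ G + l) : sfun l rho t ≤ t * R := by
  unfold sfun
  calc ∑ i ∈ Ico 1 t, (if (l - 1) ∣ (t - i) then rho (i - 1) else 0)
      ≤ ∑ i ∈ Ico 1 t, R := by
        apply Finset.sum_le_sum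
        intro i hi
        rw [Finset.mem_Ico] at hi
        split_ifs with hd
        · apply hR
          have := Nat.le_of_dvd (by omega) hd
          omega
        · exact Nat.zero_le _
    _ ≤ t * R := by
        rw [Finset.sum_const, Nat.card_Ico, smul_eq_mul]
        exact Nat.mul_le_mul_right _ (by omega)

/-- `L` -/
def pL (w W : ℤ) : ℤ := 2 + w + 2 * W

/-- `Y = L ^ (G + l)` -/
def pY (l G : ℕ) (w W : ℤ) : ℤ := pL w W ^ (G + l)

def pH (l G : ℕ) (w W : ℤ) : ℤ := pY l G w W + 1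

def pg (l G : ℕ) (w W : ℤ) : ℤ := 4 * pY l G w W + 3

def pE (l G R : ℕ) (w W : ℤ) : ℤ := pg l G w W * (R + 1)

def pD (l G R : ℕ) (w W : ℤ) : ℤ := pg l G w W * (R * (G + l) + R + 1)

/-- Explicit parameters. -/
def mkPar (l G : ℕ) (rho : ℕ → ℕ) (R : ℕ) (w W : ℤ) : Par where
  l := l
  G := G
  rho := rho
  tau := fun t => t * pD l G R w W + pg l G w W * sfun l rho t
  D := pD l G R w W
  g := pg l G w W
  H := pH l G w W
  L := pL w W
  w := w

theorem mkPar_ok {l G : ℕ} {rho : ℕ → ℕ} {R : ℕ} {w W : ℤ} (hl : 2 ≤ l) (hG : 1 ≤ G)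
    (hw : 0 ≤ w) (hW : 0 ≤ W) (hR : ∀ j ≤ G, rho j ≤ R) :
    (mkPar l G rho R w W).Ok W (pE l G R w W) R := by
  have hL : 1 < pL w W := by unfold pL; linarith
  have hY : 0 < pY l G w W := by unfold pY; exact pow_pos (by linarith) _
  have hT : (mkPar l G rho R w W).T + 1 = G + l := by
    unfold Par.T mkPar; simp only; omega
  have hgp : 0 < pg l G w W := by unfold pg; linarith
  have hYT : (mkPar l G rho R w W).L ^ ((mkPar l G rho R w W).T + 1) = pY l G w W := by
    rw [hT]; rfl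
  refine ⟨hl, hG, hw, hW, ?_, ?_, ?_, ?_, ?_, ?_⟩
  · change 1 + w + 2 * W < pL w W
    unfold pL; linarith
  · rw [hYT]
    change pY l G w W < pH l G w W
    unfold pH; linarith
  · rw [hYT]
    change 2 * pH l G w W + 2 * pY l G w W < pg l G w W
    unfold pH pg; linarith
  · rw [hYT]
    change pg l G w W * R + 2 * pH l G w W + 2 * pY l G w W < pE l G R w W
    unfold pH pE pg; linarith
  · intro t ht
    have ht' : t + 1 ≤ G + l := by omega
    change pE l G R w W ≤ (((t + 1 : ℕ) : ℤ) * pD l G R w W + pg l G w W * sfun l rho (t + 1)) -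
      ((t : ℤ) * pD l G R w W + pg l G w W * sfun l rho t)
    have h1 : sfun l rho t ≤ t * R := sfun_le hl rho G R hR (by omega)
    have h2 : (sfun l rho t : ℤ) ≤ R * (G + l) := by
      have : sfun l rho t ≤ R * (G + l) := by
        rw [mul_comm R]
        exact h1.trans (Nat.mul_le_mul_right _ (by omega))
      exact_mod_cast this
    have h3 : pg l G w W * (sfun l rho t : ℤ) ≤ pg l G w W * (R * (G + l)) :=
      mul_le_mul_of_nonneg_left h2 hgp.le
    have h4 : 0 ≤ pg l G w W * (sfun l rho (t + 1) : ℤ) := mul_nonneg hgp.le (by positivity)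
    have h5 : pD l G R w W = pg l G w W * (R * (G + l)) + pE l G R w W := by
      unfold pD pE; ring
    push_cast
    linarith
  · intro b hb1 hbG
    change (((b + (l - 1) : ℕ) : ℤ) * pD l G R w W + pg l G w W * sfun l rho (b + (l - 1))) -
      ((b : ℤ) * pD l G R w W + pg l G w W * sfun l rho b) =
      ((l : ℤ) - 1) * pD l G R w W + pg l G w W * rho (b - 1)
    rw [sfun_rel hl rho hb1]
    have : ((l - 1 : ℕ) : ℤ) = (l : ℤ) - 1 := by
      rw [Nat.cast_sub (by omega)]; norm_num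
    push_cast [this]
    ring

end Crest.Agent.R318.Geo887
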