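import Crest.Agent.R318.CookLevin

/-!
# Row 318 (S0493), piece (f): the problem HALF is NP-hard

An instance of HALF is `(l, cs)` with `l` even and `cs` a list of duplicate-free lists of even length with
entries below `l`.  It is solvable when some `f : ℕ → ℕ` has total `l / 2` on `range l` and total
`C.length / 2` on each `C ∈ cs`.  `half_hard` reduces every problem in NP to it.
-/

set_option autoImplicit false
set_option linter.dupNamespace false

namespace Crest.Agent.R318.Half837

open Crest.Agent.Lib.PT Crest.Agent.R318.CL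

/-- solvability of a HALF instance -/
def HalfSat (I : ℕ × List (List ℕ)) : Prop :=
  ∃ f : ℕ → ℕ, (∑ i ∈ Finset.range I.1, f i) = I.1 / 2 ∧ ∀ C ∈ I.2, (C.map f).sum = C.length / 2

/-- solvability by a 0/1 function -/
def HalfSat01 (I : ℕ × List (List ℕ)) : Prop :=
  ∃ f : ℕ → ℕ, (∀ i, f i ≤ 1) ∧ (∑ i ∈ Finset.range I.1, f i) = I.1 / 2 ∧
    ∀ C ∈ I.2, (C.map f).sum = C.length / 2

/-- the normal form of HALF instances -/
structure HalfOk (I : ℕ × List (List ℕ)) : Prop where
  two_dvd : 2 ∣ I.1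
  two_le : 2 ≤ I.1
  ne_nil : I.2 ≠ []
  nodup : ∀ C ∈ I.2, C.Nodup
  two_dvd' : ∀ C ∈ I.2, 2 ∣ C.length
  pos : ∀ C ∈ I.2, 0 < C.length
  lt : ∀ C ∈ I.2, ∀ i ∈ C, i < I.1

/-- clauses with their index -/
def idx {V : Type} (F : List (List (Bool × V))) : List (ℕ × List (Bool × V)) :=
  (List.range F.length).zip F

theorem mem_idx {V : Type} {F : List (List (Bool × V))} {q : ℕ × List (Bool × V)} :
    q ∈ idx F ↔ F[q.1]? = some q.2 := by
  unfold idx
  rw [List.mem_iff_getElem?]
  constructor
  · rintro ⟨i, hi⟩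
    rw [List.getElem?_zip_eq_some] at hi
    obtain ⟨h1, h2⟩ := hi
    have h3 : i < F.length := by
      by_contra h
      rw [List.getElem?_eq_none (by simpa using h)] at h1
      exact absurd h1 (by simp)
    rw [List.getElem?_range h3] at h1
    rw [← Option.some_inj.1 h1]
    exact h2
  · intro h
    refine ⟨q.1, ?_⟩
    rw [List.getElem?_zip_eq_some]
    have h3 : q.1 < F.length := by
      by_contra h'
      rw [List.getElem?_eq_none (by simpa using h')] at h
      exact absurd h (by simp)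
    exact ⟨List.getElem?_range h3, h⟩

/-- wires of the literal occurrences -/
def occs {V : Type} (F : List (List (Bool × V))) : List (ℕ × (Bool × V)) :=
  (idx F).flatMap fun q =>
    ((List.range 3).zip q.2).map fun r => (2 + 10 * q.1 + 2 * r.1, r.2)

theorem mem_occs {V : Type} {F : List (List (Bool × V))} {a : ℕ × (Bool × V)} :
    a ∈ occs F ↔ ∃ j p C, F[j]? = some C ∧ p < 3 ∧ C[p]? = some a.2 ∧ a.1 = 2 + 10 * j + 2 * p := by
  unfold occs
  simp only [List.mem_flatMap, List.mem_map]
  constructor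
  · rintro ⟨q, hq, r, hr, rfl⟩
    rw [mem_idx] at hq
    rw [List.mem_iff_getElem?] at hr
    obtain ⟨i, hi⟩ := hr
    rw [List.getElem?_zip_eq_some] at hi
    obtain ⟨h1, h2⟩ := hi
    have h3 : i < 3 := by
      by_contra h
      rw [List.getElem?_eq_none (by simpa using h)] at h1
      exact absurd h1 (by simp)
    rw [List.getElem?_range h3] at h1
    refine ⟨q.1, i, q.2, hq, h3, h2, ?_⟩
    rw [← Option.some_inj.1 h1]
  · rintro ⟨j, p, C, hj, hp, hC, ha⟩
    refine ⟨(j, C), mem_idx.2 hj, (p, a.2), ?_, ?_⟩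
    · rw [List.mem_iff_getElem?]
      exact ⟨p, List.getElem?_zip_eq_some.2 ⟨List.getElem?_range hp, hC⟩⟩
    · exact Prod.ext ha.symm rfl

/-- link of two occurrences of the same variable -/
def link (a b : ℕ × (Bool × Var)) : List (List ℕ) :=
  if a.2.2 = b.2.2 then [[if a.2.1 = b.2.1 then a.1 + 1 else a.1, b.1]] else []

/-- constraints of one clause -/
def perClause (q : ℕ × List (Bool × Var)) : List (List ℕ) :=
  ((List.range 5).map (fun r => [2 + 10 * q.1 + 2 * r, 2 + 10 * q.1 + 2 * r + 1])) ++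
    [[2 + 10 * q.1, 2 + 10 * q.1 + 2, 2 + 10 * q.1 + 4, 0, 2 + 10 * q.1 + 6, 2 + 10 * q.1 + 8]] ++
    ((List.range 3).filter (fun p => decide (q.2.length ≤ p))).map (fun p => [1, 2 + 10 * q.1 + 2 * p])

/-- the HALF instance of a formula -/
def half (F : List (List (Bool × Var))) : ℕ × List (List ℕ) :=
  (2 + 10 * F.length, [0, 1] :: ((idx F).flatMap perClause ++
    (occs F).flatMap fun a => (occs F).flatMap fun b => link a b))

/-! ### polynomial time -/

section ptf

theorem ptf_half : PTF half := by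
  have hidx : PTF (fun F : List (List (Bool × Var)) => idx F) :=
    PTF.zip (PTF.range (PTU.length PTF.id)) PTF.id
  have hocc : PTF (fun F : List (List (Bool × Var)) => occs F) := by
    refine PTF.flatMap (f := fun _ (q : ℕ × List (Bool × Var)) =>
      ((List.range 3).zip q.2).map fun r => (2 + 10 * q.1 + 2 * r.1, r.2)) hidx ?_
    refine PTF.map (l := fun c : List (List (Bool × Var)) × (ℕ × List (Bool × Var)) =>
        (List.range 3).zip c.2.2)
      (f := fun c (r : ℕ × (Bool × Var)) => (2 + 10 * c.2.1 + 2 * r.1, r.2)) ?_ ?_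
    · exact PTF.zip (PTF.const _) (PTF.comp PTF.snd PTF.snd)
    · unfold PTF₂
      fun_prop
  have hper : PTF (fun q : ℕ × List (Bool × Var) => perClause q) := by
    unfold perClause
    refine PTF.append (PTF.append ?_ ?_) ?_
    · refine PTF.map (l := fun _ => List.range 5)
        (f := fun (q : ℕ × List (Bool × Var)) r =>
          [2 + 10 * q.1 + 2 * r, 2 + 10 * q.1 + 2 * r + 1]) (PTF.const _) ?_
      unfold PTF₂
      fun_prop
    · fun_prop
    · refine PTF.map (f := fun (q : ℕ × List (Bool × Var)) p => [1, 2 + 10 * q.1 + 2 * p]) ?_ ?_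
      · refine PTF.filter (l := fun _ => List.range 3)
          (p := fun (q : ℕ × List (Bool × Var)) p => decide (q.2.length ≤ p)) (PTF.const _) ?_
        refine PTPred.toPTF ?_
        exact PTPred.natLe (PTU.toPTF (PTU.length (PTF.comp PTF.snd PTF.fst))) PTF.snd
      · unfold PTF₂
        fun_prop
  have hlink : PTF (fun c : (List (List (Bool × Var)) × (ℕ × (Bool × Var))) × (ℕ × (Bool × Var)) =>
      link c.1.2 c.2) := by
    unfold link
    refine PTF.ite ?_ ?_ (PTF.const [])
    · exact PTPred.eq (by fun_prop) (by fun_prop)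
    · refine PTF.listCons (PTF.listCons ?_ (by fun_prop)) (PTF.const [])
      refine PTF.ite ?_ (by fun_prop) (by fun_prop)
      exact PTPred.eq (by fun_prop) (by fun_prop)
  unfold half
  refine PTF.prodMk ?_ (PTF.listCons (PTF.const _) (PTF.append ?_ ?_))
  · exact PTF.natAdd (PTF.const 2) (PTF.natMul (PTF.const 10) (PTU.toPTF (PTU.length PTF.id)))
  · exact PTF.flatMap (f := fun _ q => perClause q) hidx (PTF.comp hper PTF.snd)
  · refine PTF.flatMap (f := fun F a => (occs F).flatMap fun b => link a b) hocc ?_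
    exact PTF.flatMap (f := fun (c : List (List (Bool × Var)) × (ℕ × (Bool × Var))) b => link c.2 b)
      (PTF.comp hocc PTF.fst) hlink

end ptf

/-! ### well-formedness -/

theorem getElem?_lt {α : Type} {l : List α} {i : ℕ} {a : α} (h : l[i]? = some a) : i < l.length := by
  by_contra h'
  rw [List.getElem?_eq_none (by simpa using h')] at h
  exact absurd h (by simp)

theorem mem_half {F : List (List (Bool × Var))} {C : List ℕ} (h : C ∈ (half F).2) :
    C = [0, 1] ∨
    (∃ j, j < F.length ∧ ∃ r < 5, C = [2 + 10 * j + 2 * r, 2 + 10 * j + 2 * r + 1]) ∨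
    (∃ j, j < F.length ∧
      C = [2 + 10 * j, 2 + 10 * j + 2, 2 + 10 * j + 4, 0, 2 + 10 * j + 6, 2 + 10 * j + 8]) ∨
    (∃ j D, F[j]? = some D ∧ ∃ p < 3, D.length ≤ p ∧ C = [1, 2 + 10 * j + 2 * p]) ∨
    (∃ a ∈ occs F, ∃ b ∈ occs F, a.2.2 = b.2.2 ∧
      C = [if a.2.1 = b.2.1 then a.1 + 1 else a.1, b.1]) := by
  simp only [half, List.mem_cons, List.mem_append, List.mem_flatMap] at h
  rcases h with rfl | ⟨q, hq, h⟩ | ⟨a, ha, b, hb, h⟩
  · exact Or.inl rfl
  · rw [mem_idx] at hq
    simp only [perClause, List.mem_append, List.mem_map, List.mem_range, List.mem_singleton,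
      List.mem_filter, decide_eq_true_eq] at h
    rcases h with (⟨r, hr, rfl⟩ | rfl) | ⟨p, ⟨hp, hp'⟩, rfl⟩
    · exact Or.inr (Or.inl ⟨q.1, getElem?_lt hq, r, hr, rfl⟩)
    · exact Or.inr (Or.inr (Or.inl ⟨q.1, getElem?_lt hq, rfl⟩))
    · exact Or.inr (Or.inr (Or.inr (Or.inl ⟨q.1, q.2, hq, p, hp, hp', rfl⟩)))
  · refine Or.inr (Or.inr (Or.inr (Or.inr ⟨a, ha, b, hb, ?_⟩)))
    unfold link at h
    split_ifs at h with h1 h2
    · exact ⟨h1, by rw [List.mem_singleton] at h; rw [h, if_pos h2]⟩
    · exact ⟨h1, by rw [List.mem_singleton] at h; rw [h, if_neg h2]⟩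
    · exact absurd h (by simp)

theorem pair_mem_half {F : List (List (Bool × Var))} {j r : ℕ} (hj : j < F.length) (hr : r < 5) :
    [2 + 10 * j + 2 * r, 2 + 10 * j + 2 * r + 1] ∈ (half F).2 := by
  simp only [half, List.mem_cons, List.mem_append, List.mem_flatMap]
  refine Or.inr (Or.inl ⟨(j, F[j]), mem_idx.2 (List.getElem?_eq_getElem hj), ?_⟩)
  simp only [perClause, List.mem_append, List.mem_map, List.mem_range]
  exact Or.inl (Or.inl ⟨r, hr, rfl⟩)

theorem clause_mem_half {F : List (List (Bool × Var))} {j : ℕ} (hj : j < F.length) :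
    [2 + 10 * j, 2 + 10 * j + 2, 2 + 10 * j + 4, 0, 2 + 10 * j + 6, 2 + 10 * j + 8] ∈ (half F).2 := by
  simp only [half, List.mem_cons, List.mem_append, List.mem_flatMap]
  refine Or.inr (Or.inl ⟨(j, F[j]), mem_idx.2 (List.getElem?_eq_getElem hj), ?_⟩)
  simp only [perClause, List.mem_append]
  exact Or.inl (Or.inr (by simp))

theorem pad_mem_half {F : List (List (Bool × Var))} {j p : ℕ} {D : List (Bool × Var)}
    (hj : F[j]? = some D) (hp : p < 3) (hp' : D.length ≤ p) :
    [1, 2 + 10 * j + 2 * p] ∈ (half F).2 := by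
  simp only [half, List.mem_cons, List.mem_append, List.mem_flatMap]
  refine Or.inr (Or.inl ⟨(j, D), mem_idx.2 hj, ?_⟩)
  simp only [perClause, List.mem_append, List.mem_map, List.mem_filter, List.mem_range,
    decide_eq_true_eq]
  exact Or.inr ⟨p, ⟨hp, hp'⟩, rfl⟩

theorem link_mem_half {F : List (List (Bool × Var))} {a b : ℕ × (Bool × Var)} (ha : a ∈ occs F)
    (hb : b ∈ occs F) (h : a.2.2 = b.2.2) :
    [if a.2.1 = b.2.1 then a.1 + 1 else a.1, b.1] ∈ (half F).2 := by
  simp only [half, List.mem_cons, List.mem_append, List.mem_flatMap]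
  refine Or.inr (Or.inr ⟨a, ha, b, hb, ?_⟩)
  unfold link
  rw [if_pos h]
  exact List.mem_singleton.2 rfl

theorem half_ok (F : List (List (Bool × Var))) : HalfOk (half F) where
  two_dvd := by
    show 2 ∣ 2 + 10 * F.length
    omega
  two_le := by
    show 2 ≤ 2 + 10 * F.length
    omega
  ne_nil := by simp [half]
  nodup := by
    intro C hC
    rcases mem_half hC with rfl | ⟨j, hj, r, hr, rfl⟩ | ⟨j, hj, rfl⟩ | ⟨j, D, hj, p, hp, hp', rfl⟩ |
      ⟨a, ha, b, hb, hab, rfl⟩
    · simp
    · simp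
    · simp only [List.nodup_cons, List.mem_cons, List.not_mem_nil, or_false, List.nodup_nil,
        and_true, not_or, not_false_iff]
      omega
    · simp only [List.nodup_cons, List.mem_cons, List.not_mem_nil, or_false, List.nodup_nil,
        and_true, not_false_iff]
      omega
    · simp only [List.nodup_cons, List.mem_cons, List.not_mem_nil, or_false, List.nodup_nil,
        and_true, not_false_iff]
      obtain ⟨j, p, C, hj, hp, hC, ha⟩ := mem_occs.1 ha
      obtain ⟨j', p', C', hj', hp', hC', hb⟩ := mem_occs.1 hb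
      split_ifs with h
      · omega
      · intro h'
        have h1 : j = j' := by omega
        have h2 : p = p' := by omega
        subst h1
        subst h2
        rw [hj] at hj'
        have h3 := Option.some_inj.1 hj'
        subst h3
        rw [hC] at hC'
        exact h (by rw [Option.some_inj.1 hC'])
  two_dvd' := by
    intro C hC
    rcases mem_half hC with rfl | ⟨j, hj, r, hr, rfl⟩ | ⟨j, hj, rfl⟩ | ⟨j, D, hj, p, hp, hp', rfl⟩ |
      ⟨a, ha, b, hb, hab, rfl⟩ <;> simp
  pos := by
    intro C hC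
    rcases mem_half hC with rfl | ⟨j, hj, r, hr, rfl⟩ | ⟨j, hj, rfl⟩ | ⟨j, D, hj, p, hp, hp', rfl⟩ |
      ⟨a, ha, b, hb, hab, rfl⟩ <;> simp
  lt := by
    intro C hC
    show ∀ i ∈ C, i < 2 + 10 * F.length
    rcases mem_half hC with rfl | ⟨j, hj, r, hr, rfl⟩ | ⟨j, hj, rfl⟩ | ⟨j, D, hj, p, hp, hp', rfl⟩ |
      ⟨a, ha, b, hb, hab, rfl⟩
    · intro i hi
      simp only [List.mem_cons, List.not_mem_nil, or_false] at hi
      omega
    · intro i hi
      simp only [List.mem_cons, List.not_mem_nil, or_false] at hi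
      omega
    · intro i hi
      simp only [List.mem_cons, List.not_mem_nil, or_false] at hi
      omega
    · intro i hi
      have := getElem?_lt hj
      simp only [List.mem_cons, List.not_mem_nil, or_false] at hi
      omega
    · intro i hi
      obtain ⟨j, p, C, hj, hp, hC, ha⟩ := mem_occs.1 ha
      obtain ⟨j', p', C', hj', hp', hC', hb⟩ := mem_occs.1 hb
      have h1 := getElem?_lt hj
      have h2 := getElem?_lt hj'
      simp only [List.mem_cons, List.not_mem_nil, or_false] at hi
      split_ifs at hi <;> omega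

/-! ### from a HALF solution to an assignment -/

theorem sat_of_half {F : List (List (Bool × Var))} (h : HalfSat (half F)) : Sat F := by
  classical
  obtain ⟨f, -, hf⟩ := h
  have h01 : f 0 + f 1 = 1 := by
    have := hf [0, 1] (by simp [half])
    simpa using this
  have hpair : ∀ j < F.length, ∀ r < 5, f (2 + 10 * j + 2 * r) + f (2 + 10 * j + 2 * r + 1) = 1 := by
    intro j hj r hr
    have := hf _ (pair_mem_half hj hr)
    simpa using this
  have hcl : ∀ j < F.length, f (2 + 10 * j) + (f (2 + 10 * j + 2) + (f (2 + 10 * j + 4) + (f 0 +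
      (f (2 + 10 * j + 6) + f (2 + 10 * j + 8))))) = 3 := by
    intro j hj
    have := hf _ (clause_mem_half hj)
    simpa using this
  have hpad : ∀ j D p, F[j]? = some D → p < 3 → D.length ≤ p → f 1 + f (2 + 10 * j + 2 * p) = 1 := by
    intro j D p hj hp hp'
    have := hf _ (pad_mem_half hj hp hp')
    simpa using this
  have hlink : ∀ a ∈ occs F, ∀ b ∈ occs F, a.2.2 = b.2.2 →
      f (if a.2.1 = b.2.1 then a.1 + 1 else a.1) + f b.1 = 1 := by
    intro a ha b hb hab
    have := hf _ (link_mem_half ha hb hab)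
    simpa using this
  have hocc : ∀ a ∈ occs F, f a.1 + f (a.1 + 1) = 1 := by
    intro a ha
    obtain ⟨j, p, C, hj, hp, hC, ha⟩ := mem_occs.1 ha
    rw [ha]
    exact hpair j (getElem?_lt hj) p (by omega)
  set val : ℕ × (Bool × Var) → Bool := fun a => if f a.1 = f 0 then !a.2.1 else a.2.1 with hval
  have hcons : ∀ a ∈ occs F, ∀ b ∈ occs F, a.2.2 = b.2.2 → val a = val b := by
    intro a ha b hb hab
    have h1 := hlink a ha b hb hab
    have h2 := hocc a ha
    have h3 := hocc b hb
    simp only [hval]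
    by_cases h4 : a.2.1 = b.2.1
    · rw [if_pos h4] at h1
      have h5 : f a.1 = f b.1 := by omega
      rw [h5, h4]
    · rw [if_neg h4] at h1
      by_cases h6 : f a.1 = f 0
      · have h7 : f b.1 ≠ f 0 := by omega
        rw [if_pos h6, if_neg h7]
        revert h4
        cases a.2.1 <;> cases b.2.1 <;> simp
      · have h7 : f b.1 = f 0 := by omega
        rw [if_neg h6, if_pos h7]
        revert h4
        cases a.2.1 <;> cases b.2.1 <;> simp
  refine ⟨fun v => if hv : ∃ a ∈ occs F, a.2.2 = v then val hv.choose else false, ?_⟩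
  have hτ : ∀ a ∈ occs F, (if hv : ∃ b ∈ occs F, b.2.2 = a.2.2 then val hv.choose else false) =
      val a := by
    intro a ha
    have hv : ∃ b ∈ occs F, b.2.2 = a.2.2 := ⟨a, ha, rfl⟩
    rw [dif_pos hv]
    exact hcons _ hv.choose_spec.1 _ ha hv.choose_spec.2
  intro C hC
  obtain ⟨j, hj, hjC⟩ := List.mem_iff_getElem.1 hC
  have hjC' : F[j]? = some C := by rw [List.getElem?_eq_getElem hj, hjC]
  have key : ∃ p < 3, f (2 + 10 * j + 2 * p) ≠ f 0 := by
    by_contra hcon
    push Not at hcon
    have e0 := hcon 0 (by omega)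
    have e1 := hcon 1 (by omega)
    have e2 := hcon 2 (by omega)
    have c := hcl j hj
    have p3 := hpair j hj 3 (by omega)
    have p4 := hpair j hj 4 (by omega)
    simp only [Nat.mul_zero, Nat.add_zero, Nat.mul_one] at e0 e1 e2
    have e2' : f (2 + 10 * j + 4) = f 0 := e2
    have p3' : f (2 + 10 * j + 6) + f (2 + 10 * j + 6 + 1) = 1 := p3
    have p4' : f (2 + 10 * j + 8) + f (2 + 10 * j + 8 + 1) = 1 := p4
    rw [e0, e1, e2'] at c
    omega
  obtain ⟨p, hp, hpne⟩ := key
  have hlt : p < C.length := by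
    by_contra hcon
    have := hpad j C p hjC' hp (by omega)
    omega
  have hmem : (2 + 10 * j + 2 * p, C[p]) ∈ occs F :=
    mem_occs.2 ⟨j, p, C, hjC', hp, List.getElem?_eq_getElem hlt, rfl⟩
  refine ⟨C[p], List.getElem_mem hlt, ?_⟩
  have h1 := hτ _ hmem
  refine h1.trans ?_
  simp only [hval]
  rw [if_neg hpne]

/-! ### from an assignment to a HALF solution -/

section forward

variable (F : List (List (Bool × Var))) (τ : Var → Bool)

/-- value of the occurrence wire -/
def lv (j p : ℕ) : ℕ :=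
  match (F.getD j [])[p]? with
  | some l => if τ l.2 = l.1 then 1 else 0
  | none => 0

/-- values of the five wires of a clause -/
def hv (j r : ℕ) : ℕ :=
  if r < 3 then lv F τ j r
  else if r = 3 then (if lv F τ j 0 + lv F τ j 1 + lv F τ j 2 ≤ 2 then 1 else 0)
  else (if lv F τ j 0 + lv F τ j 1 + lv F τ j 2 ≤ 1 then 1 else 0)

/-- value of the wire pair `k` -/
def pv (k : ℕ) : ℕ := if k = 0 then 0 else hv F τ ((k - 1) / 5) ((k - 1) % 5)

/-- the solution -/
def sol (i : ℕ) : ℕ := if i % 2 = 0 then pv F τ (i / 2) else 1 - pv F τ (i / 2)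

theorem lv_le (j p : ℕ) : lv F τ j p ≤ 1 := by
  unfold lv
  split
  · split_ifs <;> omega
  · omega

theorem hv_le (j r : ℕ) : hv F τ j r ≤ 1 := by
  unfold hv
  have := lv_le F τ j r
  split_ifs <;> omega

theorem pv_le (k : ℕ) : pv F τ k ≤ 1 := by
  unfold pv
  have := hv_le F τ ((k - 1) / 5) ((k - 1) % 5)
  split_ifs <;> omega

theorem sol_le (i : ℕ) : sol F τ i ≤ 1 := by
  unfold sol
  have := pv_le F τ (i / 2)
  split_ifs <;> omega

theorem sol_even (k : ℕ) : sol F τ (2 * k) = pv F τ k := by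
  unfold sol
  rw [if_pos (by omega), show 2 * k / 2 = k by omega]

theorem sol_odd (k : ℕ) : sol F τ (2 * k + 1) = 1 - pv F τ k := by
  unfold sol
  rw [if_neg (by omega), show (2 * k + 1) / 2 = k by omega]

theorem sol_wire (j r : ℕ) (hr : r < 5) : sol F τ (2 + 10 * j + 2 * r) = hv F τ j r := by
  rw [show 2 + 10 * j + 2 * r = 2 * (1 + 5 * j + r) by ring, sol_even]
  unfold pv
  rw [if_neg (by omega), show (1 + 5 * j + r - 1) / 5 = j by omega,
    show (1 + 5 * j + r - 1) % 5 = r by omega]

theorem sol_wire' (j r : ℕ) (hr : r < 5) : sol F τ (2 + 10 * j + 2 * r + 1) = 1 - hv F τ j r := by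
  rw [show 2 + 10 * j + 2 * r + 1 = 2 * (1 + 5 * j + r) + 1 by ring, sol_odd]
  unfold pv
  rw [if_neg (by omega), show (1 + 5 * j + r - 1) / 5 = j by omega,
    show (1 + 5 * j + r - 1) % 5 = r by omega]

theorem sum_sol (n : ℕ) : (∑ i ∈ Finset.range (2 * n), sol F τ i) = n := by
  induction n with
  | zero => simp
  | succ n ih =>
    rw [show 2 * (n + 1) = 2 * n + 1 + 1 by ring, Finset.sum_range_succ, Finset.sum_range_succ, ih,
      sol_even, sol_odd]
    have := pv_le F τ n
    omega

theorem sol_zero : sol F τ 0 = 0 := by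
  have := sol_even F τ 0
  rw [Nat.mul_zero] at this
  rw [this]
  simp [pv]

theorem sol_one : sol F τ 1 = 1 := by
  have := sol_odd F τ 0
  rw [Nat.mul_zero] at this
  rw [this]
  simp [pv]

theorem sol_occ {a : ℕ × (Bool × Var)} (ha : a ∈ occs F) :
    sol F τ a.1 = (if τ a.2.2 = a.2.1 then 1 else 0) ∧
      sol F τ (a.1 + 1) = 1 - (if τ a.2.2 = a.2.1 then 1 else 0) := by
  obtain ⟨j, p, C, hj, hp, hC, ha⟩ := mem_occs.1 ha
  have h1 : hv F τ j p = (if τ a.2.2 = a.2.1 then 1 else 0) := by
    unfold hv lv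
    rw [if_pos hp, List.getD_eq_getElem?_getD, hj]
    simp only [Option.getD_some]
    rw [hC]
  rw [ha, sol_wire F τ j p (by omega), sol_wire' F τ j p (by omega), h1]
  exact ⟨rfl, rfl⟩

theorem half_of_sat (hτ : ∀ C ∈ F, ∃ l ∈ C, τ l.2 = l.1) (hF : ∀ C ∈ F, C.length ≤ 3) :
    HalfSat01 (half F) := by
  refine ⟨sol F τ, sol_le F τ, ?_, ?_⟩
  · show (∑ i ∈ Finset.range (2 + 10 * F.length), sol F τ i) = (2 + 10 * F.length) / 2
    rw [show 2 + 10 * F.length = 2 * (1 + 5 * F.length) by ring, sum_sol]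
    omega
  · intro C hC
    rcases mem_half hC with rfl | ⟨j, hj, r, hr, rfl⟩ | ⟨j, hj, rfl⟩ | ⟨j, D, hj, p, hp, hp', rfl⟩ |
      ⟨a, ha, b, hb, hab, rfl⟩
    · simp [sol_zero, sol_one]
    · have := hv_le F τ j r
      simp only [List.map_cons, List.map_nil, List.sum_cons, List.sum_nil, List.length_cons,
        List.length_nil]
      rw [sol_wire F τ j r hr, sol_wire' F τ j r hr]
      omega
    · have e0 := sol_wire F τ j 0 (by omega)
      have e1 := sol_wire F τ j 1 (by omega)
      have e2 := sol_wire F τ j 2 (by omega)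
      have e3 := sol_wire F τ j 3 (by omega)
      have e4 := sol_wire F τ j 4 (by omega)
      have e0' : sol F τ (2 + 10 * j) = lv F τ j 0 := by
        rw [Nat.mul_zero, Nat.add_zero] at e0
        rw [e0]
        rfl
      have e1' : sol F τ (2 + 10 * j + 2) = lv F τ j 1 := e1
      have e2' : sol F τ (2 + 10 * j + 4) = lv F τ j 2 := e2
      have e3' : sol F τ (2 + 10 * j + 6) =
        (if lv F τ j 0 + lv F τ j 1 + lv F τ j 2 ≤ 2 then 1 else 0) := e3
      have e4' : sol F τ (2 + 10 * j + 8) =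
        (if lv F τ j 0 + lv F τ j 1 + lv F τ j 2 ≤ 1 then 1 else 0) := e4
      simp only [List.map_cons, List.map_nil, List.sum_cons, List.sum_nil, List.length_cons,
        List.length_nil]
      rw [e0', e1', e2', e3', e4', sol_zero]
      have l0 := lv_le F τ j 0
      have l1 := lv_le F τ j 1
      have l2 := lv_le F τ j 2
      have hpos : 1 ≤ lv F τ j 0 + lv F τ j 1 + lv F τ j 2 := by
        obtain ⟨l, hl, hτl⟩ := hτ F[j] (List.getElem_mem hj)
        obtain ⟨p, hp, hpl⟩ := List.mem_iff_getElem.1 hl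
        have h3 := hF F[j] (List.getElem_mem hj)
        have h4 : lv F τ j p = 1 := by
          unfold lv
          rw [List.getD_eq_getElem?_getD, List.getElem?_eq_getElem hj, Option.getD_some,
            List.getElem?_eq_getElem hp, hpl]
          simp [hτl]
        have h5 : p < 3 := by omega
        interval_cases p <;> omega
      split_ifs <;> omega
    · have h1 : hv F τ j p = 0 := by
        unfold hv lv
        rw [if_pos hp, List.getD_eq_getElem?_getD, hj, Option.getD_some, List.getElem?_eq_none hp']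
      simp only [List.map_cons, List.map_nil, List.sum_cons, List.sum_nil, List.length_cons,
        List.length_nil]
      rw [sol_wire F τ j p (by omega), h1, sol_one]
      rfl
    · obtain ⟨ha1, ha2⟩ := sol_occ F τ ha
      obtain ⟨hb1, hb2⟩ := sol_occ F τ hb
      simp only [List.map_cons, List.map_nil, List.sum_cons, List.sum_nil, List.length_cons,
        List.length_nil]
      rw [hb1]
      by_cases h : a.2.1 = b.2.1
      · rw [if_pos h, ha2, hab, h]
        split_ifs <;> omega
      · rw [if_neg h, ha1, hab]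
        revert h
        cases a.2.1 <;> cases b.2.1 <;> cases τ b.2.2 <;> simp

end forward

theorem HalfSat01.halfSat {I : ℕ × List (List ℕ)} (h : HalfSat01 I) : HalfSat I := by
  obtain ⟨f, -, h1, h2⟩ := h
  exact ⟨f, h1, h2⟩

/-- every problem in NP reduces in polynomial time to HALF -/
theorem half_hard_ptu {A : Set (List Bool)} (hA : Crest.Complexity.InNP A) :
    ∃ H : List Bool → ℕ × List (List ℕ), PTF H ∧ PTU (fun x => (H x).1) ∧ (∀ x, HalfOk (H x)) ∧
      (∀ x, x ∈ A → HalfSat01 (H x)) ∧ (∀ x, x ∉ A → ¬ HalfSat (H x)) := by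
  obtain ⟨F, hF, hlen, hFA⟩ := cookLevin hA
  refine ⟨fun x => half (F x), PTF.comp ptf_half hF, ?_, fun x => half_ok _, fun x hx => ?_,
    fun x hx h => hx ((hFA x).2 (sat_of_half h))⟩
  · exact PTU.add (PTU.const 2) (PTU.mul (PTU.const 10) (PTU.length hF))
  · obtain ⟨τ, hτ⟩ := (hFA x).1 hx
    exact half_of_sat _ τ hτ (hlen x)

theorem half_hard {A : Set (List Bool)} (hA : Crest.Complexity.InNP A) :
    ∃ H : List Bool → ℕ × List (List ℕ), PTF H ∧ (∀ x, HalfOk (H x)) ∧
      (∀ x, x ∈ A → HalfSat01 (H x)) ∧ (∀ x, x ∉ A → ¬ HalfSat (H x)) := by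
  obtain ⟨H, h1, -, h2, h3, h4⟩ := half_hard_ptu hA
  exact ⟨H, h1, h2, h3, h4⟩

/-- a fixed unsolvable instance -/
def bad : ℕ × List (List ℕ) := (4, [[0, 1], [0, 2], [1, 2]])

theorem bad_ok : HalfOk bad := by
  refine ⟨?_, ?_, ?_, ?_, ?_, ?_, ?_⟩
  · decide
  · decide
  · decide
  · decide
  · decide
  · decide
  · decide

theorem bad_unsat : ¬ HalfSat bad := by
  rintro ⟨f, -, h⟩
  have h1 := h [0, 1] (by simp [bad])
  have h2 := h [0, 2] (by simp [bad])
  have h3 := h [1, 2] (by simp [bad])
  simp only [List.map_cons, List.map_nil, List.sum_cons, List.sum_nil, List.length_cons,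
    List.length_nil] at h1 h2 h3
  omega

end Crest.Agent.R318.Half837
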